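import Vale.Agent.P237.Petty.Cor.Grid.Tiny.N6.Cert

/-!
# P237: a cell down to zero in dimension 6, subdivisions
-/

namespace Vale.Agent.P237.Petty.Cor.Grid.Tiny.N6

def covers23 : cell.Covers Vale.Agent.P237.Petty.Cor.Grid.N6.table row23.1 :=
  ⟨(.cut .d 0 (.cut .v 16777216 (.cut .v 8388608 (.void 2 ⟨⟨0, 0, 100000, 0, 0, 0, 0, 0, 0, ⟨0, 0⟩, 0⟩, 0, 0⟩ 0 0) (.cut .d (-8388608) (.void 3 ⟨⟨0, 0, 0, 0, 0, 100000, 0, 0, 0, ⟨0, 0⟩, 0⟩, 0, 0⟩ 0 0) (.cut .d (-4194304) (.void 3 ⟨⟨0, 0, 0, 0, 0, 100000, 0, 0, 0, ⟨0, 0⟩, 0⟩, 0, 0⟩ 0 0) (.cut .d (-2097152) (.void 3 ⟨⟨0, 0, 0, 0, 0, 100000, 0, 0, 0, ⟨0, 0⟩, 0⟩, 0, 0⟩ 0 0) (.cut .d (-1048576) (.void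 3 ⟨⟨0, 0, 0, 0, 0, 100000, 0, 0, 0, ⟨0, 0⟩, 0⟩, 0, 0⟩ 0 0) (.cut .d (-524288) (.void 3 ⟨⟨0, 0, 0, 0, 0, 100000, 0, 0, 0, ⟨0, 0⟩, 0⟩, 0, 0⟩ 0 0) (.cut .s 13369344 (.pos 3 .mm ⟨⟨0, 0, 0, 0, 0, 142359268, 0, 0, 0, ⟨0, 0⟩, 0⟩, 0, 0⟩ 0 0) (.pos 3 .mm ⟨⟨0, 0, 0, 0, 0, 157618685, 0, 0, 0, ⟨0, 0⟩, 0⟩, 0, 0⟩ 0 0)))))))) (.cut .v 67108864 (.cut .v 33554432 (.cut .v 25165824 (.cut .d (-8388608) (.void 23 ⟨⟨100000, 0, 0, 0, 0, 0, 0, 0, 0, ⟨0, 0⟩, 0⟩, 0, 0⟩ 0 0) (.cut .v 20971520 (.cut .d (-4194304) (.void 25 ⟨⟨100000, 0, 0, 0, 0, 0, 0, 0, 0, ⟨0, 0⟩, 0⟩, 0, 0⟩ 0 0) (.cut .v 18874368 (.cut .d (-2097152) (.void 27 ⟨⟨100000, 0, 0, 0, 0, 0, 0, 0, 0,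 ⟨0, 0⟩, 0⟩, 0, 0⟩ 0 0) (.cut .v 17825792 (.cut .d (-1048576) (.void 29 ⟨⟨100000, 0, 0, 0, 0, 0, 0, 0, 0, ⟨0, 0⟩, 0⟩, 0, 0⟩ 0 0) (.cut .v 17301504 (.cut .d (-524288) (.void 31 ⟨⟨100000, 0, 0, 0, 0, 0, 0, 0, 0, ⟨0, 0⟩, 0⟩, 0, 0⟩ 0 0) (.cut .d (-262144) (.void 31 ⟨⟨100000, 0, 0, 0, 0, 0, 0, 0, 0, ⟨0, 0⟩, 0⟩, 0, 0⟩ 0 0) (.cut .d (-131072) (.void 31 ⟨⟨100000, 0, 0, 0, 0, 0, 0, 0, 0, ⟨0, 0⟩, 0⟩, 0, 0⟩ 0 0) (.cut .d (-65536) (.void 31 ⟨⟨0, 0, 0, 0, 0, 100000, 0, 0, 0, ⟨0, 0⟩, 0⟩, 0, 0⟩ 0 0) (.cut .v 17039360 (.cut .s 13369344 (.cut .d (-32768) (.cut .l 307582 (.void 33 ⟨⟨0, 0, 0, 0, 0, 100000, 0, 0, 0, ⟨0, 0⟩, 0⟩, 0, 0⟩ 0 0) (.cut .s 13303808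 (.cut .v 16908288 (.pos 35 .mp ⟨⟨25128978, 0, 0, 0, 0, 90793524, 0, 0, 0, ⟨0, 0⟩, 0⟩, 0, 0⟩ 0 0) (.cut .d (-49152) (.pos 36 .mp ⟨⟨32907503, 0, 0, 0, 0, 80969597, 0, 0, 0, ⟨0, 0⟩, 0⟩, 0, 0⟩ 0 0) (.cut .s 13271040 (.pos 36 .mp ⟨⟨34389799, 0, 0, 0, 0, 70090581, 0, 0, 0, ⟨0, 0⟩, 0⟩, 0, 0⟩ 0 0) (.cut .s 13287424 (.pos 36 .mp ⟨⟨34147970, 0, 0, 0, 0, 73263511, 0, 0, 0, ⟨0, 0⟩, 0⟩, 0, 0⟩ 0 0) (.pos 36 .mp ⟨⟨34587562, 0, 0, 0, 0, 74047219, 0, 0, 0, ⟨0, 0⟩, 0⟩, 0, 0⟩ 0 0))))) (.cut .v 16908288 (.pos 35 .mp ⟨⟨0, 0, 0, 0, 0, 155643239, 0, 0, 0, ⟨0, 0⟩, 0⟩, 0, 0⟩ 0 0) (.cut .d (-49152) (.pos 36 .mp ⟨⟨34665271, 0, 0, 0, 0, 84585219, 0, 0, 0, ⟨0,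 0⟩, 0⟩, 0, 0⟩ 0 0) (.cut .v 16973824 (.cut .l 461373 (.pos 49 .mp ⟨⟨36621863, 0, 0, 0, 0, 76606478, 0, 0, 0, ⟨0, 0⟩, 0⟩, 0, 0⟩ 0 0) (.cut .s 13336576 (.pos 49 .mp ⟨⟨35228695, 0, 0, 0, 0, 74685444, 0, 0, 0, ⟨0, 0⟩, 0⟩, 0, 0⟩ 0 0) (.cut .s 13352960 (.pos 49 .mp ⟨⟨32982025, 0, 0, 0, 0, 82818782, 0, 0, 0, ⟨0, 0⟩, 0⟩, 0, 0⟩ 0 0) (.pos 49 .mp ⟨⟨33449368, 0, 0, 0, 0, 83666215, 0, 0, 0, ⟨0, 0⟩, 0⟩, 0, 0⟩ 0 0)))) (.pos 50 .mp ⟨⟨82804634, 0, 0, 0, 0, 0, 0, 0, 0, ⟨0, 0⟩, 0⟩, 0, 0⟩ 0 0)))))) (.cut .l 307582 (.cut .v 16908288 (.cut .d (-16384) (.cut .l 153791 (.void 35 ⟨⟨0, 0, 0, 0, 0, 100000, 0, 0, 0, ⟨0, 0⟩, 0⟩, 0, 0⟩ 0 0) (.cut .d (-24576) (.pos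 35 .mp ⟨⟨30450835, 0, 0, 0, 0, 90600110, 0, 0, 0, ⟨0, 0⟩, 0⟩, 0, 0⟩ 0 0) (.cut .s 13303808 (.cut .s 13271040 (.pos 35 .mp ⟨⟨29532494, 0, 0, 0, 0, 79864623, 0, 0, 0, ⟨0, 0⟩, 0⟩, 0, 0⟩ 0 0) (.pos 35 .mp ⟨⟨30289217, 0, 0, 0, 0, 81642066, 0, 0, 0, ⟨0, 0⟩, 0⟩, 0, 0⟩ 0 0)) (.cut .s 13336576 (.pos 35 .mp ⟨⟨31090112, 0, 0, 0, 0, 83443566, 0, 0, 0, ⟨0, 0⟩, 0⟩, 0, 0⟩ 0 0) (.pos 35 .mp ⟨⟨31937743, 0, 0, 0, 0, 85263789, 0, 0, 0, ⟨0, 0⟩, 0⟩, 0, 0⟩ 0 0))))) (.cut .s 13303808 (.cut .v 16842752 (.cut .l 153791 (.cut .s 13271040 (.cut .s 13254656 (.pos 41 .mp ⟨⟨30781206, 0, 0, 0, 0, 74016522, 0, 0, 0, ⟨0, 0⟩, 0⟩, 0, 0⟩ 0 0) (.pos 41 .mp ⟨⟨31207993,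 0, 0, 0, 0, 74716725, 0, 0, 0, ⟨0, 0⟩, 0⟩, 0, 0⟩ 0 0)) (.cut .d (-8192) (.pos 41 .mp ⟨⟨29805295, 0, 0, 0, 0, 83082849, 0, 0, 0, ⟨0, 0⟩, 0⟩, 0, 0⟩ 0 0) (.cut .s 13287424 (.pos 41 .mp ⟨⟨30806908, 0, 0, 0, 0, 77144496, 0, 0, 0, ⟨0, 0⟩, 0⟩, 0, 0⟩ 0 0) (.pos 41 .mp ⟨⟨31259036, 0, 0, 0, 0, 77828219, 0, 0, 0, ⟨0, 0⟩, 0⟩, 0, 0⟩ 0 0)))) (.pos 41 .mp ⟨⟨31359610, 0, 0, 0, 0, 72217257, 0, 0, 0, ⟨0, 0⟩, 0⟩, 0, 0⟩ 0 0)) (.pos 42 .mp ⟨⟨65095301, 0, 0, 0, 0, 0, 0, 0, 0, ⟨0, 0⟩, 0⟩, 0, 0⟩ 0 0)) (.cut .l 153791 (.cut .v 16842752 (.cut .d (-8192) (.cut .s 13336576 (.pos 41 .mp ⟨⟨30641482, 0, 0, 0, 0, 84745117, 0, 0, 0, ⟨0, 0⟩, 0⟩, 0, 0⟩ 0 0) (.pos 41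 .mp ⟨⟨31504262, 0, 0, 0, 0, 86512571, 0, 0, 0, ⟨0, 0⟩, 0⟩, 0, 0⟩ 0 0)) (.cut .l 76895 (.cut .v 16809984 (.cut .s 13336576 (.cut .s 13320192 (.pos 45 .mp ⟨⟨31662235, 0, 0, 0, 0, 78540966, 0, 0, 0, ⟨0, 0⟩, 0⟩, 0, 0⟩ 0 0) (.pos 45 .mp ⟨⟨32072696, 0, 0, 0, 0, 79389047, 0, 0, 0, ⟨0, 0⟩, 0⟩, 0, 0⟩ 0 0)) (.cut .s 13352960 (.pos 45 .mp ⟨⟨32498877, 0, 0, 0, 0, 80239265, 0, 0, 0, ⟨0, 0⟩, 0⟩, 0, 0⟩ 0 0) (.pos 45 .mp ⟨⟨32941339, 0, 0, 0, 0, 81090702, 0, 0, 0, ⟨0, 0⟩, 0⟩, 0, 0⟩ 0 0))) (.pos 46 .mp ⟨⟨81562661, 0, 0, 0, 0, 0, 0, 0, 0, ⟨0, 0⟩, 0⟩, 0, 0⟩ 0 0)) (.pos 41 .mp ⟨⟨32771119, 0, 0, 0, 0, 75567747, 0, 0, 0, ⟨0, 0⟩, 0⟩, 0, 0⟩ 0 0))) (.pos 42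 .mp ⟨⟨82015240, 0, 0, 0, 0, 0, 0, 0, 0, ⟨0, 0⟩, 0⟩, 0, 0⟩ 0 0)) (.cut .s 13336576 (.pos 35 .mp ⟨⟨32609200, 0, 0, 0, 0, 75663515, 0, 0, 0, ⟨0, 0⟩, 0⟩, 0, 0⟩ 0 0) (.pos 35 .mp ⟨⟨33531386, 0, 0, 0, 0, 77203981, 0, 0, 0, ⟨0, 0⟩, 0⟩, 0, 0⟩ 0 0))))) (.pos 36 .mp ⟨⟨80675225, 0, 0, 0, 0, 0, 0, 0, 0, ⟨0, 0⟩, 0⟩, 0, 0⟩ 0 0)) (.cut .d (-16384) (.cut .d (-24576) (.cut .l 461373 (.cut .v 16908288 (.cut .s 13303808 (.pos 35 .mp ⟨⟨29313718, 0, 0, 0, 0, 81208455, 0, 0, 0, ⟨0, 0⟩, 0⟩, 0, 0⟩ 0 0) (.pos 35 .mp ⟨⟨30997429, 0, 0, 0, 0, 84392006, 0, 0, 0, ⟨0, 0⟩, 0⟩, 0, 0⟩ 0 0)) (.pos 36 .mp ⟨⟨68488154, 0, 0, 0, 0, 0, 0, 0, 0, ⟨0, 0⟩, 0⟩, 0, 0⟩ 0 0)) (.pos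 33 .mp ⟨⟨34147321, 0, 0, 0, 0, 0, 0, 0, 0, ⟨0, 0⟩, 0⟩, 0, 0⟩ 0 0)) (.pos 33 .mp ⟨⟨34299317, 0, 0, 0, 0, 22472212, 0, 0, 0, ⟨0, 0⟩, 0⟩, 0, 0⟩ 0 0)) (.pos 33 .mp ⟨⟨32080150, 0, 0, 0, 0, 0, 0, 0, 0, ⟨0, 0⟩, 0⟩, 0, 0⟩ 0 0)))) (.cut .d (-32768) (.cut .l 307582 (.void 33 ⟨⟨0, 0, 0, 0, 0, 100000, 0, 0, 0, ⟨0, 0⟩, 0⟩, 0, 0⟩ 0 0) (.cut .d (-49152) (.void 33 ⟨⟨0, 0, 0, 0, 0, 100000, 0, 0, 0, ⟨0, 0⟩, 0⟩, 0, 0⟩ 0 0) (.cut .v 16908288 (.cut .s 13434880 (.pos 35 .mp ⟨⟨0, 0, 0, 0, 0, 163516187, 0, 0, 0, ⟨0, 0⟩, 0⟩, 0, 0⟩ 0 0) (.pos 35 .mp ⟨⟨0, 0, 0, 0, 0, 172106256, 0, 0, 0, ⟨0, 0⟩, 0⟩, 0, 0⟩ 0 0)) (.cut .v 16973824 (.cut .s 13434880 (.cut .l 461373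 (.pos 49 .mp ⟨⟨34683042, 0, 0, 0, 0, 89057194, 0, 0, 0, ⟨0, 0⟩, 0⟩, 0, 0⟩ 0 0) (.cut .s 13402112 (.pos 49 .mp ⟨⟨33923967, 0, 0, 0, 0, 85382061, 0, 0, 0, ⟨0, 0⟩, 0⟩, 0, 0⟩ 0 0) (.pos 49 .mp ⟨⟨34895338, 0, 0, 0, 0, 87181288, 0, 0, 0, ⟨0, 0⟩, 0⟩, 0, 0⟩ 0 0))) (.cut .s 13467648 (.pos 49 .mp ⟨⟨35896967, 0, 0, 0, 0, 89713113, 0, 0, 0, ⟨0, 0⟩, 0⟩, 0, 0⟩ 0 0) (.pos 49 .mp ⟨⟨36929716, 0, 0, 0, 0, 91722448, 0, 0, 0, ⟨0, 0⟩, 0⟩, 0, 0⟩ 0 0))) (.pos 50 .mp ⟨⟨86761426, 0, 0, 0, 0, 0, 0, 0, 0, ⟨0, 0⟩, 0⟩, 0, 0⟩ 0 0))))) (.cut .s 13434880 (.cut .l 307582 (.cut .v 16908288 (.cut .d (-16384) (.cut .s 13402112 (.pos 35 .mp ⟨⟨32776149, 0, 0, 0, 0, 88268396,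 0, 0, 0, ⟨0, 0⟩, 0⟩, 0, 0⟩ 0 0) (.pos 35 .mp ⟨⟨33708909, 0, 0, 0, 0, 90240996, 0, 0, 0, ⟨0, 0⟩, 0⟩, 0, 0⟩ 0 0)) (.cut .l 153791 (.cut .v 16842752 (.cut .d (-8192) (.cut .s 13402112 (.pos 41 .mp ⟨⟨32394369, 0, 0, 0, 0, 88388385, 0, 0, 0, ⟨0, 0⟩, 0⟩, 0, 0⟩ 0 0) (.pos 41 .mp ⟨⟨33312563, 0, 0, 0, 0, 90375852, 0, 0, 0, ⟨0, 0⟩, 0⟩, 0, 0⟩ 0 0)) (.cut .l 76895 (.cut .v 16809984 (.cut .s 13402112 (.cut .s 13385728 (.pos 45 .mp ⟨⟨33400652, 0, 0, 0, 0, 81942417, 0, 0, 0, ⟨0, 0⟩, 0⟩, 0, 0⟩ 0 0) (.pos 45 .mp ⟨⟨33877401, 0, 0, 0, 0, 82793445, 0, 0, 0, ⟨0, 0⟩, 0⟩, 0, 0⟩ 0 0)) (.cut .s 13418496 (.pos 45 .mp ⟨⟨34372180, 0, 0, 0, 0, 83642801, 0, 0, 0,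 ⟨0, 0⟩, 0⟩, 0, 0⟩ 0 0) (.pos 45 .mp ⟨⟨34885596, 0, 0, 0, 0, 84489474, 0, 0, 0, ⟨0, 0⟩, 0⟩, 0, 0⟩ 0 0))) (.pos 46 .mp ⟨⟨85192949, 0, 0, 0, 0, 0, 0, 0, 0, ⟨0, 0⟩, 0⟩, 0, 0⟩ 0 0)) (.pos 41 .mp ⟨⟨34655359, 0, 0, 0, 0, 78660008, 0, 0, 0, ⟨0, 0⟩, 0⟩, 0, 0⟩ 0 0))) (.pos 42 .mp ⟨⟨85665152, 0, 0, 0, 0, 0, 0, 0, 0, ⟨0, 0⟩, 0⟩, 0, 0⟩ 0 0)) (.cut .s 13402112 (.pos 35 .mp ⟨⟨34482786, 0, 0, 0, 0, 78787085, 0, 0, 0, ⟨0, 0⟩, 0⟩, 0, 0⟩ 0 0) (.pos 35 .mp ⟨⟨35464223, 0, 0, 0, 0, 80410469, 0, 0, 0, ⟨0, 0⟩, 0⟩, 0, 0⟩ 0 0)))) (.pos 36 .mp ⟨⟨86613695, 0, 0, 0, 0, 0, 0, 0, 0, ⟨0, 0⟩, 0⟩, 0, 0⟩ 0 0)) (.cut .d (-16384) (.cut .v 16908288 (.cut .s 13402112 (.pos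 35 .mp ⟨⟨31442511, 0, 0, 0, 0, 88130777, 0, 0, 0, ⟨0, 0⟩, 0⟩, 0, 0⟩ 0 0) (.pos 35 .mp ⟨⟨32381597, 0, 0, 0, 0, 89928907, 0, 0, 0, ⟨0, 0⟩, 0⟩, 0, 0⟩ 0 0)) (.pos 36 .mp ⟨⟨37944449, 0, 0, 0, 0, 75857234, 0, 0, 0, ⟨0, 0⟩, 0⟩, 0, 0⟩ 0 0)) (.pos 33 .mp ⟨⟨34574167, 0, 0, 0, 0, 0, 0, 0, 0, ⟨0, 0⟩, 0⟩, 0, 0⟩ 0 0))) (.cut .l 307582 (.cut .v 16908288 (.cut .d (-16384) (.cut .s 13467648 (.pos 35 .mp ⟨⟨34670913, 0, 0, 0, 0, 92328564, 0, 0, 0, ⟨0, 0⟩, 0⟩, 0, 0⟩ 0 0) (.pos 35 .mp ⟨⟨35662994, 0, 0, 0, 0, 94534655, 0, 0, 0, ⟨0, 0⟩, 0⟩, 0, 0⟩ 0 0)) (.cut .l 153791 (.cut .v 16842752 (.cut .d (-8192) (.cut .s 13467648 (.pos 41 .mp ⟨⟨34259635, 0, 0, 0, 0,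 92478395, 0, 0, 0, ⟨0, 0⟩, 0⟩, 0, 0⟩ 0 0) (.pos 41 .mp ⟨⟨35236406, 0, 0, 0, 0, 94699570, 0, 0, 0, ⟨0, 0⟩, 0⟩, 0, 0⟩ 0 0)) (.cut .l 76895 (.cut .v 16809984 (.cut .d (-4096) (.pos 45 .mp ⟨⟨34056135, 0, 0, 0, 0, 95915488, 0, 0, 0, ⟨0, 0⟩, 0⟩, 0, 0⟩ 0 0) (.cut .v 16793600 (.cut .l 38447 (.cut .d (-2048) (.pos 47 .mp ⟨⟨33954916, 0, 0, 0, 0, 95942892, 0, 0, 0, ⟨0, 0⟩, 0⟩, 0, 0⟩ 0 0) (.cut .v 16785408 (.cut .l 19223 (.cut .d (-1024) (.pos 51 .mp ⟨⟨33904441, 0, 0, 0, 0, 95956467, 0, 0, 0, ⟨0, 0⟩, 0⟩, 0, 0⟩ 0 0) (.cut .v 16781312 (.cut .l 9611 (.cut .d (-512) (.pos 53 .mp ⟨⟨33879240, 0, 0, 0, 0, 95963443, 0, 0, 0, ⟨0, 0⟩, 0⟩, 0, 0⟩ 0 0) (.cut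 .v 16779264 (.cut .l 4805 (.cut .s 13467648 (.cut .s 13451264 (.pos 61 .mp ⟨⟨35397998, 0, 0, 0, 0, 85373765, 0, 0, 0, ⟨0, 0⟩, 0⟩, 0, 0⟩ 0 0) (.pos 61 .mp ⟨⟨35950272, 0, 0, 0, 0, 86212545, 0, 0, 0, ⟨0, 0⟩, 0⟩, 0, 0⟩ 0 0)) (.cut .s 13484032 (.pos 61 .mp ⟨⟨36523069, 0, 0, 0, 0, 87045484, 0, 0, 0, ⟨0, 0⟩, 0⟩, 0, 0⟩ 0 0) (.pos 61 .mp ⟨⟨37117047, 0, 0, 0, 0, 87871472, 0, 0, 0, ⟨0, 0⟩, 0⟩, 0, 0⟩ 0 0))) (.pos 61 .mp ⟨⟨33841312, 0, 0, 0, 0, 87681854, 0, 0, 0, ⟨0, 0⟩, 0⟩, 0, 0⟩ 0 0)) (.pos 62 .mp ⟨⟨46515205, 0, 0, 0, 0, 65437333, 0, 0, 0, ⟨0, 0⟩, 0⟩, 0, 0⟩ 0 0))) (.pos 53 .mp ⟨⟨33828574, 0, 0, 0, 0, 87749409, 0, 0, 0, ⟨0, 0⟩, 0⟩, 0, 0⟩ 0 0))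 (.pos 54 .mp ⟨⟨46490741, 0, 0, 0, 0, 65523356, 0, 0, 0, ⟨0, 0⟩, 0⟩, 0, 0⟩ 0 0))) (.pos 51 .mp ⟨⟨33803098, 0, 0, 0, 0, 87885506, 0, 0, 0, ⟨0, 0⟩, 0⟩, 0, 0⟩ 0 0)) (.pos 52 .mp ⟨⟨46439245, 0, 0, 0, 0, 65699536, 0, 0, 0, ⟨0, 0⟩, 0⟩, 0, 0⟩ 0 0))) (.pos 47 .mp ⟨⟨33752181, 0, 0, 0, 0, 88158213, 0, 0, 0, ⟨0, 0⟩, 0⟩, 0, 0⟩ 0 0)) (.pos 48 .mp ⟨⟨46335313, 0, 0, 0, 0, 66053477, 0, 0, 0, ⟨0, 0⟩, 0⟩, 0, 0⟩ 0 0))) (.pos 46 .mp ⟨⟨89024665, 0, 0, 0, 0, 0, 0, 0, 0, ⟨0, 0⟩, 0⟩, 0, 0⟩ 0 0)) (.pos 41 .mp ⟨⟨36660057, 0, 0, 0, 0, 81907219, 0, 0, 0, ⟨0, 0⟩, 0⟩, 0, 0⟩ 0 0))) (.pos 42 .mp ⟨⟨89517608, 0, 0, 0, 0, 0, 0, 0, 0, ⟨0, 0⟩, 0⟩, 0, 0⟩ 0 0)) (.pos 35 .mp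 ⟨⟨37520660, 0, 0, 0, 0, 80692318, 0, 0, 0, ⟨0, 0⟩, 0⟩, 0, 0⟩ 0 0))) (.pos 36 .mp ⟨⟨90507798, 0, 0, 0, 0, 0, 0, 0, 0, ⟨0, 0⟩, 0⟩, 0, 0⟩ 0 0)) (.cut .v 16908288 (.cut .s 13467648 (.pos 35 .mp ⟨⟨33043677, 0, 0, 0, 0, 90957235, 0, 0, 0, ⟨0, 0⟩, 0⟩, 0, 0⟩ 0 0) (.pos 35 .mp ⟨⟨33983860, 0, 0, 0, 0, 92909142, 0, 0, 0, ⟨0, 0⟩, 0⟩, 0, 0⟩ 0 0)) (.pos 36 .mp ⟨⟨40770471, 0, 0, 0, 0, 77595112, 0, 0, 0, ⟨0, 0⟩, 0⟩, 0, 0⟩ 0 0)))))) (.pos 34 .mp ⟨⟨85216934, 0, 0, 0, 0, 0, 0, 0, 0, ⟨0, 0⟩, 0⟩, 0, 0⟩ 0 0)))))) (.pos 32 .mp ⟨⟨117008727, 0, 0, 0, 0, 0, 0, 0, 0, ⟨0, 0⟩, 0⟩, 0, 0⟩ 0 0))) (.void 30 ⟨⟨100000, 0, 0, 0, 0, 0, 0, 0, 0, ⟨0, 0⟩, 0⟩, 0, 0⟩ 0 0)))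 (.void 28 ⟨⟨100000, 0, 0, 0, 0, 0, 0, 0, 0, ⟨0, 0⟩, 0⟩, 0, 0⟩ 0 0))) (.void 26 ⟨⟨100000, 0, 0, 0, 0, 0, 0, 0, 0, ⟨0, 0⟩, 0⟩, 0, 0⟩ 0 0))) (.void 24 ⟨⟨100000, 0, 0, 0, 0, 0, 0, 0, 0, ⟨0, 0⟩, 0⟩, 0, 0⟩ 0 0)) (.void 89 ⟨⟨100000, 0, 0, 0, 0, 0, 0, 0, 0, ⟨0, 0⟩, 0⟩, 0, 0⟩ 0 0)) (.void 96 ⟨⟨100000, 0, 0, 0, 0, 0, 0, 0, 0, ⟨0, 0⟩, 0⟩, 0, 0⟩ 0 0))) (.cut .v 16777216 (.cut .v 8388608 (.cut .v 4194304 (.cut .v 2097152 (.void 97 ⟨⟨0, 0, 50000, 0, 50000, 0, 0, 0, 0, ⟨0, 0⟩, 0⟩, 0, 0⟩ 0 0) (.cut .d 2242500 (.pos 98 .pm ⟨⟨0, 0, 8286752, 0, 0, 0, 0, 0, 0, ⟨0, 0⟩, 0⟩, 0, 319772⟩ 0 0) (.pos 98 .pm ⟨⟨0, 0, 0, 0, 0, 0, 0, 0, 11664276, ⟨0, 0⟩, 7053950⟩,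 0, 0⟩ 0 0))) (.cut .d 2242500 (.pos 5 .pm ⟨⟨0, 0, 7605648, 0, 0, 0, 0, 0, 0, ⟨0, 0⟩, 0⟩, 0, 422082⟩ 0 0) (.cut .d 3363750 (.pos 5 .pm ⟨⟨0, 0, 0, 0, 0, 0, 0, 0, 0, ⟨0, 0⟩, 0⟩, 0, 399715⟩ 0 0) (.cut .v 6291456 (.pos 6 .pm ⟨⟨0, 0, 0, 0, 0, 0, 0, 0, 0, ⟨0, 0⟩, 0⟩, 0, 13246094⟩ 0 0) (.pos 7 .pm ⟨⟨0, 0, 0, 0, 0, 0, 0, 0, 0, ⟨0, 0⟩, 0⟩, 0, 15281900⟩ 0 0))))) (.cut .d 2242500 (.pos 3 .pm ⟨⟨0, 0, 0, 0, 0, 0, 0, 0, 0, ⟨0, 0⟩, 0⟩, 0, 0⟩ 0 0) (.pos 3 .pm ⟨⟨0, 17515503, 0, 0, 0, 0, 0, 0, 0, ⟨0, 0⟩, 0⟩, 0, 562776⟩ 0 0))) (.cut .v 67108864 (.cut .v 33554432 (.cut .d 2242500 (.cut .v 25165824 (.cut .d 1121250 (.cut .v 20971520 (.cut .v 18874368 (.pos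 27 .pp ⟨⟨34078559, 0, 0, 0, 0, 0, 0, 0, 0, ⟨0, 0⟩, 0⟩, 7021859, 0⟩ 0 0) (.pos 28 .pp ⟨⟨86101197, 0, 0, 0, 0, 0, 0, 0, 0, ⟨0, 0⟩, 0⟩, 0, 0⟩ 0 0)) (.pos 26 .pp ⟨⟨121644160, 0, 0, 0, 0, 0, 0, 0, 0, ⟨0, 0⟩, 0⟩, 0, 0⟩ 0 0)) (.pos 23 .pp ⟨⟨0, 0, 0, 0, 0, 0, 0, 0, 0, ⟨0, 0⟩, 0⟩, 0, 844164⟩ 0 0)) (.pos 24 .pp ⟨⟨0, 0, 0, 0, 0, 0, 0, 0, 0, ⟨0, 0⟩, 0⟩, 40013064, 0⟩ 0 0)) (.pos 22 .pp ⟨⟨0, 0, 0, 0, 0, 0, 0, 0, 0, ⟨0, 0⟩, 0⟩, 0, 844164⟩ 0 0)) (.pos 89 .pp ⟨⟨0, 165909495, 0, 0, 0, 0, 0, 0, 0, ⟨0, 0⟩, 0⟩, 87050016, 0⟩ 0 0)) (.void 96 ⟨⟨0, 0, 0, 49551, 0, 0, 0, 0, 0, ⟨0, 0⟩, 0⟩, 50449, 0⟩ 0 0)))),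
    by decide +kernel⟩

def covers24 : cell.Covers Vale.Agent.P237.Petty.Cor.Grid.N6.table row24.1 :=
  ⟨(.cut .d 0 (.cut .v 16777216 (.cut .v 8388608 (.void 2 ⟨⟨0, 0, 100000, 0, 0, 0, 0, 0, 0, ⟨0, 0⟩, 0⟩, 0, 0⟩ 0 0) (.cut .d (-8388608) (.void 3 ⟨⟨0, 0, 0, 0, 0, 100000, 0, 0, 0, ⟨0, 0⟩, 0⟩, 0, 0⟩ 0 0) (.cut .d (-4194304) (.void 3 ⟨⟨0, 0, 0, 0, 0, 100000, 0, 0, 0, ⟨0, 0⟩, 0⟩, 0, 0⟩ 0 0) (.cut .d (-2097152) (.void 3 ⟨⟨0, 0, 0, 0, 0, 100000, 0, 0, 0, ⟨0, 0⟩, 0⟩, 0, 0⟩ 0 0) (.cut .d (-1048576) (.void 3 ⟨⟨0, 0, 0, 0, 0, 100000, 0, 0, 0, ⟨0, 0⟩, 0⟩, 0, 0⟩ 0 0) (.cut .d (-524288) (.void 3 ⟨⟨0, 0, 0, 0, 0, 100000, 0, 0, 0, ⟨0, 0⟩, 0⟩, 0, 0⟩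 0 0) (.cut .s 13631488 (.pos 3 .mm ⟨⟨0, 0, 0, 0, 0, 175041313, 0, 0, 0, ⟨0, 0⟩, 0⟩, 0, 0⟩ 0 0) (.pos 3 .mm ⟨⟨0, 0, 0, 0, 0, 194769946, 0, 0, 0, ⟨0, 0⟩, 0⟩, 0, 0⟩ 0 0)))))))) (.cut .v 67108864 (.cut .v 33554432 (.cut .v 25165824 (.cut .d (-8388608) (.void 23 ⟨⟨100000, 0, 0, 0, 0, 0, 0, 0, 0, ⟨0, 0⟩, 0⟩, 0, 0⟩ 0 0) (.cut .v 20971520 (.cut .d (-4194304) (.void 25 ⟨⟨100000, 0, 0, 0, 0, 0, 0, 0, 0, ⟨0, 0⟩, 0⟩, 0, 0⟩ 0 0) (.cut .v 18874368 (.cut .d (-2097152) (.void 27 ⟨⟨100000, 0, 0, 0, 0, 0, 0, 0, 0, ⟨0, 0⟩, 0⟩, 0, 0⟩ 0 0) (.cut .v 17825792 (.cut .d (-1048576) (.void 29 ⟨⟨100000, 0, 0, 0, 0, 0, 0, 0, 0, ⟨0, 0⟩, 0⟩, 0, 0⟩ 0 0) (.cut .d (-524288)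 (.void 29 ⟨⟨100000, 0, 0, 0, 0, 0, 0, 0, 0, ⟨0, 0⟩, 0⟩, 0, 0⟩ 0 0) (.cut .v 17301504 (.cut .d (-262144) (.void 31 ⟨⟨100000, 0, 0, 0, 0, 0, 0, 0, 0, ⟨0, 0⟩, 0⟩, 0, 0⟩ 0 0) (.cut .d (-131072) (.void 31 ⟨⟨100000, 0, 0, 0, 0, 0, 0, 0, 0, ⟨0, 0⟩, 0⟩, 0, 0⟩ 0 0) (.cut .d (-65536) (.void 31 ⟨⟨0, 0, 0, 0, 0, 100000, 0, 0, 0, ⟨0, 0⟩, 0⟩, 0, 0⟩ 0 0) (.cut .v 17039360 (.cut .d (-32768) (.cut .l 307582 (.void 33 ⟨⟨0, 0, 0, 0, 0, 100000, 0, 0, 0, ⟨0, 0⟩, 0⟩, 0, 0⟩ 0 0) (.cut .d (-49152) (.void 33 ⟨⟨0, 0, 0, 0, 0, 100000, 0, 0, 0, ⟨0, 0⟩, 0⟩, 0, 0⟩ 0 0) (.cut .s 13631488 (.cut .v 16908288 (.pos 35 .mp ⟨⟨0, 0, 0, 0, 0, 186468565, 0, 0, 0, ⟨0, 0⟩,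 0⟩, 0, 0⟩ 0 0) (.cut .l 461373 (.pos 36 .mp ⟨⟨42993575, 0, 0, 0, 0, 100172285, 0, 0, 0, ⟨0, 0⟩, 0⟩, 0, 0⟩ 0 0) (.cut .s 13565952 (.cut .s 13533184 (.pos 36 .mp ⟨⟨42219765, 0, 0, 0, 0, 84224825, 0, 0, 0, ⟨0, 0⟩, 0⟩, 0, 0⟩ 0 0) (.pos 36 .mp ⟨⟨43456505, 0, 0, 0, 0, 85782861, 0, 0, 0, ⟨0, 0⟩, 0⟩, 0, 0⟩ 0 0)) (.cut .v 16973824 (.cut .s 13598720 (.pos 49 .mp ⟨⟨40250033, 0, 0, 0, 0, 97594485, 0, 0, 0, ⟨0, 0⟩, 0⟩, 0, 0⟩ 0 0) (.cut .s 13615104 (.pos 49 .mp ⟨⟨41434182, 0, 0, 0, 0, 98208119, 0, 0, 0, ⟨0, 0⟩, 0⟩, 0, 0⟩ 0 0) (.pos 49 .mp ⟨⟨42040911, 0, 0, 0, 0, 99243279, 0, 0, 0, ⟨0, 0⟩, 0⟩, 0, 0⟩ 0 0))) (.pos 50 .mp ⟨⟨100894289, 0, 0, 0, 0, 0,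 0, 0, 0, ⟨0, 0⟩, 0⟩, 0, 0⟩ 0 0))))) (.cut .v 16908288 (.pos 35 .mp ⟨⟨0, 0, 0, 0, 0, 206029313, 0, 0, 0, ⟨0, 0⟩, 0⟩, 0, 0⟩ 0 0) (.cut .l 461373 (.pos 36 .mp ⟨⟨44045272, 0, 0, 0, 0, 158298141, 0, 0, 0, ⟨0, 0⟩, 0⟩, 0, 0⟩ 0 0) (.cut .v 16973824 (.cut .s 13697024 (.cut .d (-40960) (.pos 49 .mp ⟨⟨43654240, 0, 0, 0, 0, 104924181, 0, 0, 0, ⟨0, 0⟩, 0⟩, 0, 0⟩ 0 0) (.cut .s 13664256 (.pos 49 .mp ⟨⟨45809560, 0, 0, 0, 0, 92719600, 0, 0, 0, ⟨0, 0⟩, 0⟩, 0, 0⟩ 0 0) (.pos 49 .mp ⟨⟨43921493, 0, 0, 0, 0, 103061483, 0, 0, 0, ⟨0, 0⟩, 0⟩, 0, 0⟩ 0 0))) (.cut .s 13729792 (.pos 49 .mp ⟨⟨45227091, 0, 0, 0, 0, 106286918, 0, 0, 0, ⟨0, 0⟩, 0⟩, 0, 0⟩ 0 0) (.pos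 49 .mp ⟨⟨46575695, 0, 0, 0, 0, 108686835, 0, 0, 0, ⟨0, 0⟩, 0⟩, 0, 0⟩ 0 0))) (.cut .s 13697024 (.pos 50 .mp ⟨⟨105503048, 0, 0, 0, 0, 0, 0, 0, 0, ⟨0, 0⟩, 0⟩, 0, 0⟩ 0 0) (.pos 50 .mp ⟨⟨110379224, 0, 0, 0, 0, 0, 0, 0, 0, ⟨0, 0⟩, 0⟩, 0, 0⟩ 0 0)))))))) (.cut .s 13631488 (.cut .s 13565952 (.cut .v 16908288 (.cut .l 307582 (.cut .d (-16384) (.cut .s 13533184 (.pos 35 .mp ⟨⟨36686473, 0, 0, 0, 0, 96868000, 0, 0, 0, ⟨0, 0⟩, 0⟩, 0, 0⟩ 0 0) (.pos 35 .mp ⟨⟨37747458, 0, 0, 0, 0, 98692617, 0, 0, 0, ⟨0, 0⟩, 0⟩, 0, 0⟩ 0 0)) (.cut .v 16842752 (.cut .l 153791 (.cut .d (-8192) (.pos 41 .mp ⟨⟨36244144, 0, 0, 0, 0, 100725036, 0, 0, 0, ⟨0, 0⟩, 0⟩, 0, 0⟩ 0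 0) (.cut .l 76895 (.cut .v 16809984 (.cut .d (-4096) (.pos 45 .mp ⟨⟨36025225, 0, 0, 0, 0, 100795474, 0, 0, 0, ⟨0, 0⟩, 0⟩, 0, 0⟩ 0 0) (.cut .v 16793600 (.cut .l 38447 (.cut .d (-2048) (.pos 47 .mp ⟨⟨35916322, 0, 0, 0, 0, 100829711, 0, 0, 0, ⟨0, 0⟩, 0⟩, 0, 0⟩ 0 0) (.cut .v 16785408 (.cut .l 19223 (.cut .d (-1024) (.pos 51 .mp ⟨⟨35862012, 0, 0, 0, 0, 100846703, 0, 0, 0, ⟨0, 0⟩, 0⟩, 0, 0⟩ 0 0) (.cut .v 16781312 (.cut .l 9611 (.cut .d (-512) (.pos 53 .mp ⟨⟨35834895, 0, 0, 0, 0, 100855405, 0, 0, 0, ⟨0, 0⟩, 0⟩, 0, 0⟩ 0 0) (.cut .v 16779264 (.cut .l 4805 (.cut .s 13533184 (.cut .s 13516800 (.pos 61 .mp ⟨⟨37724336, 0, 0, 0, 0, 88708448, 0, 0,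 0, ⟨0, 0⟩, 0⟩, 0, 0⟩ 0 0) (.pos 61 .mp ⟨⟨38144734, 0, 0, 0, 0, 89779195, 0, 0, 0, ⟨0, 0⟩, 0⟩, 0, 0⟩ 0 0)) (.cut .s 13549568 (.pos 61 .mp ⟨⟨38583168, 0, 0, 0, 0, 90857428, 0, 0, 0, ⟨0, 0⟩, 0⟩, 0, 0⟩ 0 0) (.pos 61 .mp ⟨⟨39040390, 0, 0, 0, 0, 91941914, 0, 0, 0, ⟨0, 0⟩, 0⟩, 0, 0⟩ 0 0))) (.pos 61 .mp ⟨⟨35794363, 0, 0, 0, 0, 92359270, 0, 0, 0, ⟨0, 0⟩, 0⟩, 0, 0⟩ 0 0)) (.pos 62 .mp ⟨⟨49982073, 0, 0, 0, 0, 66613682, 0, 0, 0, ⟨0, 0⟩, 0⟩, 0, 0⟩ 0 0))) (.pos 53 .mp ⟨⟨35780936, 0, 0, 0, 0, 92430585, 0, 0, 0, ⟨0, 0⟩, 0⟩, 0, 0⟩ 0 0)) (.pos 54 .mp ⟨⟨49956965, 0, 0, 0, 0, 66703279, 0, 0, 0, ⟨0, 0⟩, 0⟩, 0, 0⟩ 0 0))) (.pos 51 .mp ⟨⟨35754082, 0, 0, 0,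 0, 92574130, 0, 0, 0, ⟨0, 0⟩, 0⟩, 0, 0⟩ 0 0)) (.pos 52 .mp ⟨⟨49903819, 0, 0, 0, 0, 66887210, 0, 0, 0, ⟨0, 0⟩, 0⟩, 0, 0⟩ 0 0))) (.pos 47 .mp ⟨⟨35700411, 0, 0, 0, 0, 92861695, 0, 0, 0, ⟨0, 0⟩, 0⟩, 0, 0⟩ 0 0)) (.pos 48 .mp ⟨⟨49796452, 0, 0, 0, 0, 67256881, 0, 0, 0, ⟨0, 0⟩, 0⟩, 0, 0⟩ 0 0))) (.pos 46 .mp ⟨⟨93636663, 0, 0, 0, 0, 0, 0, 0, 0, ⟨0, 0⟩, 0⟩, 0, 0⟩ 0 0)) (.pos 41 .mp ⟨⟨38800084, 0, 0, 0, 0, 86213979, 0, 0, 0, ⟨0, 0⟩, 0⟩, 0, 0⟩ 0 0))) (.pos 41 .mp ⟨⟨35379282, 0, 0, 0, 0, 94588987, 0, 0, 0, ⟨0, 0⟩, 0⟩, 0, 0⟩ 0 0)) (.pos 42 .mp ⟨⟨49142475, 0, 0, 0, 0, 69492886, 0, 0, 0, ⟨0, 0⟩, 0⟩, 0, 0⟩ 0 0))) (.cut .s 13533184 (.pos 35 .mp ⟨⟨34953502,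 0, 0, 0, 0, 95371494, 0, 0, 0, ⟨0, 0⟩, 0⟩, 0, 0⟩ 0 0) (.pos 35 .mp ⟨⟨35958662, 0, 0, 0, 0, 97431660, 0, 0, 0, ⟨0, 0⟩, 0⟩, 0, 0⟩ 0 0))) (.cut .s 13533184 (.pos 36 .mp ⟨⟨43849982, 0, 0, 0, 0, 79587565, 0, 0, 0, ⟨0, 0⟩, 0⟩, 0, 0⟩ 0 0) (.pos 36 .mp ⟨⟨44741812, 0, 0, 0, 0, 81762444, 0, 0, 0, ⟨0, 0⟩, 0⟩, 0, 0⟩ 0 0))) (.cut .l 307582 (.cut .v 16908288 (.cut .d (-16384) (.cut .s 13598720 (.pos 35 .mp ⟨⟨38844105, 0, 0, 0, 0, 100652345, 0, 0, 0, ⟨0, 0⟩, 0⟩, 0, 0⟩ 0 0) (.pos 35 .mp ⟨⟨39977471, 0, 0, 0, 0, 102751544, 0, 0, 0, ⟨0, 0⟩, 0⟩, 0, 0⟩ 0 0)) (.cut .s 13598720 (.cut .l 153791 (.cut .d (-8192) (.pos 35 .mp ⟨⟨39005289, 0, 0, 0, 0, 100940619,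 0, 0, 0, ⟨0, 0⟩, 0⟩, 0, 0⟩ 0 0) (.cut .s 13582336 (.pos 35 .mp ⟨⟨40236796, 0, 0, 0, 0, 91639936, 0, 0, 0, ⟨0, 0⟩, 0⟩, 0, 0⟩ 0 0) (.pos 35 .mp ⟨⟨40814437, 0, 0, 0, 0, 92569495, 0, 0, 0, ⟨0, 0⟩, 0⟩, 0, 0⟩ 0 0))) (.pos 35 .mp ⟨⟨40873293, 0, 0, 0, 0, 89588624, 0, 0, 0, ⟨0, 0⟩, 0⟩, 0, 0⟩ 0 0)) (.cut .v 16842752 (.cut .l 153791 (.cut .d (-8192) (.pos 41 .mp ⟨⟨39477583, 0, 0, 0, 0, 103003425, 0, 0, 0, ⟨0, 0⟩, 0⟩, 0, 0⟩ 0 0) (.cut .s 13615104 (.pos 41 .mp ⟨⟨40954599, 0, 0, 0, 0, 94441184, 0, 0, 0, ⟨0, 0⟩, 0⟩, 0, 0⟩ 0 0) (.pos 41 .mp ⟨⟨41546084, 0, 0, 0, 0, 95434302, 0, 0, 0, ⟨0, 0⟩, 0⟩, 0, 0⟩ 0 0))) (.pos 41 .mp ⟨⟨38525674, 0, 0, 0, 0, 99310281,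 0, 0, 0, ⟨0, 0⟩, 0⟩, 0, 0⟩ 0 0)) (.pos 42 .mp ⟨⟨47918225, 0, 0, 0, 0, 82541822, 0, 0, 0, ⟨0, 0⟩, 0⟩, 0, 0⟩ 0 0)))) (.pos 36 .mp ⟨⟨99573865, 0, 0, 0, 0, 0, 0, 0, 0, ⟨0, 0⟩, 0⟩, 0, 0⟩ 0 0)) (.cut .d (-16384) (.cut .l 461373 (.cut .v 16908288 (.cut .s 13598720 (.pos 35 .mp ⟨⟨37976037, 0, 0, 0, 0, 99428353, 0, 0, 0, ⟨0, 0⟩, 0⟩, 0, 0⟩ 0 0) (.pos 35 .mp ⟨⟨39088194, 0, 0, 0, 0, 101532939, 0, 0, 0, ⟨0, 0⟩, 0⟩, 0, 0⟩ 0 0)) (.pos 36 .mp ⟨⟨53130380, 0, 0, 0, 0, 72350841, 0, 0, 0, ⟨0, 0⟩, 0⟩, 0, 0⟩ 0 0)) (.pos 33 .mp ⟨⟨43128161, 0, 0, 0, 0, 0, 0, 0, 0, ⟨0, 0⟩, 0⟩, 0, 0⟩ 0 0)) (.pos 33 .mp ⟨⟨41448235, 0, 0, 0, 0, 0, 0, 0, 0, ⟨0, 0⟩, 0⟩, 0, 0⟩ 0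 0)))) (.cut .s 13697024 (.cut .s 13664256 (.cut .v 16908288 (.cut .l 307582 (.cut .d (-16384) (.pos 35 .mp ⟨⟨41148658, 0, 0, 0, 0, 104994757, 0, 0, 0, ⟨0, 0⟩, 0⟩, 0, 0⟩ 0 0) (.cut .v 16842752 (.cut .l 153791 (.cut .d (-8192) (.pos 41 .mp ⟨⟨40628512, 0, 0, 0, 0, 105271220, 0, 0, 0, ⟨0, 0⟩, 0⟩, 0, 0⟩ 0 0) (.cut .s 13647872 (.pos 41 .mp ⟨⟨42147429, 0, 0, 0, 0, 96453522, 0, 0, 0, ⟨0, 0⟩, 0⟩, 0, 0⟩ 0 0) (.pos 41 .mp ⟨⟨42758783, 0, 0, 0, 0, 97498888, 0, 0, 0, ⟨0, 0⟩, 0⟩, 0, 0⟩ 0 0))) (.pos 41 .mp ⟨⟨39645214, 0, 0, 0, 0, 101517615, 0, 0, 0, ⟨0, 0⟩, 0⟩, 0, 0⟩ 0 0)) (.pos 42 .mp ⟨⟨49234931, 0, 0, 0, 0, 84364211, 0, 0, 0, ⟨0, 0⟩, 0⟩, 0, 0⟩ 0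 0))) (.cut .s 13647872 (.pos 35 .mp ⟨⟨39178395, 0, 0, 0, 0, 103233230, 0, 0, 0, ⟨0, 0⟩, 0⟩, 0, 0⟩ 0 0) (.pos 35 .mp ⟨⟨39746153, 0, 0, 0, 0, 104386298, 0, 0, 0, ⟨0, 0⟩, 0⟩, 0, 0⟩ 0 0))) (.cut .s 13647872 (.pos 36 .mp ⟨⟨47547296, 0, 0, 0, 0, 87452825, 0, 0, 0, ⟨0, 0⟩, 0⟩, 0, 0⟩ 0 0) (.pos 36 .mp ⟨⟨48238711, 0, 0, 0, 0, 88351469, 0, 0, 0, ⟨0, 0⟩, 0⟩, 0, 0⟩ 0 0))) (.cut .v 16908288 (.cut .l 307582 (.cut .d (-16384) (.pos 35 .mp ⟨⟨42358814, 0, 0, 0, 0, 107386718, 0, 0, 0, ⟨0, 0⟩, 0⟩, 0, 0⟩ 0 0) (.cut .v 16842752 (.cut .l 153791 (.cut .d (-8192) (.pos 41 .mp ⟨⟨41817847, 0, 0, 0, 0, 107688114, 0, 0, 0, ⟨0, 0⟩, 0⟩, 0, 0⟩ 0 0) (.cut .s 13680640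 (.pos 41 .mp ⟨⟨43380299, 0, 0, 0, 0, 98570439, 0, 0, 0, ⟨0, 0⟩, 0⟩, 0, 0⟩ 0 0) (.pos 41 .mp ⟨⟨44012133, 0, 0, 0, 0, 99668209, 0, 0, 0, ⟨0, 0⟩, 0⟩, 0, 0⟩ 0 0))) (.pos 41 .mp ⟨⟨40801915, 0, 0, 0, 0, 103786608, 0, 0, 0, ⟨0, 0⟩, 0⟩, 0, 0⟩ 0 0)) (.pos 42 .mp ⟨⟨50708772, 0, 0, 0, 0, 86052773, 0, 0, 0, ⟨0, 0⟩, 0⟩, 0, 0⟩ 0 0))) (.cut .s 13680640 (.pos 35 .mp ⟨⟨40323166, 0, 0, 0, 0, 105555214, 0, 0, 0, ⟨0, 0⟩, 0⟩, 0, 0⟩ 0 0) (.pos 35 .mp ⟨⟨40909577, 0, 0, 0, 0, 106739574, 0, 0, 0, ⟨0, 0⟩, 0⟩, 0, 0⟩ 0 0))) (.cut .s 13680640 (.pos 36 .mp ⟨⟨48941731, 0, 0, 0, 0, 89282918, 0, 0, 0, ⟨0, 0⟩, 0⟩, 0, 0⟩ 0 0) (.pos 36 .mp ⟨⟨49656534, 0, 0, 0, 0, 90247712,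 0, 0, 0, ⟨0, 0⟩, 0⟩, 0, 0⟩ 0 0)))) (.cut .s 13729792 (.cut .v 16908288 (.cut .l 307582 (.cut .d (-16384) (.pos 35 .mp ⟨⟨43609136, 0, 0, 0, 0, 109932358, 0, 0, 0, ⟨0, 0⟩, 0⟩, 0, 0⟩ 0 0) (.cut .v 16842752 (.cut .l 153791 (.cut .d (-8192) (.pos 41 .mp ⟨⟨43046768, 0, 0, 0, 0, 110259052, 0, 0, 0, ⟨0, 0⟩, 0⟩, 0, 0⟩ 0 0) (.cut .s 13713408 (.pos 41 .mp ⟨⟨44654444, 0, 0, 0, 0, 100792230, 0, 0, 0, ⟨0, 0⟩, 0⟩, 0, 0⟩ 0 0) (.pos 41 .mp ⟨⟨45307396, 0, 0, 0, 0, 101942532, 0, 0, 0, ⟨0, 0⟩, 0⟩, 0, 0⟩ 0 0))) (.pos 41 .mp ⟨⟨41996917, 0, 0, 0, 0, 106114032, 0, 0, 0, ⟨0, 0⟩, 0⟩, 0, 0⟩ 0 0)) (.pos 42 .mp ⟨⟨52352011, 0, 0, 0, 0, 87584704, 0, 0, 0, ⟨0, 0⟩,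 0⟩, 0, 0⟩ 0 0))) (.cut .s 13713408 (.pos 35 .mp ⟨⟨41505530, 0, 0, 0, 0, 107938970, 0, 0, 0, ⟨0, 0⟩, 0⟩, 0, 0⟩ 0 0) (.pos 35 .mp ⟨⟨42111174, 0, 0, 0, 0, 109152987, 0, 0, 0, ⟨0, 0⟩, 0⟩, 0, 0⟩ 0 0))) (.cut .s 13713408 (.pos 36 .mp ⟨⟨50383302, 0, 0, 0, 0, 91246402, 0, 0, 0, ⟨0, 0⟩, 0⟩, 0, 0⟩ 0 0) (.pos 36 .mp ⟨⟨51122222, 0, 0, 0, 0, 92279549, 0, 0, 0, ⟨0, 0⟩, 0⟩, 0, 0⟩ 0 0))) (.cut .v 16908288 (.cut .l 307582 (.cut .d (-16384) (.pos 35 .mp ⟨⟨44900873, 0, 0, 0, 0, 112636822, 0, 0, 0, ⟨0, 0⟩, 0⟩, 0, 0⟩ 0 0) (.cut .v 16842752 (.cut .l 153791 (.cut .d (-8192) (.pos 41 .mp ⟨⟨44316504, 0, 0, 0, 0, 112989187, 0, 0, 0, ⟨0, 0⟩, 0⟩, 0, 0⟩ 0 0) (.cut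 .s 13746176 (.pos 41 .mp ⟨⟨45971155, 0, 0, 0, 0, 103119138, 0, 0, 0, ⟨0, 0⟩, 0⟩, 0, 0⟩ 0 0) (.pos 41 .mp ⟨⟨46640168, 0, 0, 0, 0, 104337044, 0, 0, 0, ⟨0, 0⟩, 0⟩, 0, 0⟩ 0 0))) (.pos 41 .mp ⟨⟨43231412, 0, 0, 0, 0, 108496570, 0, 0, 0, ⟨0, 0⟩, 0⟩, 0, 0⟩ 0 0)) (.pos 42 .mp ⟨⟨54177363, 0, 0, 0, 0, 88936280, 0, 0, 0, ⟨0, 0⟩, 0⟩, 0, 0⟩ 0 0))) (.cut .s 13746176 (.pos 35 .mp ⟨⟨42726658, 0, 0, 0, 0, 110381205, 0, 0, 0, ⟨0, 0⟩, 0⟩, 0, 0⟩ 0 0) (.pos 35 .mp ⟨⟨43352138, 0, 0, 0, 0, 111623199, 0, 0, 0, ⟨0, 0⟩, 0⟩, 0, 0⟩ 0 0))) (.cut .s 13746176 (.pos 36 .mp ⟨⟨51873484, 0, 0, 0, 0, 93347729, 0, 0, 0, ⟨0, 0⟩, 0⟩, 0, 0⟩ 0 0) (.pos 36 .mp ⟨⟨52637280, 0,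 0, 0, 0, 94451529, 0, 0, 0, ⟨0, 0⟩, 0⟩, 0, 0⟩ 0 0))))))) (.pos 34 .mp ⟨⟨103554930, 0, 0, 0, 0, 0, 0, 0, 0, ⟨0, 0⟩, 0⟩, 0, 0⟩ 0 0))))) (.pos 32 .mp ⟨⟨127971819, 0, 0, 0, 0, 0, 0, 0, 0, ⟨0, 0⟩, 0⟩, 0, 0⟩ 0 0)))) (.void 30 ⟨⟨100000, 0, 0, 0, 0, 0, 0, 0, 0, ⟨0, 0⟩, 0⟩, 0, 0⟩ 0 0))) (.void 28 ⟨⟨100000, 0, 0, 0, 0, 0, 0, 0, 0, ⟨0, 0⟩, 0⟩, 0, 0⟩ 0 0))) (.void 26 ⟨⟨100000, 0, 0, 0, 0, 0, 0, 0, 0, ⟨0, 0⟩, 0⟩, 0, 0⟩ 0 0))) (.void 24 ⟨⟨100000, 0, 0, 0, 0, 0, 0, 0, 0, ⟨0, 0⟩, 0⟩, 0, 0⟩ 0 0)) (.void 89 ⟨⟨100000, 0, 0, 0, 0, 0, 0, 0, 0, ⟨0, 0⟩, 0⟩, 0, 0⟩ 0 0)) (.void 96 ⟨⟨100000, 0, 0, 0, 0, 0, 0, 0, 0, ⟨0, 0⟩, 0⟩, 0, 0⟩ 0 0))) (.cut .v 16777216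 (.cut .v 8388608 (.cut .v 4194304 (.cut .v 2097152 (.void 97 ⟨⟨0, 0, 25058, 0, 0, 0, 0, 0, 74942, ⟨0, 0⟩, 2804900⟩, 0, 0⟩ 0 0) (.cut .d 2036071 (.pos 98 .pm ⟨⟨0, 0, 9595938, 0, 0, 0, 0, 0, 0, ⟨0, 0⟩, 0⟩, 0, 297764⟩ 0 0) (.cut .d 3054106 (.pos 98 .pm ⟨⟨0, 0, 0, 0, 0, 0, 0, 0, 0, ⟨0, 0⟩, 0⟩, 0, 297764⟩ 0 0) (.pos 98 .pm ⟨⟨0, 18374157, 0, 0, 0, 0, 0, 0, 1549653, ⟨0, 0⟩, 7053950⟩, 0, 248561⟩ 0 0)))) (.cut .d 2036071 (.pos 5 .pm ⟨⟨0, 0, 9259042, 0, 0, 0, 0, 0, 0, ⟨0, 0⟩, 0⟩, 0, 399680⟩ 0 0) (.cut .d 3054106 (.pos 5 .pm ⟨⟨0, 0, 0, 0, 0, 0, 0, 0, 0, ⟨0, 0⟩, 0⟩, 0, 372205⟩ 0 0) (.cut .v 6291456 (.cut .d 3563124 (.cut .v 5242880 (.pos 101 .pm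 ⟨⟨0, 17648198, 0, 0, 0, 0, 0, 0, 0, ⟨0, 0⟩, 0⟩, 0, 358231⟩ 0 0) (.pos 102 .pm ⟨⟨0, 18554287, 0, 0, 0, 0, 0, 0, 0, ⟨0, 0⟩, 0⟩, 0, 380648⟩ 0 0)) (.pos 6 .pm ⟨⟨0, 29543572, 0, 0, 0, 0, 0, 0, 0, ⟨0, 0⟩, 0⟩, 0, 1690425⟩ 0 0)) (.pos 7 .pm ⟨⟨0, 27371934, 0, 0, 0, 0, 0, 0, 0, ⟨0, 0⟩, 0⟩, 0, 436015⟩ 0 0))))) (.cut .d 2036071 (.pos 3 .pm ⟨⟨0, 0, 0, 0, 0, 0, 0, 0, 0, ⟨0, 0⟩, 0⟩, 0, 0⟩ 0 0) (.pos 3 .pm ⟨⟨0, 21254211, 0, 0, 0, 0, 0, 0, 0, ⟨0, 0⟩, 0⟩, 0, 532907⟩ 0 0))) (.cut .v 67108864 (.cut .v 33554432 (.cut .d 2036071 (.cut .v 25165824 (.cut .d 1018035 (.cut .v 20971520 (.cut .v 18874368 (.pos 27 .pp ⟨⟨46554595, 0, 0, 0, 0, 0, 0, 0, 0, ⟨0, 0⟩,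 0⟩, 7032400, 0⟩ 0 0) (.pos 28 .pp ⟨⟨102521606, 0, 0, 0, 0, 0, 0, 0, 0, ⟨0, 0⟩, 0⟩, 0, 0⟩ 0 0)) (.pos 26 .pp ⟨⟨144628275, 0, 0, 0, 0, 0, 0, 0, 0, ⟨0, 0⟩, 0⟩, 0, 0⟩ 0 0)) (.pos 23 .pp ⟨⟨0, 0, 0, 0, 0, 0, 0, 0, 0, ⟨0, 0⟩, 0⟩, 0, 799360⟩ 0 0)) (.pos 24 .pp ⟨⟨0, 0, 0, 0, 0, 0, 0, 0, 0, ⟨0, 0⟩, 0⟩, 47121309, 0⟩ 0 0)) (.pos 22 .pp ⟨⟨0, 0, 0, 0, 0, 0, 0, 0, 0, ⟨0, 0⟩, 0⟩, 0, 799360⟩ 0 0)) (.pos 89 .pp ⟨⟨0, 211710012, 0, 0, 0, 0, 0, 0, 0, ⟨0, 0⟩, 0⟩, 102246747, 0⟩ 0 0)) (.void 96 ⟨⟨0, 0, 0, 49861, 0, 0, 0, 0, 0, ⟨0, 0⟩, 0⟩, 50139, 0⟩ 0 0)))),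
    by decide +kernel⟩

def covers25 : cell.Covers Vale.Agent.P237.Petty.Cor.Grid.N6.table row25.1 :=
  ⟨(.cut .d 0 (.cut .v 16777216 (.cut .v 8388608 (.void 2 ⟨⟨0, 0, 100000, 0, 0, 0, 0, 0, 0, ⟨0, 0⟩, 0⟩, 0, 0⟩ 0 0) (.cut .d (-8388608) (.void 3 ⟨⟨0, 0, 0, 0, 0, 100000, 0, 0, 0, ⟨0, 0⟩, 0⟩, 0, 0⟩ 0 0) (.cut .d (-4194304) (.void 3 ⟨⟨0, 0, 0, 0, 0, 100000, 0, 0, 0, ⟨0, 0⟩, 0⟩, 0, 0⟩ 0 0) (.cut .d (-2097152) (.void 3 ⟨⟨0, 0, 0, 0, 0, 100000, 0, 0, 0, ⟨0, 0⟩, 0⟩, 0, 0⟩ 0 0) (.cut .d (-1048576) (.void 3 ⟨⟨0, 0, 0, 0, 0, 100000, 0, 0, 0, ⟨0, 0⟩, 0⟩, 0, 0⟩ 0 0) (.cut .d (-524288) (.void 3 ⟨⟨0, 0, 0, 0, 0, 100000, 0, 0, 0, ⟨0, 0⟩, 0⟩, 0, 0⟩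 0 0) (.cut .s 13860864 (.pos 3 .mm ⟨⟨0, 0, 0, 0, 0, 211910961, 0, 0, 0, ⟨0, 0⟩, 0⟩, 0, 0⟩ 0 0) (.pos 3 .mm ⟨⟨0, 0, 0, 0, 0, 230419553, 0, 0, 0, ⟨0, 0⟩, 0⟩, 0, 0⟩ 0 0)))))))) (.cut .v 67108864 (.cut .v 33554432 (.cut .v 25165824 (.cut .d (-8388608) (.void 23 ⟨⟨100000, 0, 0, 0, 0, 0, 0, 0, 0, ⟨0, 0⟩, 0⟩, 0, 0⟩ 0 0) (.cut .v 20971520 (.cut .d (-4194304) (.void 25 ⟨⟨100000, 0, 0, 0, 0, 0, 0, 0, 0, ⟨0, 0⟩, 0⟩, 0, 0⟩ 0 0) (.cut .v 18874368 (.cut .d (-2097152) (.void 27 ⟨⟨100000, 0, 0, 0, 0, 0, 0, 0, 0, ⟨0, 0⟩, 0⟩, 0, 0⟩ 0 0) (.cut .d (-1048576) (.void 27 ⟨⟨100000, 0, 0, 0, 0, 0, 0, 0, 0, ⟨0, 0⟩, 0⟩, 0, 0⟩ 0 0) (.cut .v 17825792 (.cut .d (-524288)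 (.void 29 ⟨⟨100000, 0, 0, 0, 0, 0, 0, 0, 0, ⟨0, 0⟩, 0⟩, 0, 0⟩ 0 0) (.cut .v 17301504 (.cut .d (-262144) (.void 31 ⟨⟨100000, 0, 0, 0, 0, 0, 0, 0, 0, ⟨0, 0⟩, 0⟩, 0, 0⟩ 0 0) (.cut .d (-131072) (.void 31 ⟨⟨100000, 0, 0, 0, 0, 0, 0, 0, 0, ⟨0, 0⟩, 0⟩, 0, 0⟩ 0 0) (.cut .d (-65536) (.void 31 ⟨⟨0, 0, 0, 0, 0, 100000, 0, 0, 0, ⟨0, 0⟩, 0⟩, 0, 0⟩ 0 0) (.cut .v 17039360 (.cut .d (-32768) (.cut .d (-49152) (.void 33 ⟨⟨0, 0, 0, 0, 0, 100000, 0, 0, 0, ⟨0, 0⟩, 0⟩, 0, 0⟩ 0 0) (.cut .d (-40960) (.pos 33 .mp ⟨⟨48601552, 0, 0, 0, 0, 165211623, 0, 0, 0, ⟨0, 0⟩, 0⟩, 0, 0⟩ 0 0) (.cut .l 307582 (.void 33 ⟨⟨0, 0, 0, 0, 0, 100000, 0, 0, 0, ⟨0, 0⟩, 0⟩, 0, 0⟩ 0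 0) (.cut .v 16908288 (.pos 35 .mp ⟨⟨0, 0, 0, 0, 0, 238900527, 0, 0, 0, ⟨0, 0⟩, 0⟩, 0, 0⟩ 0 0) (.cut .v 16973824 (.cut .l 461373 (.void 49 ⟨⟨0, 0, 0, 0, 0, 100000, 0, 0, 0, ⟨0, 0⟩, 0⟩, 0, 0⟩ 0 0) (.cut .s 13860864 (.cut .s 13811712 (.pos 49 .mp ⟨⟨47967542, 0, 0, 0, 0, 113195366, 0, 0, 0, ⟨0, 0⟩, 0⟩, 0, 0⟩ 0 0) (.cut .s 13836288 (.pos 49 .mp ⟨⟨50164451, 0, 0, 0, 0, 113908135, 0, 0, 0, ⟨0, 0⟩, 0⟩, 0, 0⟩ 0 0) (.pos 49 .mp ⟨⟨51306361, 0, 0, 0, 0, 115744561, 0, 0, 0, ⟨0, 0⟩, 0⟩, 0, 0⟩ 0 0))) (.cut .s 13910016 (.cut .s 13885440 (.pos 49 .mp ⟨⟨52478182, 0, 0, 0, 0, 117657233, 0, 0, 0, ⟨0, 0⟩, 0⟩, 0, 0⟩ 0 0) (.pos 49 .mp ⟨⟨53680652, 0, 0, 0,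 0, 119646228, 0, 0, 0, ⟨0, 0⟩, 0⟩, 0, 0⟩ 0 0)) (.pos 49 .mp ⟨⟨54914534, 0, 0, 0, 0, 124747184, 0, 0, 0, ⟨0, 0⟩, 0⟩, 0, 0⟩ 0 0)))) (.pos 50 .mp ⟨⟨118415408, 0, 0, 0, 0, 0, 0, 0, 0, ⟨0, 0⟩, 0⟩, 0, 0⟩ 0 0)))))) (.cut .s 13860864 (.cut .s 13811712 (.cut .v 16908288 (.cut .l 307582 (.cut .d (-16384) (.pos 35 .mp ⟨⟨46234370, 0, 0, 0, 0, 118132947, 0, 0, 0, ⟨0, 0⟩, 0⟩, 0, 0⟩ 0 0) (.cut .v 16842752 (.cut .l 153791 (.cut .d (-8192) (.pos 41 .mp ⟨⟨45627459, 0, 0, 0, 0, 118489419, 0, 0, 0, ⟨0, 0⟩, 0⟩, 0, 0⟩ 0 0) (.cut .v 16809984 (.cut .l 76895 (.cut .d (-4096) (.pos 45 .mp ⟨⟨45326750, 0, 0, 0, 0, 118662602, 0, 0, 0, ⟨0, 0⟩, 0⟩, 0, 0⟩ 0 0) (.cut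 .v 16793600 (.cut .s 13787136 (.pos 47 .mp ⟨⟨46249414, 0, 0, 0, 0, 108371985, 0, 0, 0, ⟨0, 0⟩, 0⟩, 0, 0⟩ 0 0) (.cut .s 13799424 (.pos 47 .mp ⟨⟨48470353, 0, 0, 0, 0, 106809602, 0, 0, 0, ⟨0, 0⟩, 0⟩, 0, 0⟩ 0 0) (.pos 47 .mp ⟨⟨48923584, 0, 0, 0, 0, 107811352, 0, 0, 0, ⟨0, 0⟩, 0⟩, 0, 0⟩ 0 0))) (.pos 48 .mp ⟨⟨60113956, 0, 0, 0, 0, 82203534, 0, 0, 0, ⟨0, 0⟩, 0⟩, 0, 0⟩ 0 0))) (.pos 45 .mp ⟨⟨44766442, 0, 0, 0, 0, 111047289, 0, 0, 0, ⟨0, 0⟩, 0⟩, 0, 0⟩ 0 0)) (.pos 46 .mp ⟨⟨59848804, 0, 0, 0, 0, 83120094, 0, 0, 0, ⟨0, 0⟩, 0⟩, 0, 0⟩ 0 0))) (.pos 41 .mp ⟨⟨44505803, 0, 0, 0, 0, 112457670, 0, 0, 0, ⟨0, 0⟩, 0⟩, 0, 0⟩ 0 0)) (.pos 42 .mp ⟨⟨59313616, 0,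 0, 0, 0, 84962757, 0, 0, 0, ⟨0, 0⟩, 0⟩, 0, 0⟩ 0 0))) (.cut .s 13787136 (.pos 35 .mp ⟨⟨43986896, 0, 0, 0, 0, 113633086, 0, 0, 0, ⟨0, 0⟩, 0⟩, 0, 0⟩ 0 0) (.cut .s 13799424 (.pos 35 .mp ⟨⟨44965041, 0, 0, 0, 0, 114749317, 0, 0, 0, ⟨0, 0⟩, 0⟩, 0, 0⟩ 0 0) (.pos 35 .mp ⟨⟨45463650, 0, 0, 0, 0, 115733013, 0, 0, 0, ⟨0, 0⟩, 0⟩, 0, 0⟩ 0 0)))) (.cut .s 13787136 (.pos 36 .mp ⟨⟨53807717, 0, 0, 0, 0, 95781961, 0, 0, 0, ⟨0, 0⟩, 0⟩, 0, 0⟩ 0 0) (.pos 36 .mp ⟨⟨55010859, 0, 0, 0, 0, 97079600, 0, 0, 0, ⟨0, 0⟩, 0⟩, 0, 0⟩ 0 0))) (.cut .v 16908288 (.cut .s 13836288 (.cut .d (-16384) (.cut .s 13824000 (.pos 35 .mp ⟨⟨46241447, 0, 0, 0, 0, 119775785, 0, 0, 0, ⟨0,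 0⟩, 0⟩, 0, 0⟩ 0 0) (.pos 35 .mp ⟨⟨46763255, 0, 0, 0, 0, 120730887, 0, 0, 0, ⟨0, 0⟩, 0⟩, 0, 0⟩ 0 0)) (.cut .l 307582 (.cut .v 16842752 (.cut .s 13824000 (.pos 41 .mp ⟨⟨48091702, 0, 0, 0, 0, 112224561, 0, 0, 0, ⟨0, 0⟩, 0⟩, 0, 0⟩ 0 0) (.cut .s 13830144 (.pos 41 .mp ⟨⟨50151237, 0, 0, 0, 0, 109090627, 0, 0, 0, ⟨0, 0⟩, 0⟩, 0, 0⟩ 0 0) (.pos 41 .mp ⟨⟨50356787, 0, 0, 0, 0, 109704464, 0, 0, 0, ⟨0, 0⟩, 0⟩, 0, 0⟩ 0 0))) (.pos 42 .mp ⟨⟨56723332, 0, 0, 0, 0, 96197495, 0, 0, 0, ⟨0, 0⟩, 0⟩, 0, 0⟩ 0 0)) (.pos 35 .mp ⟨⟨0, 0, 0, 0, 0, 0, 0, 0, 0, ⟨0, 0⟩, 0⟩, 0, 0⟩ 0 0))) (.cut .d (-16384) (.cut .l 307582 (.pos 35 .mp ⟨⟨49422594, 0, 0, 0, 0, 119777294,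 0, 0, 0, ⟨0, 0⟩, 0⟩, 0, 0⟩ 0 0) (.pos 35 .mp ⟨⟨47291787, 0, 0, 0, 0, 120974469, 0, 0, 0, ⟨0, 0⟩, 0⟩, 0, 0⟩ 0 0)) (.cut .l 307582 (.cut .v 16842752 (.cut .d (-8192) (.pos 41 .mp ⟨⟨47687809, 0, 0, 0, 0, 120722126, 0, 0, 0, ⟨0, 0⟩, 0⟩, 0, 0⟩ 0 0) (.cut .s 13848576 (.pos 41 .mp ⟨⟨50231600, 0, 0, 0, 0, 111283200, 0, 0, 0, ⟨0, 0⟩, 0⟩, 0, 0⟩ 0 0) (.pos 41 .mp ⟨⟨50819462, 0, 0, 0, 0, 112132027, 0, 0, 0, ⟨0, 0⟩, 0⟩, 0, 0⟩ 0 0))) (.pos 42 .mp ⟨⟨57855906, 0, 0, 0, 0, 97974333, 0, 0, 0, ⟨0, 0⟩, 0⟩, 0, 0⟩ 0 0)) (.pos 35 .mp ⟨⟨0, 0, 0, 0, 0, 0, 0, 0, 0, ⟨0, 0⟩, 0⟩, 0, 0⟩ 0 0)))) (.cut .s 13836288 (.pos 36 .mp ⟨⟨56246456, 0, 0, 0, 0, 98465630, 0,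 0, 0, ⟨0, 0⟩, 0⟩, 0, 0⟩ 0 0) (.pos 36 .mp ⟨⟨56992609, 0, 0, 0, 0, 101446926, 0, 0, 0, ⟨0, 0⟩, 0⟩, 0, 0⟩ 0 0)))) (.cut .s 13910016 (.cut .v 16908288 (.cut .s 13885440 (.cut .d (-16384) (.cut .l 307582 (.pos 35 .mp ⟨⟨50541856, 0, 0, 0, 0, 121824911, 0, 0, 0, ⟨0, 0⟩, 0⟩, 0, 0⟩ 0 0) (.pos 35 .mp ⟨⟨48369348, 0, 0, 0, 0, 123030157, 0, 0, 0, ⟨0, 0⟩, 0⟩, 0, 0⟩ 0 0)) (.cut .l 307582 (.cut .v 16842752 (.cut .l 153791 (.cut .d (-8192) (.pos 41 .mp ⟨⟨49854662, 0, 0, 0, 0, 122322493, 0, 0, 0, ⟨0, 0⟩, 0⟩, 0, 0⟩ 0 0) (.cut .s 13873152 (.pos 41 .mp ⟨⟨51471845, 0, 0, 0, 0, 112758327, 0, 0, 0, ⟨0, 0⟩, 0⟩, 0, 0⟩ 0 0) (.pos 41 .mp ⟨⟨52060281, 0, 0, 0,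 0, 113688578, 0, 0, 0, ⟨0, 0⟩, 0⟩, 0, 0⟩ 0 0))) (.pos 41 .mp ⟨⟨48613611, 0, 0, 0, 0, 118683531, 0, 0, 0, ⟨0, 0⟩, 0⟩, 0, 0⟩ 0 0)) (.pos 42 .mp ⟨⟨59098663, 0, 0, 0, 0, 99662154, 0, 0, 0, ⟨0, 0⟩, 0⟩, 0, 0⟩ 0 0)) (.pos 35 .mp ⟨⟨0, 0, 0, 0, 0, 0, 0, 0, 0, ⟨0, 0⟩, 0⟩, 0, 0⟩ 0 0))) (.cut .d (-16384) (.cut .l 307582 (.pos 35 .mp ⟨⟨51690537, 0, 0, 0, 0, 123982654, 0, 0, 0, ⟨0, 0⟩, 0⟩, 0, 0⟩ 0 0) (.pos 35 .mp ⟨⟨48410597, 0, 0, 0, 0, 127354511, 0, 0, 0, ⟨0, 0⟩, 0⟩, 0, 0⟩ 0 0)) (.cut .l 307582 (.cut .v 16842752 (.cut .l 153791 (.cut .d (-8192) (.pos 41 .mp ⟨⟨50982112, 0, 0, 0, 0, 124508469, 0, 0, 0, ⟨0, 0⟩, 0⟩, 0, 0⟩ 0 0) (.cut .s 13897728 (.pos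 41 .mp ⟨⟨52650407, 0, 0, 0, 0, 114653370, 0, 0, 0, ⟨0, 0⟩, 0⟩, 0, 0⟩ 0 0) (.pos 41 .mp ⟨⟨53242018, 0, 0, 0, 0, 115653483, 0, 0, 0, ⟨0, 0⟩, 0⟩, 0, 0⟩ 0 0))) (.pos 41 .mp ⟨⟨49708811, 0, 0, 0, 0, 120765033, 0, 0, 0, ⟨0, 0⟩, 0⟩, 0, 0⟩ 0 0)) (.pos 42 .mp ⟨⟨60458689, 0, 0, 0, 0, 101247736, 0, 0, 0, ⟨0, 0⟩, 0⟩, 0, 0⟩ 0 0)) (.pos 35 .mp ⟨⟨52494936, 0, 0, 0, 0, 0, 0, 0, 0, ⟨0, 0⟩, 0⟩, 0, 0⟩ 0 0)))) (.cut .d (-16384) (.cut .d (-24576) (.cut .l 307582 (.void 36 ⟨⟨100000, 0, 0, 0, 0, 0, 0, 0, 0, ⟨0, 0⟩, 0⟩, 0, 0⟩ 0 0) (.cut .s 13885440 (.pos 36 .mp ⟨⟨56513743, 0, 0, 0, 0, 106088084, 0, 0, 0, ⟨0, 0⟩, 0⟩, 0, 0⟩ 0 0) (.pos 36 .mp ⟨⟨57804875, 0, 0,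 0, 0, 107818393, 0, 0, 0, ⟨0, 0⟩, 0⟩, 0, 0⟩ 0 0))) (.pos 36 .mp ⟨⟨102335940, 0, 0, 0, 0, 0, 0, 0, 0, ⟨0, 0⟩, 0⟩, 0, 0⟩ 0 0)) (.pos 36 .mp ⟨⟨101666255, 0, 0, 0, 0, 0, 0, 0, 0, ⟨0, 0⟩, 0⟩, 0, 0⟩ 0 0))) (.cut .v 16908288 (.cut .s 13934592 (.cut .d (-16384) (.cut .s 13922304 (.pos 35 .mp ⟨⟨50608843, 0, 0, 0, 0, 128191887, 0, 0, 0, ⟨0, 0⟩, 0⟩, 0, 0⟩ 0 0) (.pos 35 .mp ⟨⟨51186808, 0, 0, 0, 0, 129372949, 0, 0, 0, ⟨0, 0⟩, 0⟩, 0, 0⟩ 0 0)) (.cut .l 307582 (.cut .v 16842752 (.cut .d (-8192) (.pos 41 .mp ⟨⟨51005920, 0, 0, 0, 0, 127232192, 0, 0, 0, ⟨0, 0⟩, 0⟩, 0, 0⟩ 0 0) (.cut .s 13922304 (.pos 41 .mp ⟨⟨53766133, 0, 0, 0, 0, 116968492, 0, 0, 0, ⟨0,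 0⟩, 0⟩, 0, 0⟩ 0 0) (.pos 41 .mp ⟨⟨54354849, 0, 0, 0, 0, 118062110, 0, 0, 0, ⟨0, 0⟩, 0⟩, 0, 0⟩ 0 0))) (.pos 42 .mp ⟨⟨61943280, 0, 0, 0, 0, 102717431, 0, 0, 0, ⟨0, 0⟩, 0⟩, 0, 0⟩ 0 0)) (.pos 35 .mp ⟨⟨53664583, 0, 0, 0, 0, 0, 0, 0, 0, ⟨0, 0⟩, 0⟩, 0, 0⟩ 0 0))) (.cut .d (-16384) (.cut .s 13946880 (.pos 35 .mp ⟨⟨51772190, 0, 0, 0, 0, 130583974, 0, 0, 0, ⟨0, 0⟩, 0⟩, 0, 0⟩ 0 0) (.pos 35 .mp ⟨⟨52365084, 0, 0, 0, 0, 131825365, 0, 0, 0, ⟨0, 0⟩, 0⟩, 0, 0⟩ 0 0)) (.cut .l 307582 (.cut .v 16842752 (.cut .d (-8192) (.pos 41 .mp ⟨⟨52170207, 0, 0, 0, 0, 129632771, 0, 0, 0, ⟨0, 0⟩, 0⟩, 0, 0⟩ 0 0) (.cut .s 13946880 (.pos 41 .mp ⟨⟨54942613, 0, 0, 0, 0, 119200602,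 0, 0, 0, ⟨0, 0⟩, 0⟩, 0, 0⟩ 0 0) (.pos 41 .mp ⟨⟨55529082, 0, 0, 0, 0, 120385218, 0, 0, 0, ⟨0, 0⟩, 0⟩, 0, 0⟩ 0 0))) (.pos 42 .mp ⟨⟨63559952, 0, 0, 0, 0, 104057147, 0, 0, 0, ⟨0, 0⟩, 0⟩, 0, 0⟩ 0 0)) (.pos 35 .mp ⟨⟨54864470, 0, 0, 0, 0, 0, 0, 0, 0, ⟨0, 0⟩, 0⟩, 0, 0⟩ 0 0)))) (.cut .s 13934592 (.cut .s 13922304 (.pos 36 .mp ⟨⟨59080685, 0, 0, 0, 0, 109636471, 0, 0, 0, ⟨0, 0⟩, 0⟩, 0, 0⟩ 0 0) (.pos 36 .mp ⟨⟨59798321, 0, 0, 0, 0, 110472022, 0, 0, 0, ⟨0, 0⟩, 0⟩, 0, 0⟩ 0 0)) (.pos 36 .mp ⟨⟨62532081, 0, 0, 0, 0, 107984388, 0, 0, 0, ⟨0, 0⟩, 0⟩, 0, 0⟩ 0 0)))))) (.pos 34 .mp ⟨⟨123318215, 0, 0, 0, 0, 0, 0, 0, 0, ⟨0, 0⟩, 0⟩, 0, 0⟩ 0 0))))) (.pos 32 .mp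 ⟨⟨149500502, 0, 0, 0, 0, 0, 0, 0, 0, ⟨0, 0⟩, 0⟩, 0, 0⟩ 0 0))) (.void 30 ⟨⟨100000, 0, 0, 0, 0, 0, 0, 0, 0, ⟨0, 0⟩, 0⟩, 0, 0⟩ 0 0)))) (.void 28 ⟨⟨100000, 0, 0, 0, 0, 0, 0, 0, 0, ⟨0, 0⟩, 0⟩, 0, 0⟩ 0 0))) (.void 26 ⟨⟨100000, 0, 0, 0, 0, 0, 0, 0, 0, ⟨0, 0⟩, 0⟩, 0, 0⟩ 0 0))) (.void 24 ⟨⟨100000, 0, 0, 0, 0, 0, 0, 0, 0, ⟨0, 0⟩, 0⟩, 0, 0⟩ 0 0)) (.void 89 ⟨⟨100000, 0, 0, 0, 0, 0, 0, 0, 0, ⟨0, 0⟩, 0⟩, 0, 0⟩ 0 0)) (.void 96 ⟨⟨100000, 0, 0, 0, 0, 0, 0, 0, 0, ⟨0, 0⟩, 0⟩, 0, 0⟩ 0 0))) (.cut .v 16777216 (.cut .v 8388608 (.cut .v 4194304 (.cut .v 2097152 (.pos 97 .pm ⟨⟨0, 0, 14697955, 0, 0, 0, 0, 0, 22870313, ⟨0, 0⟩, 2804900⟩, 0, 0⟩ 0 0) (.cut .d 1837506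 (.void 98 ⟨⟨0, 0, 100000, 0, 0, 0, 0, 0, 0, ⟨0, 0⟩, 0⟩, 0, 0⟩ 0 0) (.cut .d 2756259 (.pos 98 .pm ⟨⟨0, 0, 0, 0, 0, 0, 0, 0, 0, ⟨0, 0⟩, 0⟩, 0, 279463⟩ 0 0) (.cut .d 3215635 (.pos 98 .pm ⟨⟨0, 16101507, 0, 0, 0, 0, 0, 0, 0, ⟨0, 0⟩, 0⟩, 0, 279463⟩ 0 0) (.pos 98 .pm ⟨⟨0, 25116444, 0, 0, 0, 0, 0, 0, 0, ⟨0, 0⟩, 0⟩, 0, 297791⟩ 0 0))))) (.cut .d 1837506 (.pos 5 .pm ⟨⟨0, 0, 11849503, 0, 0, 0, 0, 0, 0, ⟨0, 0⟩, 0⟩, 0, 372239⟩ 0 0) (.cut .d 2756259 (.pos 5 .pm ⟨⟨0, 0, 0, 0, 0, 0, 0, 0, 0, ⟨0, 0⟩, 0⟩, 0, 349328⟩ 0 0) (.cut .v 6291456 (.cut .l 307582 (.void 6 ⟨⟨0, 0, 0, 0, 0, 0, 0, 0, 0, ⟨0, 0⟩, 0⟩, 0, 100000⟩ 0 0) (.cut .d 3215635 (.cut .v 5242880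 (.pos 101 .pm ⟨⟨0, 17765525, 0, 0, 0, 0, 0, 0, 0, ⟨0, 0⟩, 0⟩, 0, 312573⟩ 0 0) (.pos 102 .pm ⟨⟨0, 19802232, 0, 0, 0, 0, 0, 0, 0, ⟨0, 0⟩, 0⟩, 0, 332694⟩ 0 0)) (.cut .v 5242880 (.pos 101 .pm ⟨⟨0, 29274394, 0, 0, 0, 0, 0, 0, 0, ⟨0, 0⟩, 0⟩, 0, 317319⟩ 0 0) (.pos 102 .pm ⟨⟨0, 31189967, 0, 0, 0, 0, 0, 0, 0, ⟨0, 0⟩, 0⟩, 0, 354513⟩ 0 0)))) (.pos 7 .pm ⟨⟨0, 30726936, 0, 0, 0, 0, 0, 0, 0, ⟨0, 0⟩, 0⟩, 0, 406079⟩ 0 0))))) (.pos 3 .pm ⟨⟨0, 0, 0, 0, 0, 0, 0, 0, 0, ⟨0, 0⟩, 0⟩, 0, 273242⟩ 0 0)) (.cut .v 67108864 (.cut .v 33554432 (.cut .d 1837506 (.cut .v 25165824 (.cut .d 918753 (.cut .v 20971520 (.cut .v 18874368 (.pos 27 .pp ⟨⟨53552009, 0, 0, 0,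 0, 0, 0, 0, 0, ⟨0, 0⟩, 0⟩, 9100610, 0⟩ 0 0) (.pos 28 .pp ⟨⟨121580842, 0, 0, 0, 0, 0, 0, 0, 0, ⟨0, 0⟩, 0⟩, 0, 0⟩ 0 0)) (.pos 26 .pp ⟨⟨169428749, 0, 0, 0, 0, 0, 0, 0, 0, ⟨0, 0⟩, 0⟩, 0, 0⟩ 0 0)) (.pos 23 .pp ⟨⟨0, 0, 0, 0, 0, 0, 0, 0, 0, ⟨0, 0⟩, 0⟩, 0, 744478⟩ 0 0)) (.pos 24 .pp ⟨⟨0, 0, 0, 0, 0, 0, 0, 0, 0, ⟨0, 0⟩, 0⟩, 54637716, 0⟩ 0 0)) (.pos 22 .pp ⟨⟨0, 0, 0, 0, 0, 0, 0, 0, 0, ⟨0, 0⟩, 0⟩, 0, 744478⟩ 0 0)) (.pos 89 .pp ⟨⟨0, 249330565, 0, 0, 0, 0, 0, 0, 0, ⟨0, 0⟩, 0⟩, 116782632, 0⟩ 0 0)) (.void 96 ⟨⟨0, 0, 0, 50093, 0, 0, 0, 0, 0, ⟨0, 0⟩, 0⟩, 49907, 0⟩ 0 0)))),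
    by decide +kernel⟩

def covers26 : cell.Covers Vale.Agent.P237.Petty.Cor.Grid.N6.table row26.1 :=
  ⟨(.cut .d 0 (.cut .v 16777216 (.cut .v 8388608 (.void 2 ⟨⟨0, 0, 100000, 0, 0, 0, 0, 0, 0, ⟨0, 0⟩, 0⟩, 0, 0⟩ 0 0) (.cut .d (-8388608) (.void 3 ⟨⟨60298, 0, 39702, 0, 0, 0, 0, 0, 0, ⟨0, 0⟩, 0⟩, 0, 0⟩ 0 0) (.cut .d (-4194304) (.void 3 ⟨⟨60298, 0, 39702, 0, 0, 0, 0, 0, 0, ⟨0, 0⟩, 0⟩, 0, 0⟩ 0 0) (.cut .d (-2097152) (.void 3 ⟨⟨0, 0, 0, 0, 0, 100000, 0, 0, 0, ⟨0, 0⟩, 0⟩, 0, 0⟩ 0 0) (.cut .d (-1048576) (.void 3 ⟨⟨0, 0, 0, 0, 0, 100000, 0, 0, 0, ⟨0, 0⟩, 0⟩, 0, 0⟩ 0 0) (.cut .d (-524288) (.void 3 ⟨⟨0, 0, 0, 0, 0, 100000, 0, 0, 0, ⟨0, 0⟩, 0⟩,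 0, 0⟩ 0 0) (.cut .s 14057472 (.pos 3 .mm ⟨⟨0, 0, 0, 0, 0, 251093157, 0, 0, 0, ⟨0, 0⟩, 0⟩, 0, 0⟩ 0 0) (.pos 3 .mm ⟨⟨0, 0, 0, 0, 0, 274086132, 0, 0, 0, ⟨0, 0⟩, 0⟩, 0, 0⟩ 0 0)))))))) (.cut .v 67108864 (.cut .v 33554432 (.cut .v 25165824 (.cut .d (-8388608) (.void 23 ⟨⟨100000, 0, 0, 0, 0, 0, 0, 0, 0, ⟨0, 0⟩, 0⟩, 0, 0⟩ 0 0) (.cut .v 20971520 (.cut .d (-4194304) (.void 25 ⟨⟨100000, 0, 0, 0, 0, 0, 0, 0, 0, ⟨0, 0⟩, 0⟩, 0, 0⟩ 0 0) (.cut .d (-2097152) (.void 25 ⟨⟨100000, 0, 0, 0, 0, 0, 0, 0, 0, ⟨0, 0⟩, 0⟩, 0, 0⟩ 0 0) (.cut .v 18874368 (.cut .d (-1048576) (.void 27 ⟨⟨100000, 0, 0, 0, 0, 0, 0, 0, 0, ⟨0, 0⟩, 0⟩, 0, 0⟩ 0 0) (.cut .v 17825792 (.cut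 .d (-524288) (.void 29 ⟨⟨100000, 0, 0, 0, 0, 0, 0, 0, 0, ⟨0, 0⟩, 0⟩, 0, 0⟩ 0 0) (.cut .v 17301504 (.cut .d (-262144) (.void 31 ⟨⟨100000, 0, 0, 0, 0, 0, 0, 0, 0, ⟨0, 0⟩, 0⟩, 0, 0⟩ 0 0) (.cut .d (-131072) (.void 31 ⟨⟨100000, 0, 0, 0, 0, 0, 0, 0, 0, ⟨0, 0⟩, 0⟩, 0, 0⟩ 0 0) (.cut .d (-65536) (.void 31 ⟨⟨0, 0, 0, 0, 0, 100000, 0, 0, 0, ⟨0, 0⟩, 0⟩, 0, 0⟩ 0 0) (.cut .v 17039360 (.cut .d (-32768) (.cut .v 16908288 (.pos 35 .mp ⟨⟨0, 0, 0, 0, 0, 295970998, 0, 0, 0, ⟨0, 0⟩, 0⟩, 0, 0⟩ 0 0) (.cut .d (-49152) (.void 36 ⟨⟨0, 0, 0, 0, 0, 100000, 0, 0, 0, ⟨0, 0⟩, 0⟩, 0, 0⟩ 0 0) (.cut .d (-40960) (.void 36 ⟨⟨0, 0, 0, 0, 0, 100000, 0, 0, 0, ⟨0, 0⟩, 0⟩,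 0, 0⟩ 0 0) (.cut .v 16973824 (.cut .l 307582 (.void 49 ⟨⟨100000, 0, 0, 0, 0, 0, 0, 0, 0, ⟨0, 0⟩, 0⟩, 0, 0⟩ 0 0) (.cut .d (-36864) (.pos 49 .mp ⟨⟨58177570, 0, 0, 0, 0, 164082257, 0, 0, 0, ⟨0, 0⟩, 0⟩, 0, 0⟩ 0 0) (.cut .l 461373 (.void 49 ⟨⟨100000, 0, 0, 0, 0, 0, 0, 0, 0, ⟨0, 0⟩, 0⟩, 0, 0⟩ 0 0) (.cut .l 538269 (.pos 49 .mp ⟨⟨58077856, 0, 0, 0, 0, 167053093, 0, 0, 0, ⟨0, 0⟩, 0⟩, 0, 0⟩ 0 0) (.cut .v 16941056 (.pos 92 .mp ⟨⟨0, 0, 0, 0, 0, 254631374, 0, 0, 0, ⟨0, 0⟩, 0⟩, 0, 0⟩ 0 0) (.cut .s 14057472 (.cut .s 14008320 (.pos 93 .mp ⟨⟨61872539, 0, 0, 0, 0, 118376204, 0, 0, 0, ⟨0, 0⟩, 0⟩, 0, 0⟩ 0 0) (.pos 93 .mp ⟨⟨60511541, 0, 0, 0, 0, 132821037,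 0, 0, 0, ⟨0, 0⟩, 0⟩, 0, 0⟩ 0 0)) (.cut .s 14106624 (.pos 93 .mp ⟨⟨63398496, 0, 0, 0, 0, 137238523, 0, 0, 0, ⟨0, 0⟩, 0⟩, 0, 0⟩ 0 0) (.pos 93 .mp ⟨⟨66447193, 0, 0, 0, 0, 141996874, 0, 0, 0, ⟨0, 0⟩, 0⟩, 0, 0⟩ 0 0)))))))) (.pos 50 .mp ⟨⟨143085584, 0, 0, 0, 0, 0, 0, 0, 0, ⟨0, 0⟩, 0⟩, 0, 0⟩ 0 0))))) (.cut .s 14057472 (.cut .s 14008320 (.cut .v 16908288 (.cut .s 13983744 (.cut .d (-16384) (.cut .s 13971456 (.pos 35 .mp ⟨⟨52965932, 0, 0, 0, 0, 133094524, 0, 0, 0, ⟨0, 0⟩, 0⟩, 0, 0⟩ 0 0) (.pos 35 .mp ⟨⟨53578274, 0, 0, 0, 0, 134127510, 0, 0, 0, ⟨0, 0⟩, 0⟩, 0, 0⟩ 0 0)) (.cut .l 307582 (.cut .v 16842752 (.cut .s 13971456 (.pos 41 .mp ⟨⟨55017070,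 0, 0, 0, 0, 124497541, 0, 0, 0, ⟨0, 0⟩, 0⟩, 0, 0⟩ 0 0) (.cut .s 13977600 (.pos 41 .mp ⟨⟨57286759, 0, 0, 0, 0, 121089638, 0, 0, 0, ⟨0, 0⟩, 0⟩, 0, 0⟩ 0 0) (.pos 41 .mp ⟨⟨57482582, 0, 0, 0, 0, 121884409, 0, 0, 0, ⟨0, 0⟩, 0⟩, 0, 0⟩ 0 0))) (.pos 42 .mp ⟨⟨65318414, 0, 0, 0, 0, 105255110, 0, 0, 0, ⟨0, 0⟩, 0⟩, 0, 0⟩ 0 0)) (.pos 35 .mp ⟨⟨56599689, 0, 0, 0, 0, 0, 0, 0, 0, ⟨0, 0⟩, 0⟩, 0, 0⟩ 0 0))) (.cut .d (-16384) (.cut .s 13996032 (.pos 35 .mp ⟨⟨54198959, 0, 0, 0, 0, 135193616, 0, 0, 0, ⟨0, 0⟩, 0⟩, 0, 0⟩ 0 0) (.pos 35 .mp ⟨⟨54828095, 0, 0, 0, 0, 136293298, 0, 0, 0, ⟨0, 0⟩, 0⟩, 0, 0⟩ 0 0)) (.cut .l 307582 (.cut .v 16842752 (.cut .d (-8192) (.pos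 41 .mp ⟨⟨54595753, 0, 0, 0, 0, 134281013, 0, 0, 0, ⟨0, 0⟩, 0⟩, 0, 0⟩ 0 0) (.cut .s 13996032 (.pos 41 .mp ⟨⟨57549289, 0, 0, 0, 0, 123183578, 0, 0, 0, ⟨0, 0⟩, 0⟩, 0, 0⟩ 0 0) (.pos 41 .mp ⟨⟨58267716, 0, 0, 0, 0, 124039044, 0, 0, 0, ⟨0, 0⟩, 0⟩, 0, 0⟩ 0 0))) (.pos 42 .mp ⟨⟨66542330, 0, 0, 0, 0, 107435930, 0, 0, 0, ⟨0, 0⟩, 0⟩, 0, 0⟩ 0 0)) (.pos 35 .mp ⟨⟨57891226, 0, 0, 0, 0, 0, 0, 0, 0, ⟨0, 0⟩, 0⟩, 0, 0⟩ 0 0)))) (.cut .s 13983744 (.pos 36 .mp ⟨⟨64153365, 0, 0, 0, 0, 109459183, 0, 0, 0, ⟨0, 0⟩, 0⟩, 0, 0⟩ 0 0) (.cut .s 13996032 (.pos 36 .mp ⟨⟨63329142, 0, 0, 0, 0, 115100733, 0, 0, 0, ⟨0, 0⟩, 0⟩, 0, 0⟩ 0 0) (.pos 36 .mp ⟨⟨63982229, 0, 0, 0,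 0, 116197451, 0, 0, 0, ⟨0, 0⟩, 0⟩, 0, 0⟩ 0 0)))) (.cut .v 16908288 (.cut .s 14032896 (.cut .d (-16384) (.cut .s 14020608 (.pos 35 .mp ⟨⟨55465791, 0, 0, 0, 0, 137427019, 0, 0, 0, ⟨0, 0⟩, 0⟩, 0, 0⟩ 0 0) (.pos 35 .mp ⟨⟨56112157, 0, 0, 0, 0, 138595252, 0, 0, 0, ⟨0, 0⟩, 0⟩, 0, 0⟩ 0 0)) (.cut .l 307582 (.cut .v 16842752 (.cut .d (-8192) (.pos 41 .mp ⟨⟨55860441, 0, 0, 0, 0, 136539891, 0, 0, 0, ⟨0, 0⟩, 0⟩, 0, 0⟩ 0 0) (.cut .s 14020608 (.pos 41 .mp ⟨⟨58987991, 0, 0, 0, 0, 124939991, 0, 0, 0, ⟨0, 0⟩, 0⟩, 0, 0⟩ 0 0) (.pos 41 .mp ⟨⟨59673634, 0, 0, 0, 0, 125979570, 0, 0, 0, ⟨0, 0⟩, 0⟩, 0, 0⟩ 0 0))) (.pos 42 .mp ⟨⟨67892000, 0, 0, 0, 0, 109530565,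 0, 0, 0, ⟨0, 0⟩, 0⟩, 0, 0⟩ 0 0)) (.pos 35 .mp ⟨⟨59208821, 0, 0, 0, 0, 0, 0, 0, 0, ⟨0, 0⟩, 0⟩, 0, 0⟩ 0 0))) (.cut .d (-16384) (.cut .s 14045184 (.pos 35 .mp ⟨⟨56767307, 0, 0, 0, 0, 139798477, 0, 0, 0, ⟨0, 0⟩, 0⟩, 0, 0⟩ 0 0) (.pos 35 .mp ⟨⟨57431355, 0, 0, 0, 0, 141037184, 0, 0, 0, ⟨0, 0⟩, 0⟩, 0, 0⟩ 0 0)) (.cut .l 307582 (.cut .v 16842752 (.cut .d (-8192) (.pos 41 .mp ⟨⟨57160106, 0, 0, 0, 0, 138935968, 0, 0, 0, ⟨0, 0⟩, 0⟩, 0, 0⟩ 0 0) (.cut .s 14045184 (.pos 41 .mp ⟨⟨60362474, 0, 0, 0, 0, 127062145, 0, 0, 0, ⟨0, 0⟩, 0⟩, 0, 0⟩ 0 0) (.pos 41 .mp ⟨⟨61060896, 0, 0, 0, 0, 128171949, 0, 0, 0, ⟨0, 0⟩, 0⟩, 0, 0⟩ 0 0))) (.pos 42 .mp ⟨⟨69376650,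 0, 0, 0, 0, 111521796, 0, 0, 0, ⟨0, 0⟩, 0⟩, 0, 0⟩ 0 0)) (.pos 35 .mp ⟨⟨60562396, 0, 0, 0, 0, 0, 0, 0, 0, ⟨0, 0⟩, 0⟩, 0, 0⟩ 0 0)))) (.cut .d (-16384) (.cut .d (-24576) (.cut .v 16973824 (.cut .l 307582 (.void 49 ⟨⟨100000, 0, 0, 0, 0, 0, 0, 0, 0, ⟨0, 0⟩, 0⟩, 0, 0⟩ 0 0) (.cut .s 14032896 (.pos 49 .mp ⟨⟨64169142, 0, 0, 0, 0, 119103979, 0, 0, 0, ⟨0, 0⟩, 0⟩, 0, 0⟩ 0 0) (.pos 49 .mp ⟨⟨65584604, 0, 0, 0, 0, 121299343, 0, 0, 0, ⟨0, 0⟩, 0⟩, 0, 0⟩ 0 0))) (.pos 50 .mp ⟨⟨117049611, 0, 0, 0, 0, 0, 0, 0, 0, ⟨0, 0⟩, 0⟩, 0, 0⟩ 0 0)) (.pos 36 .mp ⟨⟨115198600, 0, 0, 0, 0, 0, 0, 0, 0, ⟨0, 0⟩, 0⟩, 0, 0⟩ 0 0)) (.pos 36 .mp ⟨⟨114368913, 0, 0, 0, 0, 0, 0,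 0, 0, ⟨0, 0⟩, 0⟩, 0, 0⟩ 0 0)))) (.cut .s 14106624 (.cut .v 16908288 (.cut .s 14082048 (.cut .d (-16384) (.cut .s 14069760 (.pos 35 .mp ⟨⟨58104419, 0, 0, 0, 0, 142311869, 0, 0, 0, ⟨0, 0⟩, 0⟩, 0, 0⟩ 0 0) (.pos 35 .mp ⟨⟨58786617, 0, 0, 0, 0, 143623041, 0, 0, 0, ⟨0, 0⟩, 0⟩, 0, 0⟩ 0 0)) (.cut .l 307582 (.cut .v 16842752 (.cut .d (-8192) (.pos 41 .mp ⟨⟨58495663, 0, 0, 0, 0, 141473097, 0, 0, 0, ⟨0, 0⟩, 0⟩, 0, 0⟩ 0 0) (.cut .s 14069760 (.pos 41 .mp ⟨⟨61769029, 0, 0, 0, 0, 129309130, 0, 0, 0, ⟨0, 0⟩, 0⟩, 0, 0⟩ 0 0) (.pos 41 .mp ⟨⟨62487000, 0, 0, 0, 0, 130473831, 0, 0, 0, ⟨0, 0⟩, 0⟩, 0, 0⟩ 0 0))) (.pos 42 .mp ⟨⟨71005795, 0, 0, 0, 0, 113391820,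 0, 0, 0, ⟨0, 0⟩, 0⟩, 0, 0⟩ 0 0)) (.pos 35 .mp ⟨⟨61952880, 0, 0, 0, 0, 0, 0, 0, 0, ⟨0, 0⟩, 0⟩, 0, 0⟩ 0 0))) (.cut .d (-16384) (.cut .s 14094336 (.pos 35 .mp ⟨⟨59478070, 0, 0, 0, 0, 144971214, 0, 0, 0, ⟨0, 0⟩, 0⟩, 0, 0⟩ 0 0) (.pos 35 .mp ⟨⟨60178903, 0, 0, 0, 0, 146356915, 0, 0, 0, ⟨0, 0⟩, 0⟩, 0, 0⟩ 0 0)) (.cut .l 307582 (.cut .v 16842752 (.cut .d (-8192) (.pos 41 .mp ⟨⟨59868067, 0, 0, 0, 0, 144155269, 0, 0, 0, ⟨0, 0⟩, 0⟩, 0, 0⟩ 0 0) (.cut .s 14094336 (.pos 41 .mp ⟨⟨63214940, 0, 0, 0, 0, 131666199, 0, 0, 0, ⟨0, 0⟩, 0⟩, 0, 0⟩ 0 0) (.pos 41 .mp ⟨⟨63952984, 0, 0, 0, 0, 132886378, 0, 0, 0, ⟨0, 0⟩, 0⟩, 0, 0⟩ 0 0))) (.pos 42 .mp ⟨⟨72789249,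 0, 0, 0, 0, 115122221, 0, 0, 0, ⟨0, 0⟩, 0⟩, 0, 0⟩ 0 0)) (.pos 35 .mp ⟨⟨63381233, 0, 0, 0, 0, 0, 0, 0, 0, ⟨0, 0⟩, 0⟩, 0, 0⟩ 0 0)))) (.cut .l 307582 (.pos 36 .mp ⟨⟨142976565, 0, 0, 0, 0, 0, 0, 0, 0, ⟨0, 0⟩, 0⟩, 0, 0⟩ 0 0) (.cut .s 14082048 (.cut .s 14069760 (.pos 36 .mp ⟨⟨66464675, 0, 0, 0, 0, 123456093, 0, 0, 0, ⟨0, 0⟩, 0⟩, 0, 0⟩ 0 0) (.pos 36 .mp ⟨⟨67248501, 0, 0, 0, 0, 124519972, 0, 0, 0, ⟨0, 0⟩, 0⟩, 0, 0⟩ 0 0)) (.pos 36 .mp ⟨⟨70135058, 0, 0, 0, 0, 122087586, 0, 0, 0, ⟨0, 0⟩, 0⟩, 0, 0⟩ 0 0)))) (.cut .v 16908288 (.cut .s 14131200 (.cut .d (-16384) (.cut .s 14118912 (.pos 35 .mp ⟨⟨60889242, 0, 0, 0, 0, 147780678, 0, 0, 0, ⟨0, 0⟩, 0⟩,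 0, 0⟩ 0 0) (.pos 35 .mp ⟨⟨61609213, 0, 0, 0, 0, 149243049, 0, 0, 0, ⟨0, 0⟩, 0⟩, 0, 0⟩ 0 0)) (.cut .l 307582 (.cut .v 16842752 (.cut .d (-8192) (.pos 41 .mp ⟨⟨61278303, 0, 0, 0, 0, 146986624, 0, 0, 0, ⟨0, 0⟩, 0⟩, 0, 0⟩ 0 0) (.cut .s 14118912 (.pos 41 .mp ⟨⟨64701267, 0, 0, 0, 0, 134134513, 0, 0, 0, ⟨0, 0⟩, 0⟩, 0, 0⟩ 0 0) (.pos 41 .mp ⟨⟨65459927, 0, 0, 0, 0, 135410748, 0, 0, 0, ⟨0, 0⟩, 0⟩, 0, 0⟩ 0 0))) (.pos 42 .mp ⟨⟨74737142, 0, 0, 0, 0, 116693943, 0, 0, 0, ⟨0, 0⟩, 0⟩, 0, 0⟩ 0 0)) (.pos 35 .mp ⟨⟨64848450, 0, 0, 0, 0, 0, 0, 0, 0, ⟨0, 0⟩, 0⟩, 0, 0⟩ 0 0))) (.cut .d (-16384) (.cut .s 14143488 (.pos 35 .mp ⟨⟨62338949, 0, 0, 0, 0, 150744583,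 0, 0, 0, ⟨0, 0⟩, 0⟩, 0, 0⟩ 0 0) (.pos 35 .mp ⟨⟨63078581, 0, 0, 0, 0, 152285844, 0, 0, 0, ⟨0, 0⟩, 0⟩, 0, 0⟩ 0 0)) (.cut .l 307582 (.cut .v 16842752 (.cut .d (-8192) (.pos 41 .mp ⟨⟨62727395, 0, 0, 0, 0, 149971454, 0, 0, 0, ⟨0, 0⟩, 0⟩, 0, 0⟩ 0 0) (.cut .s 14143488 (.pos 41 .mp ⟨⟨66203200, 0, 0, 0, 0, 136781102, 0, 0, 0, ⟨0, 0⟩, 0⟩, 0, 0⟩ 0 0) (.pos 41 .mp ⟨⟨66915896, 0, 0, 0, 0, 138284720, 0, 0, 0, ⟨0, 0⟩, 0⟩, 0, 0⟩ 0 0))) (.pos 42 .mp ⟨⟨76859936, 0, 0, 0, 0, 118087258, 0, 0, 0, ⟨0, 0⟩, 0⟩, 0, 0⟩ 0 0)) (.pos 35 .mp ⟨⟨66355563, 0, 0, 0, 0, 0, 0, 0, 0, ⟨0, 0⟩, 0⟩, 0, 0⟩ 0 0)))) (.cut .l 307582 (.pos 36 .mp ⟨⟨148584133, 0, 0, 0, 0, 0, 0,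 0, 0, ⟨0, 0⟩, 0⟩, 0, 0⟩ 0 0) (.cut .s 14131200 (.pos 36 .mp ⟨⟨71975441, 0, 0, 0, 0, 123901486, 0, 0, 0, ⟨0, 0⟩, 0⟩, 0, 0⟩ 0 0) (.pos 36 .mp ⟨⟨73986937, 0, 0, 0, 0, 125545464, 0, 0, 0, ⟨0, 0⟩, 0⟩, 0, 0⟩ 0 0))))))) (.pos 34 .mp ⟨⟨144100099, 0, 0, 0, 0, 0, 0, 0, 0, ⟨0, 0⟩, 0⟩, 0, 0⟩ 0 0))))) (.pos 32 .mp ⟨⟨175681821, 0, 0, 0, 0, 0, 0, 0, 0, ⟨0, 0⟩, 0⟩, 0, 0⟩ 0 0))) (.void 30 ⟨⟨100000, 0, 0, 0, 0, 0, 0, 0, 0, ⟨0, 0⟩, 0⟩, 0, 0⟩ 0 0))) (.void 28 ⟨⟨100000, 0, 0, 0, 0, 0, 0, 0, 0, ⟨0, 0⟩, 0⟩, 0, 0⟩ 0 0)))) (.void 26 ⟨⟨100000, 0, 0, 0, 0, 0, 0, 0, 0, ⟨0, 0⟩, 0⟩, 0, 0⟩ 0 0))) (.void 24 ⟨⟨100000, 0, 0, 0, 0, 0, 0, 0, 0, ⟨0, 0⟩, 0⟩, 0, 0⟩ 0 0))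 (.void 89 ⟨⟨100000, 0, 0, 0, 0, 0, 0, 0, 0, ⟨0, 0⟩, 0⟩, 0, 0⟩ 0 0)) (.void 96 ⟨⟨100000, 0, 0, 0, 0, 0, 0, 0, 0, ⟨0, 0⟩, 0⟩, 0, 0⟩ 0 0))) (.cut .v 16777216 (.cut .v 8388608 (.cut .v 4194304 (.cut .v 2097152 (.pos 97 .pm ⟨⟨0, 0, 15778402, 0, 0, 0, 0, 0, 14283030, ⟨0, 0⟩, 2804900⟩, 0, 0⟩ 0 0) (.cut .d 1693476 (.void 98 ⟨⟨0, 0, 100000, 0, 0, 0, 0, 0, 0, ⟨0, 0⟩, 0⟩, 0, 0⟩ 0 0) (.cut .d 2540214 (.pos 98 .pm ⟨⟨0, 0, 0, 0, 0, 0, 0, 0, 0, ⟨0, 0⟩, 0⟩, 0, 224150⟩ 0 0) (.cut .d 2963583 (.pos 98 .pm ⟨⟨0, 16205103, 0, 0, 0, 0, 0, 0, 0, ⟨0, 0⟩, 0⟩, 0, 260014⟩ 0 0) (.pos 98 .pm ⟨⟨0, 27698278, 0, 0, 0, 0, 0, 0, 0, ⟨0, 0⟩, 0⟩, 0, 279449⟩ 0 0))))) (.cut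 .d 1693476 (.pos 5 .pm ⟨⟨0, 0, 15546220, 0, 0, 0, 0, 0, 0, ⟨0, 0⟩, 0⟩, 0, 349311⟩ 0 0) (.cut .d 2540214 (.pos 5 .pm ⟨⟨0, 0, 0, 0, 0, 0, 0, 0, 0, ⟨0, 0⟩, 0⟩, 0, 335553⟩ 0 0) (.cut .v 6291456 (.cut .d 2963583 (.pos 6 .pm ⟨⟨0, 18801586, 0, 0, 0, 0, 0, 0, 0, ⟨0, 0⟩, 0⟩, 0, 315507⟩ 0 0) (.cut .v 5242880 (.pos 101 .pm ⟨⟨0, 30589775, 0, 0, 0, 0, 0, 0, 0, ⟨0, 0⟩, 0⟩, 0, 297773⟩ 0 0) (.pos 102 .pm ⟨⟨0, 33706539, 0, 0, 0, 0, 0, 0, 0, ⟨0, 0⟩, 0⟩, 0, 332677⟩ 0 0))) (.pos 7 .pm ⟨⟨0, 33876019, 0, 0, 0, 0, 0, 0, 0, ⟨0, 0⟩, 0⟩, 0, 381066⟩ 0 0))))) (.pos 3 .pm ⟨⟨0, 0, 0, 0, 0, 0, 0, 0, 0, ⟨0, 0⟩, 0⟩, 0, 0⟩ 0 0)) (.cut .v 67108864 (.cut .v 33554432 (.cut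 .d 1693476 (.cut .d 846738 (.cut .v 25165824 (.cut .v 20971520 (.cut .v 18874368 (.pos 27 .pp ⟨⟨67852847, 0, 0, 0, 0, 0, 0, 0, 0, ⟨0, 0⟩, 0⟩, 9198675, 0⟩ 0 0) (.pos 28 .pp ⟨⟨140591397, 0, 0, 0, 0, 0, 0, 0, 0, ⟨0, 0⟩, 0⟩, 0, 0⟩ 0 0)) (.pos 26 .pp ⟨⟨195475097, 0, 0, 0, 0, 0, 0, 0, 0, ⟨0, 0⟩, 0⟩, 0, 0⟩ 0 0)) (.pos 24 .pp ⟨⟨0, 0, 0, 0, 0, 0, 0, 0, 0, ⟨0, 0⟩, 0⟩, 70803132, 0⟩ 0 0)) (.pos 22 .pp ⟨⟨0, 0, 0, 0, 0, 0, 0, 0, 0, ⟨0, 0⟩, 0⟩, 8013550, 568389⟩ 0 0)) (.pos 22 .pp ⟨⟨0, 0, 0, 0, 0, 0, 0, 0, 0, ⟨0, 0⟩, 0⟩, 0, 698622⟩ 0 0)) (.pos 89 .pp ⟨⟨0, 305562025, 0, 0, 0, 0, 0, 0, 0, ⟨0, 0⟩, 0⟩, 133570332, 0⟩ 0 0)) (.void 96 ⟨⟨0, 0, 0, 50324, 0,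 0, 0, 0, 0, ⟨0, 0⟩, 0⟩, 49676, 0⟩ 0 0)))),
    by decide +kernel⟩

def covers27 : cell.Covers Vale.Agent.P237.Petty.Cor.Grid.N6.table row27.1 :=
  ⟨(.cut .d 0 (.cut .v 16777216 (.cut .v 8388608 (.void 2 ⟨⟨0, 0, 100000, 0, 0, 0, 0, 0, 0, ⟨0, 0⟩, 0⟩, 0, 0⟩ 0 0) (.cut .d (-8388608) (.void 3 ⟨⟨60053, 0, 39947, 0, 0, 0, 0, 0, 0, ⟨0, 0⟩, 0⟩, 0, 0⟩ 0 0) (.cut .d (-4194304) (.void 3 ⟨⟨60053, 0, 39947, 0, 0, 0, 0, 0, 0, ⟨0, 0⟩, 0⟩, 0, 0⟩ 0 0) (.cut .d (-2097152) (.void 3 ⟨⟨0, 0, 0, 0, 0, 100000, 0, 0, 0, ⟨0, 0⟩, 0⟩, 0, 0⟩ 0 0) (.cut .d (-1048576) (.void 3 ⟨⟨0, 0, 0, 0, 0, 100000, 0, 0, 0, ⟨0, 0⟩, 0⟩, 0, 0⟩ 0 0) (.cut .d (-524288) (.void 3 ⟨⟨0,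 0, 0, 0, 0, 100000, 0, 0, 0, ⟨0, 0⟩, 0⟩, 0, 0⟩ 0 0) (.cut .s 14237696 (.pos 3 .mm ⟨⟨0, 0, 0, 0, 0, 295669117, 0, 0, 0, ⟨0, 0⟩, 0⟩, 0, 0⟩ 0 0) (.pos 3 .mm ⟨⟨0, 0, 0, 0, 0, 319059351, 0, 0, 0, ⟨0, 0⟩, 0⟩, 0, 0⟩ 0 0)))))))) (.cut .v 67108864 (.cut .v 33554432 (.cut .v 25165824 (.cut .d (-8388608) (.void 23 ⟨⟨100000, 0, 0, 0, 0, 0, 0, 0, 0, ⟨0, 0⟩, 0⟩, 0, 0⟩ 0 0) (.cut .v 20971520 (.cut .d (-4194304) (.void 25 ⟨⟨100000, 0, 0, 0, 0, 0, 0, 0, 0, ⟨0, 0⟩, 0⟩, 0, 0⟩ 0 0) (.cut .d (-2097152) (.void 25 ⟨⟨100000, 0, 0, 0, 0, 0, 0, 0, 0, ⟨0, 0⟩, 0⟩, 0, 0⟩ 0 0) (.cut .v 18874368 (.cut .d (-1048576) (.void 27 ⟨⟨100000, 0, 0, 0, 0, 0, 0, 0, 0, ⟨0,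 0⟩, 0⟩, 0, 0⟩ 0 0) (.cut .v 17825792 (.cut .d (-524288) (.void 29 ⟨⟨100000, 0, 0, 0, 0, 0, 0, 0, 0, ⟨0, 0⟩, 0⟩, 0, 0⟩ 0 0) (.cut .v 17301504 (.cut .d (-262144) (.void 31 ⟨⟨100000, 0, 0, 0, 0, 0, 0, 0, 0, ⟨0, 0⟩, 0⟩, 0, 0⟩ 0 0) (.cut .d (-131072) (.void 31 ⟨⟨100000, 0, 0, 0, 0, 0, 0, 0, 0, ⟨0, 0⟩, 0⟩, 0, 0⟩ 0 0) (.cut .d (-65536) (.void 31 ⟨⟨0, 0, 0, 0, 0, 100000, 0, 0, 0, ⟨0, 0⟩, 0⟩, 0, 0⟩ 0 0) (.cut .v 17039360 (.cut .d (-32768) (.cut .v 16908288 (.pos 35 .mp ⟨⟨0, 0, 0, 0, 0, 347819326, 0, 0, 0, ⟨0, 0⟩, 0⟩, 0, 0⟩ 0 0) (.cut .s 14237696 (.cut .s 14196736 (.pos 36 .mp ⟨⟨71342211, 0, 0, 0, 0, 151370621, 0, 0, 0, ⟨0, 0⟩, 0⟩, 0, 0⟩ 0 0)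 (.pos 36 .mp ⟨⟨74060728, 0, 0, 0, 0, 156476827, 0, 0, 0, ⟨0, 0⟩, 0⟩, 0, 0⟩ 0 0)) (.pos 36 .mp ⟨⟨77313414, 0, 0, 0, 0, 171768982, 0, 0, 0, ⟨0, 0⟩, 0⟩, 0, 0⟩ 0 0))) (.cut .s 14237696 (.cut .s 14196736 (.cut .v 16908288 (.cut .d (-16384) (.cut .l 307582 (.pos 35 .mp ⟨⟨67193640, 0, 0, 0, 0, 154540551, 0, 0, 0, ⟨0, 0⟩, 0⟩, 0, 0⟩ 0 0) (.cut .s 14176256 (.pos 35 .mp ⟨⟨63199911, 0, 0, 0, 0, 154125298, 0, 0, 0, ⟨0, 0⟩, 0⟩, 0, 0⟩ 0 0) (.pos 35 .mp ⟨⟨63946747, 0, 0, 0, 0, 157436568, 0, 0, 0, ⟨0, 0⟩, 0⟩, 0, 0⟩ 0 0))) (.cut .l 307582 (.cut .v 16842752 (.cut .s 14176256 (.cut .s 14166016 (.pos 41 .mp ⟨⟨66458783, 0, 0, 0, 0, 142796090, 0, 0, 0, ⟨0,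 0⟩, 0⟩, 0, 0⟩ 0 0) (.pos 41 .mp ⟨⟨66829746, 0, 0, 0, 0, 144467098, 0, 0, 0, ⟨0, 0⟩, 0⟩, 0, 0⟩ 0 0)) (.cut .s 14186496 (.pos 41 .mp ⟨⟨67363480, 0, 0, 0, 0, 145798183, 0, 0, 0, ⟨0, 0⟩, 0⟩, 0, 0⟩ 0 0) (.pos 41 .mp ⟨⟨67916720, 0, 0, 0, 0, 147124173, 0, 0, 0, ⟨0, 0⟩, 0⟩, 0, 0⟩ 0 0))) (.pos 42 .mp ⟨⟨84555932, 0, 0, 0, 0, 110190080, 0, 0, 0, ⟨0, 0⟩, 0⟩, 0, 0⟩ 0 0)) (.pos 35 .mp ⟨⟨69294926, 0, 0, 0, 0, 0, 0, 0, 0, ⟨0, 0⟩, 0⟩, 0, 0⟩ 0 0))) (.cut .s 14176256 (.pos 36 .mp ⟨⟨76715272, 0, 0, 0, 0, 126092582, 0, 0, 0, ⟨0, 0⟩, 0⟩, 0, 0⟩ 0 0) (.pos 36 .mp ⟨⟨78042233, 0, 0, 0, 0, 128253743, 0, 0, 0, ⟨0, 0⟩, 0⟩, 0, 0⟩ 0 0))) (.cut .v 16908288 (.cut .d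 (-16384) (.cut .l 307582 (.pos 35 .mp ⟨⟨69818132, 0, 0, 0, 0, 159429216, 0, 0, 0, ⟨0, 0⟩, 0⟩, 0, 0⟩ 0 0) (.cut .s 14217216 (.pos 35 .mp ⟨⟨64802448, 0, 0, 0, 0, 160678377, 0, 0, 0, ⟨0, 0⟩, 0⟩, 0, 0⟩ 0 0) (.pos 35 .mp ⟨⟨65774299, 0, 0, 0, 0, 163837068, 0, 0, 0, ⟨0, 0⟩, 0⟩, 0, 0⟩ 0 0))) (.cut .l 307582 (.cut .v 16842752 (.cut .s 14217216 (.cut .d (-8192) (.pos 41 .mp ⟨⟨66803137, 0, 0, 0, 0, 156899567, 0, 0, 0, ⟨0, 0⟩, 0⟩, 0, 0⟩ 0 0) (.cut .s 14206976 (.pos 41 .mp ⟨⟨70237546, 0, 0, 0, 0, 143861393, 0, 0, 0, ⟨0, 0⟩, 0⟩, 0, 0⟩ 0 0) (.pos 41 .mp ⟨⟨70996158, 0, 0, 0, 0, 144752596, 0, 0, 0, ⟨0, 0⟩, 0⟩, 0, 0⟩ 0 0))) (.cut .d (-8192) (.pos 41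 .mp ⟨⟨68143952, 0, 0, 0, 0, 159239923, 0, 0, 0, ⟨0, 0⟩, 0⟩, 0, 0⟩ 0 0) (.cut .s 14227456 (.pos 41 .mp ⟨⟨71755321, 0, 0, 0, 0, 145687908, 0, 0, 0, ⟨0, 0⟩, 0⟩, 0, 0⟩ 0 0) (.pos 41 .mp ⟨⟨72507841, 0, 0, 0, 0, 146685987, 0, 0, 0, ⟨0, 0⟩, 0⟩, 0, 0⟩ 0 0)))) (.cut .s 14217216 (.pos 42 .mp ⟨⟨80421833, 0, 0, 0, 0, 125971069, 0, 0, 0, ⟨0, 0⟩, 0⟩, 0, 0⟩ 0 0) (.pos 42 .mp ⟨⟨81862980, 0, 0, 0, 0, 128108920, 0, 0, 0, ⟨0, 0⟩, 0⟩, 0, 0⟩ 0 0))) (.pos 35 .mp ⟨⟨72119496, 0, 0, 0, 0, 0, 0, 0, 0, ⟨0, 0⟩, 0⟩, 0, 0⟩ 0 0))) (.cut .d (-16384) (.cut .s 14217216 (.pos 36 .mp ⟨⟨78771259, 0, 0, 0, 0, 132384570, 0, 0, 0, ⟨0, 0⟩, 0⟩, 0, 0⟩ 0 0) (.cut .s 14227456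 (.pos 36 .mp ⟨⟨77762368, 0, 0, 0, 0, 138745766, 0, 0, 0, ⟨0, 0⟩, 0⟩, 0, 0⟩ 0 0) (.pos 36 .mp ⟨⟨78498711, 0, 0, 0, 0, 139871102, 0, 0, 0, ⟨0, 0⟩, 0⟩, 0, 0⟩ 0 0))) (.pos 36 .mp ⟨⟨133318618, 0, 0, 0, 0, 0, 0, 0, 0, ⟨0, 0⟩, 0⟩, 0, 0⟩ 0 0)))) (.cut .s 14278656 (.cut .v 16908288 (.cut .s 14258176 (.cut .d (-16384) (.cut .s 14247936 (.pos 35 .mp ⟨⟨69146840, 0, 0, 0, 0, 162609684, 0, 0, 0, ⟨0, 0⟩, 0⟩, 0, 0⟩ 0 0) (.pos 35 .mp ⟨⟨69847913, 0, 0, 0, 0, 163876326, 0, 0, 0, ⟨0, 0⟩, 0⟩, 0, 0⟩ 0 0)) (.cut .l 307582 (.cut .v 16842752 (.cut .d (-8192) (.pos 41 .mp ⟨⟨69517245, 0, 0, 0, 0, 161705232, 0, 0, 0, ⟨0, 0⟩, 0⟩, 0, 0⟩ 0 0) (.cut .s 14247936 (.pos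 41 .mp ⟨⟨73233607, 0, 0, 0, 0, 147798368, 0, 0, 0, ⟨0, 0⟩, 0⟩, 0, 0⟩ 0 0) (.pos 41 .mp ⟨⟨73968233, 0, 0, 0, 0, 148934816, 0, 0, 0, ⟨0, 0⟩, 0⟩, 0, 0⟩ 0 0))) (.pos 42 .mp ⟨⟨83433061, 0, 0, 0, 0, 130137068, 0, 0, 0, ⟨0, 0⟩, 0⟩, 0, 0⟩ 0 0)) (.pos 35 .mp ⟨⟨73583602, 0, 0, 0, 0, 0, 0, 0, 0, ⟨0, 0⟩, 0⟩, 0, 0⟩ 0 0))) (.cut .d (-16384) (.cut .s 14268416 (.pos 35 .mp ⟨⟨70557347, 0, 0, 0, 0, 165175560, 0, 0, 0, ⟨0, 0⟩, 0⟩, 0, 0⟩ 0 0) (.pos 35 .mp ⟨⟨71275240, 0, 0, 0, 0, 166507800, 0, 0, 0, ⟨0, 0⟩, 0⟩, 0, 0⟩ 0 0)) (.cut .l 307582 (.cut .v 16842752 (.cut .d (-8192) (.pos 41 .mp ⟨⟨70923789, 0, 0, 0, 0, 164298641, 0, 0, 0, ⟨0, 0⟩, 0⟩, 0, 0⟩ 0 0) (.cut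 .s 14268416 (.pos 41 .mp ⟨⟨74711824, 0, 0, 0, 0, 150095433, 0, 0, 0, ⟨0, 0⟩, 0⟩, 0, 0⟩ 0 0) (.pos 41 .mp ⟨⟨75464488, 0, 0, 0, 0, 151280320, 0, 0, 0, ⟨0, 0⟩, 0⟩, 0, 0⟩ 0 0))) (.pos 42 .mp ⟨⟨85139828, 0, 0, 0, 0, 132040901, 0, 0, 0, ⟨0, 0⟩, 0⟩, 0, 0⟩ 0 0)) (.pos 35 .mp ⟨⟨75083357, 0, 0, 0, 0, 28846058, 0, 0, 0, ⟨0, 0⟩, 0⟩, 0, 0⟩ 0 0)))) (.cut .d (-16384) (.cut .v 16973824 (.cut .v 16941056 (.cut .l 307582 (.void 92 ⟨⟨100000, 0, 0, 0, 0, 0, 0, 0, 0, ⟨0, 0⟩, 0⟩, 0, 0⟩ 0 0) (.cut .s 14258176 (.pos 92 .mp ⟨⟨79359160, 0, 0, 0, 0, 141067911, 0, 0, 0, ⟨0, 0⟩, 0⟩, 0, 0⟩ 0 0) (.pos 92 .mp ⟨⟨80985941, 0, 0, 0, 0, 143181863, 0, 0, 0, ⟨0, 0⟩, 0⟩,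 0, 0⟩ 0 0))) (.pos 93 .mp ⟨⟨88549789, 0, 0, 0, 0, 126235931, 0, 0, 0, ⟨0, 0⟩, 0⟩, 0, 0⟩ 0 0)) (.pos 50 .mp ⟨⟨162041614, 0, 0, 0, 0, 0, 0, 0, 0, ⟨0, 0⟩, 0⟩, 0, 0⟩ 0 0)) (.pos 36 .mp ⟨⟨137974064, 0, 0, 0, 0, 0, 0, 0, 0, ⟨0, 0⟩, 0⟩, 0, 0⟩ 0 0))) (.cut .v 16908288 (.cut .s 14299136 (.cut .d (-16384) (.cut .s 14288896 (.pos 35 .mp ⟨⟨72001695, 0, 0, 0, 0, 167873463, 0, 0, 0, ⟨0, 0⟩, 0⟩, 0, 0⟩ 0 0) (.pos 35 .mp ⟨⟨72736814, 0, 0, 0, 0, 169272976, 0, 0, 0, ⟨0, 0⟩, 0⟩, 0, 0⟩ 0 0)) (.cut .l 307582 (.cut .v 16842752 (.cut .d (-8192) (.pos 41 .mp ⟨⟨72364380, 0, 0, 0, 0, 167023400, 0, 0, 0, ⟨0, 0⟩, 0⟩, 0, 0⟩ 0 0) (.cut .s 14288896 (.pos 41 .mp ⟨⟨76226334,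 0, 0, 0, 0, 152489578, 0, 0, 0, ⟨0, 0⟩, 0⟩, 0, 0⟩ 0 0) (.pos 41 .mp ⟨⟨76997473, 0, 0, 0, 0, 153723308, 0, 0, 0, ⟨0, 0⟩, 0⟩, 0, 0⟩ 0 0))) (.pos 42 .mp ⟨⟨86991256, 0, 0, 0, 0, 133805352, 0, 0, 0, ⟨0, 0⟩, 0⟩, 0, 0⟩ 0 0)) (.pos 35 .mp ⟨⟨75428781, 0, 0, 0, 0, 151441764, 0, 0, 0, ⟨0, 0⟩, 0⟩, 0, 0⟩ 0 0))) (.cut .d (-16384) (.cut .s 14309376 (.pos 35 .mp ⟨⟨73480702, 0, 0, 0, 0, 170706770, 0, 0, 0, ⟨0, 0⟩, 0⟩, 0, 0⟩ 0 0) (.pos 35 .mp ⟨⟨74233466, 0, 0, 0, 0, 172175284, 0, 0, 0, ⟨0, 0⟩, 0⟩, 0, 0⟩ 0 0)) (.cut .l 307582 (.cut .v 16842752 (.cut .d (-8192) (.pos 41 .mp ⟨⟨73839838, 0, 0, 0, 0, 169882866, 0, 0, 0, ⟨0, 0⟩, 0⟩, 0, 0⟩ 0 0) (.cut .s 14309376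 (.pos 41 .mp ⟨⟨77778018, 0, 0, 0, 0, 154981609, 0, 0, 0, ⟨0, 0⟩, 0⟩, 0, 0⟩ 0 0) (.pos 41 .mp ⟨⟨78550779, 0, 0, 0, 0, 156308607, 0, 0, 0, ⟨0, 0⟩, 0⟩, 0, 0⟩ 0 0))) (.pos 42 .mp ⟨⟨88995555, 0, 0, 0, 0, 135414881, 0, 0, 0, ⟨0, 0⟩, 0⟩, 0, 0⟩ 0 0)) (.pos 35 .mp ⟨⟨76944744, 0, 0, 0, 0, 153881391, 0, 0, 0, ⟨0, 0⟩, 0⟩, 0, 0⟩ 0 0)))) (.cut .d (-16384) (.cut .v 16973824 (.cut .s 14299136 (.cut .s 14288896 (.pos 49 .mp ⟨⟨81393811, 0, 0, 0, 0, 147247758, 0, 0, 0, ⟨0, 0⟩, 0⟩, 0, 0⟩ 0 0) (.pos 49 .mp ⟨⟨82279717, 0, 0, 0, 0, 148284424, 0, 0, 0, ⟨0, 0⟩, 0⟩, 0, 0⟩ 0 0)) (.pos 49 .mp ⟨⟨86490367, 0, 0, 0, 0, 143688942, 0, 0, 0, ⟨0, 0⟩, 0⟩, 0, 0⟩ 0 0))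 (.pos 50 .mp ⟨⟨169238428, 0, 0, 0, 0, 0, 0, 0, 0, ⟨0, 0⟩, 0⟩, 0, 0⟩ 0 0)) (.pos 36 .mp ⟨⟨142969127, 0, 0, 0, 0, 0, 0, 0, 0, ⟨0, 0⟩, 0⟩, 0, 0⟩ 0 0)))))) (.pos 34 .mp ⟨⟨167238250, 0, 0, 0, 0, 0, 0, 0, 0, ⟨0, 0⟩, 0⟩, 0, 0⟩ 0 0))))) (.pos 32 .mp ⟨⟨202373802, 0, 0, 0, 0, 0, 0, 0, 0, ⟨0, 0⟩, 0⟩, 0, 0⟩ 0 0))) (.void 30 ⟨⟨100000, 0, 0, 0, 0, 0, 0, 0, 0, ⟨0, 0⟩, 0⟩, 0, 0⟩ 0 0))) (.void 28 ⟨⟨100000, 0, 0, 0, 0, 0, 0, 0, 0, ⟨0, 0⟩, 0⟩, 0, 0⟩ 0 0)))) (.void 26 ⟨⟨100000, 0, 0, 0, 0, 0, 0, 0, 0, ⟨0, 0⟩, 0⟩, 0, 0⟩ 0 0))) (.void 24 ⟨⟨100000, 0, 0, 0, 0, 0, 0, 0, 0, ⟨0, 0⟩, 0⟩, 0, 0⟩ 0 0)) (.void 89 ⟨⟨100000, 0, 0, 0, 0, 0, 0, 0, 0, ⟨0, 0⟩, 0⟩, 0, 0⟩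 0 0)) (.void 96 ⟨⟨100000, 0, 0, 0, 0, 0, 0, 0, 0, ⟨0, 0⟩, 0⟩, 0, 0⟩ 0 0))) (.cut .v 16777216 (.cut .v 8388608 (.cut .v 4194304 (.cut .d 1553447 (.void 4 ⟨⟨0, 0, 100000, 0, 0, 0, 0, 0, 0, ⟨0, 0⟩, 0⟩, 0, 0⟩ 0 0) (.cut .v 2097152 (.cut .v 1048576 (.void 107 ⟨⟨0, 0, 0, 0, 100000, 0, 0, 0, 0, ⟨0, 0⟩, 0⟩, 0, 0⟩ 0 0) (.void 108 ⟨⟨0, 0, 37288, 0, 0, 0, 0, 0, 62712, ⟨0, 0⟩, 4987896⟩, 0, 0⟩ 0 0)) (.cut .d 2330170 (.pos 98 .pm ⟨⟨0, 0, 0, 0, 0, 0, 0, 0, 0, ⟨0, 0⟩, 0⟩, 0, 208895⟩ 0 0) (.pos 98 .pm ⟨⟨0, 22303135, 0, 0, 0, 0, 0, 0, 0, ⟨0, 0⟩, 0⟩, 0, 242319⟩ 0 0)))) (.cut .d 1553447 (.pos 5 .pm ⟨⟨0, 0, 22392302, 0, 0, 0, 0, 0, 0, ⟨0, 0⟩, 0⟩, 0, 325026⟩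 0 0) (.cut .d 2330170 (.pos 5 .pm ⟨⟨0, 0, 0, 0, 0, 0, 0, 0, 0, ⟨0, 0⟩, 0⟩, 0, 258999⟩ 0 0) (.cut .d 2718532 (.pos 5 .pm ⟨⟨0, 9934505, 0, 0, 0, 0, 0, 0, 0, ⟨0, 0⟩, 0⟩, 0, 325026⟩ 0 0) (.pos 5 .pm ⟨⟨0, 40905594, 0, 0, 0, 0, 0, 0, 0, ⟨0, 0⟩, 0⟩, 0, 285330⟩ 0 0))))) (.pos 3 .pm ⟨⟨0, 0, 0, 0, 0, 0, 0, 0, 0, ⟨0, 0⟩, 0⟩, 0, 0⟩ 0 0)) (.cut .v 67108864 (.cut .v 33554432 (.cut .d 1553447 (.cut .d 776723 (.cut .v 25165824 (.cut .v 20971520 (.cut .v 18874368 (.pos 27 .pp ⟨⟨78891644, 0, 0, 0, 0, 0, 0, 0, 0, ⟨0, 0⟩, 0⟩, 10856380, 0⟩ 0 0) (.pos 28 .pp ⟨⟨162585238, 0, 0, 0, 0, 0, 0, 0, 0, ⟨0, 0⟩, 0⟩, 0, 0⟩ 0 0)) (.pos 26 .pp ⟨⟨224301046, 0, 0, 0, 0,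 0, 0, 0, 0, ⟨0, 0⟩, 0⟩, 0, 0⟩ 0 0)) (.pos 24 .pp ⟨⟨0, 0, 0, 0, 0, 0, 0, 0, 0, ⟨0, 0⟩, 0⟩, 80596264, 0⟩ 0 0)) (.pos 22 .pp ⟨⟨0, 0, 0, 0, 0, 0, 0, 0, 0, ⟨0, 0⟩, 0⟩, 11596761, 500600⟩ 0 0)) (.pos 22 .pp ⟨⟨0, 0, 0, 0, 0, 0, 0, 0, 0, ⟨0, 0⟩, 0⟩, 0, 650053⟩ 0 0)) (.pos 89 .pp ⟨⟨0, 358974230, 0, 0, 0, 0, 0, 0, 0, ⟨0, 0⟩, 0⟩, 150781521, 0⟩ 0 0)) (.void 96 ⟨⟨0, 0, 0, 50517, 0, 0, 0, 0, 0, ⟨0, 0⟩, 0⟩, 49483, 0⟩ 0 0)))),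
    by decide +kernel⟩

def covers28 : cell.Covers Vale.Agent.P237.Petty.Cor.Grid.N6.table row28.1 :=
  ⟨(.cut .d 0 (.cut .v 16777216 (.cut .v 8388608 (.void 2 ⟨⟨0, 0, 100000, 0, 0, 0, 0, 0, 0, ⟨0, 0⟩, 0⟩, 0, 0⟩ 0 0) (.cut .d (-8388608) (.void 3 ⟨⟨100000, 0, 0, 0, 0, 0, 0, 0, 0, ⟨0, 0⟩, 0⟩, 0, 0⟩ 0 0) (.cut .d (-4194304) (.void 3 ⟨⟨59851, 0, 40149, 0, 0, 0, 0, 0, 0, ⟨0, 0⟩, 0⟩, 0, 0⟩ 0 0) (.cut .d (-2097152) (.void 3 ⟨⟨0, 0, 0, 0, 0, 100000, 0, 0, 0, ⟨0, 0⟩, 0⟩, 0, 0⟩ 0 0) (.cut .d (-1048576) (.void 3 ⟨⟨0, 0, 0, 0, 0, 100000, 0, 0, 0, ⟨0, 0⟩, 0⟩, 0, 0⟩ 0 0) (.cut .d (-524288) (.void 3 ⟨⟨0, 0, 0, 0, 0, 100000, 0, 0, 0, ⟨0, 0⟩, 0⟩, 0,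 0⟩ 0 0) (.cut .s 14401536 (.pos 3 .mm ⟨⟨0, 0, 0, 0, 0, 344956404, 0, 0, 0, ⟨0, 0⟩, 0⟩, 0, 0⟩ 0 0) (.pos 3 .mm ⟨⟨0, 0, 0, 0, 0, 373545634, 0, 0, 0, ⟨0, 0⟩, 0⟩, 0, 0⟩ 0 0)))))))) (.cut .v 67108864 (.cut .v 33554432 (.cut .v 25165824 (.cut .d (-8388608) (.void 23 ⟨⟨100000, 0, 0, 0, 0, 0, 0, 0, 0, ⟨0, 0⟩, 0⟩, 0, 0⟩ 0 0) (.cut .d (-4194304) (.void 23 ⟨⟨100000, 0, 0, 0, 0, 0, 0, 0, 0, ⟨0, 0⟩, 0⟩, 0, 0⟩ 0 0) (.cut .v 20971520 (.cut .d (-2097152) (.void 25 ⟨⟨100000, 0, 0, 0, 0, 0, 0, 0, 0, ⟨0, 0⟩, 0⟩, 0, 0⟩ 0 0) (.cut .v 18874368 (.cut .d (-1048576) (.void 27 ⟨⟨100000, 0, 0, 0, 0, 0, 0, 0, 0, ⟨0, 0⟩, 0⟩, 0, 0⟩ 0 0) (.cut .v 17825792 (.cut .d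 (-524288) (.void 29 ⟨⟨100000, 0, 0, 0, 0, 0, 0, 0, 0, ⟨0, 0⟩, 0⟩, 0, 0⟩ 0 0) (.cut .v 17301504 (.cut .d (-262144) (.void 31 ⟨⟨100000, 0, 0, 0, 0, 0, 0, 0, 0, ⟨0, 0⟩, 0⟩, 0, 0⟩ 0 0) (.cut .d (-131072) (.void 31 ⟨⟨100000, 0, 0, 0, 0, 0, 0, 0, 0, ⟨0, 0⟩, 0⟩, 0, 0⟩ 0 0) (.cut .d (-65536) (.void 31 ⟨⟨0, 0, 0, 0, 0, 100000, 0, 0, 0, ⟨0, 0⟩, 0⟩, 0, 0⟩ 0 0) (.cut .d (-32768) (.void 31 ⟨⟨0, 0, 0, 0, 0, 100000, 0, 0, 0, ⟨0, 0⟩, 0⟩, 0, 0⟩ 0 0) (.cut .v 17039360 (.cut .s 14401536 (.cut .s 14360576 (.cut .v 16908288 (.cut .d (-16384) (.cut .l 307582 (.void 35 ⟨⟨0, 0, 0, 0, 0, 100000, 0, 0, 0, ⟨0, 0⟩, 0⟩, 0, 0⟩ 0 0) (.cut .s 14340096 (.pos 35 .mp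 ⟨⟨73422516, 0, 0, 0, 0, 176568862, 0, 0, 0, ⟨0, 0⟩, 0⟩, 0, 0⟩ 0 0) (.pos 35 .mp ⟨⟨74423814, 0, 0, 0, 0, 180389269, 0, 0, 0, ⟨0, 0⟩, 0⟩, 0, 0⟩ 0 0))) (.cut .l 307582 (.cut .v 16842752 (.cut .s 14340096 (.cut .d (-8192) (.pos 41 .mp ⟨⟨75351336, 0, 0, 0, 0, 172883734, 0, 0, 0, ⟨0, 0⟩, 0⟩, 0, 0⟩ 0 0) (.cut .s 14329856 (.pos 41 .mp ⟨⟨79300832, 0, 0, 0, 0, 157743556, 0, 0, 0, ⟨0, 0⟩, 0⟩, 0, 0⟩ 0 0) (.pos 41 .mp ⟨⟨80178442, 0, 0, 0, 0, 158712971, 0, 0, 0, ⟨0, 0⟩, 0⟩, 0, 0⟩ 0 0))) (.cut .d (-8192) (.pos 41 .mp ⟨⟨76904365, 0, 0, 0, 0, 175445247, 0, 0, 0, ⟨0, 0⟩, 0⟩, 0, 0⟩ 0 0) (.cut .s 14350336 (.pos 41 .mp ⟨⟨80999108, 0, 0, 0, 0, 159883367,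 0, 0, 0, ⟨0, 0⟩, 0⟩, 0, 0⟩ 0 0) (.pos 41 .mp ⟨⟨81830370, 0, 0, 0, 0, 161083353, 0, 0, 0, ⟨0, 0⟩, 0⟩, 0, 0⟩ 0 0)))) (.cut .s 14340096 (.pos 42 .mp ⟨⟨91110212, 0, 0, 0, 0, 136967483, 0, 0, 0, ⟨0, 0⟩, 0⟩, 0, 0⟩ 0 0) (.pos 42 .mp ⟨⟨92751513, 0, 0, 0, 0, 139396909, 0, 0, 0, ⟨0, 0⟩, 0⟩, 0, 0⟩ 0 0))) (.pos 35 .mp ⟨⟨79992504, 0, 0, 0, 0, 153819754, 0, 0, 0, ⟨0, 0⟩, 0⟩, 0, 0⟩ 0 0))) (.cut .d (-16384) (.cut .s 14340096 (.pos 36 .mp ⟨⟨89062219, 0, 0, 0, 0, 144605852, 0, 0, 0, ⟨0, 0⟩, 0⟩, 0, 0⟩ 0 0) (.cut .s 14350336 (.pos 36 .mp ⟨⟨87800956, 0, 0, 0, 0, 152038924, 0, 0, 0, ⟨0, 0⟩, 0⟩, 0, 0⟩ 0 0) (.pos 36 .mp ⟨⟨88637607, 0, 0, 0, 0, 153327352, 0,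 0, 0, ⟨0, 0⟩, 0⟩, 0, 0⟩ 0 0))) (.pos 36 .mp ⟨⟨148332745, 0, 0, 0, 0, 0, 0, 0, 0, ⟨0, 0⟩, 0⟩, 0, 0⟩ 0 0))) (.cut .v 16908288 (.cut .s 14381056 (.cut .d (-16384) (.cut .s 14370816 (.pos 35 .mp ⟨⟨78156214, 0, 0, 0, 0, 178856262, 0, 0, 0, ⟨0, 0⟩, 0⟩, 0, 0⟩ 0 0) (.pos 35 .mp ⟨⟨78971421, 0, 0, 0, 0, 180248198, 0, 0, 0, ⟨0, 0⟩, 0⟩, 0, 0⟩ 0 0)) (.cut .l 307582 (.cut .v 16842752 (.cut .d (-8192) (.pos 41 .mp ⟨⟨78497145, 0, 0, 0, 0, 178159315, 0, 0, 0, ⟨0, 0⟩, 0⟩, 0, 0⟩ 0 0) (.cut .s 14370816 (.pos 41 .mp ⟨⟨82672360, 0, 0, 0, 0, 162313057, 0, 0, 0, ⟨0, 0⟩, 0⟩, 0, 0⟩ 0 0) (.pos 41 .mp ⟨⟨83525212, 0, 0, 0, 0, 163572604, 0, 0, 0, ⟨0, 0⟩, 0⟩, 0,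 0⟩ 0 0))) (.pos 42 .mp ⟨⟨94483024, 0, 0, 0, 0, 141834884, 0, 0, 0, ⟨0, 0⟩, 0⟩, 0, 0⟩ 0 0)) (.pos 35 .mp ⟨⟨82343543, 0, 0, 0, 0, 160447430, 0, 0, 0, ⟨0, 0⟩, 0⟩, 0, 0⟩ 0 0))) (.cut .d (-16384) (.cut .s 14391296 (.pos 35 .mp ⟨⟨79796897, 0, 0, 0, 0, 181679920, 0, 0, 0, ⟨0, 0⟩, 0⟩, 0, 0⟩ 0 0) (.pos 35 .mp ⟨⟨80632772, 0, 0, 0, 0, 183151955, 0, 0, 0, ⟨0, 0⟩, 0⟩, 0, 0⟩ 0 0)) (.cut .l 307582 (.cut .v 16842752 (.cut .d (-8192) (.pos 41 .mp ⟨⟨80130671, 0, 0, 0, 0, 181029974, 0, 0, 0, ⟨0, 0⟩, 0⟩, 0, 0⟩ 0 0) (.cut .s 14391296 (.pos 41 .mp ⟨⟨84389062, 0, 0, 0, 0, 164862120, 0, 0, 0, ⟨0, 0⟩, 0⟩, 0, 0⟩ 0 0) (.pos 41 .mp ⟨⟨85264048, 0, 0, 0, 0, 166181729,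 0, 0, 0, ⟨0, 0⟩, 0⟩, 0, 0⟩ 0 0))) (.pos 42 .mp ⟨⟨96371505, 0, 0, 0, 0, 144144819, 0, 0, 0, ⟨0, 0⟩, 0⟩, 0, 0⟩ 0 0)) (.pos 35 .mp ⟨⟨84041151, 0, 0, 0, 0, 163081403, 0, 0, 0, ⟨0, 0⟩, 0⟩, 0, 0⟩ 0 0)))) (.cut .d (-16384) (.cut .l 307582 (.void 36 ⟨⟨100000, 0, 0, 0, 0, 0, 0, 0, 0, ⟨0, 0⟩, 0⟩, 0, 0⟩ 0 0) (.cut .v 16973824 (.cut .l 461373 (.pos 49 .mp ⟨⟨92095258, 0, 0, 0, 0, 156575189, 0, 0, 0, ⟨0, 0⟩, 0⟩, 0, 0⟩ 0 0) (.cut .s 14381056 (.pos 49 .mp ⟨⟨88468652, 0, 0, 0, 0, 157039455, 0, 0, 0, ⟨0, 0⟩, 0⟩, 0, 0⟩ 0 0) (.pos 49 .mp ⟨⟨90340429, 0, 0, 0, 0, 159438668, 0, 0, 0, ⟨0, 0⟩, 0⟩, 0, 0⟩ 0 0))) (.pos 50 .mp ⟨⟨182136663, 0, 0, 0, 0, 0, 0, 0,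 0, ⟨0, 0⟩, 0⟩, 0, 0⟩ 0 0))) (.pos 36 .mp ⟨⟨153615776, 0, 0, 0, 0, 0, 0, 0, 0, ⟨0, 0⟩, 0⟩, 0, 0⟩ 0 0)))) (.cut .s 14442496 (.cut .v 16908288 (.cut .s 14422016 (.cut .d (-16384) (.cut .s 14411776 (.pos 35 .mp ⟨⟨81479176, 0, 0, 0, 0, 184664842, 0, 0, 0, ⟨0, 0⟩, 0⟩, 0, 0⟩ 0 0) (.pos 35 .mp ⟨⟨82336245, 0, 0, 0, 0, 186219125, 0, 0, 0, ⟨0, 0⟩, 0⟩, 0, 0⟩ 0 0)) (.cut .l 307582 (.cut .v 16842752 (.cut .d (-8192) (.pos 41 .mp ⟨⟨81805967, 0, 0, 0, 0, 184061397, 0, 0, 0, ⟨0, 0⟩, 0⟩, 0, 0⟩ 0 0) (.cut .s 14411776 (.pos 41 .mp ⟨⟨86150312, 0, 0, 0, 0, 167531554, 0, 0, 0, ⟨0, 0⟩, 0⟩, 0, 0⟩ 0 0) (.pos 41 .mp ⟨⟨87047998, 0, 0, 0, 0, 168911719, 0, 0, 0,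 ⟨0, 0⟩, 0⟩, 0, 0⟩ 0 0))) (.pos 42 .mp ⟨⟨98427219, 0, 0, 0, 0, 146307312, 0, 0, 0, ⟨0, 0⟩, 0⟩, 0, 0⟩ 0 0)) (.pos 35 .mp ⟨⟨85781128, 0, 0, 0, 0, 165782441, 0, 0, 0, ⟨0, 0⟩, 0⟩, 0, 0⟩ 0 0))) (.cut .d (-16384) (.cut .s 14432256 (.pos 35 .mp ⟨⟨83204112, 0, 0, 0, 0, 187815362, 0, 0, 0, ⟨0, 0⟩, 0⟩, 0, 0⟩ 0 0) (.pos 35 .mp ⟨⟨84082917, 0, 0, 0, 0, 189454117, 0, 0, 0, ⟨0, 0⟩, 0⟩, 0, 0⟩ 0 0)) (.cut .l 307582 (.cut .v 16842752 (.cut .d (-8192) (.pos 41 .mp ⟨⟨83524097, 0, 0, 0, 0, 187257904, 0, 0, 0, ⟨0, 0⟩, 0⟩, 0, 0⟩ 0 0) (.cut .s 14432256 (.pos 41 .mp ⟨⟨87957250, 0, 0, 0, 0, 170322346, 0, 0, 0, ⟨0, 0⟩, 0⟩, 0, 0⟩ 0 0) (.pos 41 .mp ⟨⟨88878218, 0,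 0, 0, 0, 171763555, 0, 0, 0, ⟨0, 0⟩, 0⟩, 0, 0⟩ 0 0))) (.pos 42 .mp ⟨⟨100660750, 0, 0, 0, 0, 148302318, 0, 0, 0, ⟨0, 0⟩, 0⟩, 0, 0⟩ 0 0)) (.pos 35 .mp ⟨⟨87564562, 0, 0, 0, 0, 168547733, 0, 0, 0, ⟨0, 0⟩, 0⟩, 0, 0⟩ 0 0)))) (.cut .d (-16384) (.cut .v 16973824 (.cut .l 307582 (.void 49 ⟨⟨100000, 0, 0, 0, 0, 0, 0, 0, 0, ⟨0, 0⟩, 0⟩, 0, 0⟩ 0 0) (.cut .l 461373 (.pos 49 .mp ⟨⟨96503832, 0, 0, 0, 0, 160593993, 0, 0, 0, ⟨0, 0⟩, 0⟩, 0, 0⟩ 0 0) (.cut .s 14422016 (.pos 49 .mp ⟨⟨92260606, 0, 0, 0, 0, 161922964, 0, 0, 0, ⟨0, 0⟩, 0⟩, 0, 0⟩ 0 0) (.pos 49 .mp ⟨⟨94230427, 0, 0, 0, 0, 164490832, 0, 0, 0, ⟨0, 0⟩, 0⟩, 0, 0⟩ 0 0)))) (.pos 50 .mp ⟨⟨188488056,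 0, 0, 0, 0, 0, 0, 0, 0, ⟨0, 0⟩, 0⟩, 0, 0⟩ 0 0)) (.pos 36 .mp ⟨⟨159314268, 0, 0, 0, 0, 0, 0, 0, 0, ⟨0, 0⟩, 0⟩, 0, 0⟩ 0 0))) (.cut .v 16908288 (.cut .s 14462976 (.cut .d (-16384) (.cut .s 14452736 (.pos 35 .mp ⟨⟨84972799, 0, 0, 0, 0, 191135966, 0, 0, 0, ⟨0, 0⟩, 0⟩, 0, 0⟩ 0 0) (.pos 35 .mp ⟨⟨85873903, 0, 0, 0, 0, 192861494, 0, 0, 0, ⟨0, 0⟩, 0⟩, 0, 0⟩ 0 0)) (.cut .l 307582 (.cut .v 16842752 (.cut .d (-8192) (.pos 41 .mp ⟨⟨85286162, 0, 0, 0, 0, 190623964, 0, 0, 0, ⟨0, 0⟩, 0⟩, 0, 0⟩ 0 0) (.cut .s 14452736 (.pos 41 .mp ⟨⟨89811052, 0, 0, 0, 0, 173235465, 0, 0, 0, ⟨0, 0⟩, 0⟩, 0, 0⟩ 0 0) (.pos 41 .mp ⟨⟨90755907, 0, 0, 0, 0, 174738196, 0, 0, 0,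 ⟨0, 0⟩, 0⟩, 0, 0⟩ 0 0))) (.pos 42 .mp ⟨⟨103083014, 0, 0, 0, 0, 150109123, 0, 0, 0, ⟨0, 0⟩, 0⟩, 0, 0⟩ 0 0)) (.pos 35 .mp ⟨⟨89392581, 0, 0, 0, 0, 171374392, 0, 0, 0, ⟨0, 0⟩, 0⟩, 0, 0⟩ 0 0))) (.cut .d (-16384) (.cut .s 14473216 (.pos 35 .mp ⟨⟨86786373, 0, 0, 0, 0, 194631298, 0, 0, 0, ⟨0, 0⟩, 0⟩, 0, 0⟩ 0 0) (.pos 35 .mp ⟨⟨87710359, 0, 0, 0, 0, 196445984, 0, 0, 0, ⟨0, 0⟩, 0⟩, 0, 0⟩ 0 0)) (.cut .l 307582 (.cut .v 16842752 (.cut .d (-8192) (.pos 41 .mp ⟨⟨87093299, 0, 0, 0, 0, 194164207, 0, 0, 0, ⟨0, 0⟩, 0⟩, 0, 0⟩ 0 0) (.cut .s 14473216 (.pos 41 .mp ⟨⟨91712939, 0, 0, 0, 0, 176271865, 0, 0, 0, ⟨0, 0⟩, 0⟩, 0, 0⟩ 0 0) (.pos 41 .mp ⟨⟨92682307,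 0, 0, 0, 0, 177836588, 0, 0, 0, ⟨0, 0⟩, 0⟩, 0, 0⟩ 0 0))) (.pos 42 .mp ⟨⟨105705272, 0, 0, 0, 0, 151706312, 0, 0, 0, ⟨0, 0⟩, 0⟩, 0, 0⟩ 0 0)) (.pos 35 .mp ⟨⟨91266351, 0, 0, 0, 0, 174259458, 0, 0, 0, ⟨0, 0⟩, 0⟩, 0, 0⟩ 0 0)))) (.cut .d (-16384) (.cut .l 307582 (.void 36 ⟨⟨100000, 0, 0, 0, 0, 0, 0, 0, 0, ⟨0, 0⟩, 0⟩, 0, 0⟩ 0 0) (.cut .s 14462976 (.cut .s 14452736 (.pos 36 .mp ⟨⟨96427116, 0, 0, 0, 0, 166191415, 0, 0, 0, ⟨0, 0⟩, 0⟩, 0, 0⟩ 0 0) (.pos 36 .mp ⟨⟨97515981, 0, 0, 0, 0, 167413653, 0, 0, 0, ⟨0, 0⟩, 0⟩, 0, 0⟩ 0 0)) (.pos 36 .mp ⟨⟨101186749, 0, 0, 0, 0, 164463643, 0, 0, 0, ⟨0, 0⟩, 0⟩, 0, 0⟩ 0 0))) (.pos 36 .mp ⟨⟨165449184, 0, 0, 0, 0,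 0, 0, 0, 0, ⟨0, 0⟩, 0⟩, 0, 0⟩ 0 0))))) (.pos 34 .mp ⟨⟨180829976, 0, 0, 0, 0, 0, 0, 0, 0, ⟨0, 0⟩, 0⟩, 0, 0⟩ 0 0)))))) (.pos 32 .mp ⟨⟨234462565, 0, 0, 0, 0, 0, 0, 0, 0, ⟨0, 0⟩, 0⟩, 0, 0⟩ 0 0))) (.void 30 ⟨⟨100000, 0, 0, 0, 0, 0, 0, 0, 0, ⟨0, 0⟩, 0⟩, 0, 0⟩ 0 0))) (.void 28 ⟨⟨100000, 0, 0, 0, 0, 0, 0, 0, 0, ⟨0, 0⟩, 0⟩, 0, 0⟩ 0 0))) (.void 26 ⟨⟨100000, 0, 0, 0, 0, 0, 0, 0, 0, ⟨0, 0⟩, 0⟩, 0, 0⟩ 0 0)))) (.void 24 ⟨⟨100000, 0, 0, 0, 0, 0, 0, 0, 0, ⟨0, 0⟩, 0⟩, 0, 0⟩ 0 0)) (.void 89 ⟨⟨100000, 0, 0, 0, 0, 0, 0, 0, 0, ⟨0, 0⟩, 0⟩, 0, 0⟩ 0 0)) (.void 96 ⟨⟨100000, 0, 0, 0, 0, 0, 0, 0, 0, ⟨0, 0⟩, 0⟩, 0, 0⟩ 0 0))) (.cut .v 16777216 (.cut .v 8388608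 (.cut .v 4194304 (.cut .d 1439693 (.void 4 ⟨⟨0, 0, 100000, 0, 0, 0, 0, 0, 0, ⟨0, 0⟩, 0⟩, 0, 0⟩ 0 0) (.cut .v 2097152 (.cut .v 1048576 (.void 107 ⟨⟨0, 0, 50000, 0, 50000, 0, 0, 0, 0, ⟨0, 0⟩, 0⟩, 0, 0⟩ 0 0) (.pos 108 .pm ⟨⟨0, 0, 0, 0, 0, 0, 0, 0, 6428799, ⟨0, 0⟩, 4987896⟩, 0, 15208⟩ 0 0)) (.pos 98 .pm ⟨⟨0, 12167200, 0, 0, 0, 0, 0, 0, 0, ⟨0, 0⟩, 0⟩, 0, 224172⟩ 0 0))) (.cut .d 1439693 (.pos 5 .pm ⟨⟨0, 0, 31016522, 0, 0, 0, 0, 0, 0, ⟨0, 0⟩, 0⟩, 0, 302886⟩ 0 0) (.pos 5 .pm ⟨⟨0, 19984788, 0, 0, 0, 0, 0, 0, 0, ⟨0, 0⟩, 0⟩, 0, 280215⟩ 0 0))) (.pos 3 .pm ⟨⟨0, 0, 0, 0, 0, 0, 0, 0, 0, ⟨0, 0⟩, 0⟩, 0, 0⟩ 0 0)) (.cut .v 67108864 (.cut .v 33554432 (.cut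 .d 1439693 (.cut .d 719846 (.cut .v 25165824 (.cut .v 20971520 (.cut .v 18874368 (.pos 27 .pp ⟨⟨96378353, 0, 0, 0, 0, 0, 0, 0, 0, ⟨0, 0⟩, 0⟩, 11064810, 0⟩ 0 0) (.pos 28 .pp ⟨⟨185926969, 0, 0, 0, 0, 0, 0, 0, 0, ⟨0, 0⟩, 0⟩, 0, 0⟩ 0 0)) (.pos 26 .pp ⟨⟨255909138, 0, 0, 0, 0, 0, 0, 0, 0, ⟨0, 0⟩, 0⟩, 0, 0⟩ 0 0)) (.pos 24 .pp ⟨⟨0, 0, 0, 0, 0, 0, 0, 0, 0, ⟨0, 0⟩, 0⟩, 91812910, 0⟩ 0 0)) (.pos 22 .pp ⟨⟨0, 0, 0, 0, 0, 0, 0, 0, 0, ⟨0, 0⟩, 0⟩, 15566373, 442874⟩ 0 0)) (.pos 22 .pp ⟨⟨0, 0, 0, 0, 0, 0, 0, 0, 0, ⟨0, 0⟩, 0⟩, 0, 605772⟩ 0 0)) (.pos 89 .pp ⟨⟨0, 430470913, 0, 0, 0, 0, 0, 0, 0, ⟨0, 0⟩, 0⟩, 170872649, 0⟩ 0 0)) (.void 96 ⟨⟨0, 0, 0, 50709,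 0, 0, 0, 0, 0, ⟨0, 0⟩, 0⟩, 49291, 0⟩ 0 0)))),
    by decide +kernel⟩

def covers29 : cell.Covers Vale.Agent.P237.Petty.Cor.Grid.N6.table row29.1 :=
  ⟨(.cut .d 0 (.cut .v 16777216 (.cut .v 8388608 (.void 2 ⟨⟨0, 0, 100000, 0, 0, 0, 0, 0, 0, ⟨0, 0⟩, 0⟩, 0, 0⟩ 0 0) (.cut .d (-8388608) (.void 3 ⟨⟨100000, 0, 0, 0, 0, 0, 0, 0, 0, ⟨0, 0⟩, 0⟩, 0, 0⟩ 0 0) (.cut .d (-4194304) (.void 3 ⟨⟨100000, 0, 0, 0, 0, 0, 0, 0, 0, ⟨0, 0⟩, 0⟩, 0, 0⟩ 0 0) (.cut .d (-2097152) (.void 3 ⟨⟨0, 0, 0, 0, 0, 100000, 0, 0, 0, ⟨0, 0⟩, 0⟩, 0, 0⟩ 0 0) (.cut .d (-1048576) (.void 3 ⟨⟨0, 0, 0, 0, 0, 100000, 0, 0, 0, ⟨0, 0⟩, 0⟩, 0, 0⟩ 0 0) (.cut .d (-524288) (.void 3 ⟨⟨0,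 0, 0, 0, 0, 100000, 0, 0, 0, ⟨0, 0⟩, 0⟩, 0, 0⟩ 0 0) (.cut .s 14565376 (.pos 3 .mm ⟨⟨0, 0, 0, 0, 0, 405368214, 0, 0, 0, ⟨0, 0⟩, 0⟩, 0, 0⟩ 0 0) (.pos 3 .mm ⟨⟨0, 0, 0, 0, 0, 440671066, 0, 0, 0, ⟨0, 0⟩, 0⟩, 0, 0⟩ 0 0)))))))) (.cut .v 268435456 (.cut .v 67108864 (.cut .v 33554432 (.cut .v 25165824 (.cut .d (-8388608) (.void 23 ⟨⟨100000, 0, 0, 0, 0, 0, 0, 0, 0, ⟨0, 0⟩, 0⟩, 0, 0⟩ 0 0) (.cut .d (-4194304) (.void 23 ⟨⟨100000, 0, 0, 0, 0, 0, 0, 0, 0, ⟨0, 0⟩, 0⟩, 0, 0⟩ 0 0) (.cut .v 20971520 (.cut .d (-2097152) (.void 25 ⟨⟨100000, 0, 0, 0, 0, 0, 0, 0, 0, ⟨0, 0⟩, 0⟩, 0, 0⟩ 0 0) (.cut .v 18874368 (.cut .d (-1048576) (.void 27 ⟨⟨100000, 0, 0, 0,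 0, 0, 0, 0, 0, ⟨0, 0⟩, 0⟩, 0, 0⟩ 0 0) (.cut .v 17825792 (.cut .d (-524288) (.void 29 ⟨⟨100000, 0, 0, 0, 0, 0, 0, 0, 0, ⟨0, 0⟩, 0⟩, 0, 0⟩ 0 0) (.cut .v 17301504 (.cut .d (-262144) (.void 31 ⟨⟨100000, 0, 0, 0, 0, 0, 0, 0, 0, ⟨0, 0⟩, 0⟩, 0, 0⟩ 0 0) (.cut .d (-131072) (.void 31 ⟨⟨100000, 0, 0, 0, 0, 0, 0, 0, 0, ⟨0, 0⟩, 0⟩, 0, 0⟩ 0 0) (.cut .d (-65536) (.void 31 ⟨⟨100000, 0, 0, 0, 0, 0, 0, 0, 0, ⟨0, 0⟩, 0⟩, 0, 0⟩ 0 0) (.cut .d (-32768) (.void 31 ⟨⟨0, 0, 0, 0, 0, 100000, 0, 0, 0, ⟨0, 0⟩, 0⟩, 0, 0⟩ 0 0) (.cut .v 17039360 (.cut .s 14565376 (.cut .d (-16384) (.cut .l 307582 (.void 33 ⟨⟨0, 0, 0, 0, 0, 100000, 0, 0, 0, ⟨0, 0⟩, 0⟩, 0, 0⟩ 0 0) (.cut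 .v 16908288 (.cut .l 461373 (.cut .s 14524416 (.pos 35 .mp ⟨⟨90496913, 0, 0, 0, 0, 200973671, 0, 0, 0, ⟨0, 0⟩, 0⟩, 0, 0⟩ 0 0) (.pos 35 .mp ⟨⟨94461446, 0, 0, 0, 0, 207796203, 0, 0, 0, ⟨0, 0⟩, 0⟩, 0, 0⟩ 0 0)) (.pos 35 .mp ⟨⟨0, 0, 0, 0, 0, 365091634, 0, 0, 0, ⟨0, 0⟩, 0⟩, 0, 0⟩ 0 0)) (.cut .v 16973824 (.cut .s 14524416 (.cut .s 14503936 (.pos 49 .mp ⟨⟨102273464, 0, 0, 0, 0, 170002032, 0, 0, 0, ⟨0, 0⟩, 0⟩, 0, 0⟩ 0 0) (.cut .s 14514176 (.pos 49 .mp ⟨⟨101167862, 0, 0, 0, 0, 177788645, 0, 0, 0, ⟨0, 0⟩, 0⟩, 0, 0⟩ 0 0) (.pos 49 .mp ⟨⟨102144493, 0, 0, 0, 0, 179434719, 0, 0, 0, ⟨0, 0⟩, 0⟩, 0, 0⟩ 0 0))) (.cut .l 461373 (.pos 49 .mp ⟨⟨108030933,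 0, 0, 0, 0, 181658910, 0, 0, 0, ⟨0, 0⟩, 0⟩, 0, 0⟩ 0 0) (.cut .d (-24576) (.pos 49 .mp ⟨⟨98033505, 0, 0, 0, 0, 203766223, 0, 0, 0, ⟨0, 0⟩, 0⟩, 0, 0⟩ 0 0) (.pos 49 .mp ⟨⟨104422861, 0, 0, 0, 0, 178294137, 0, 0, 0, ⟨0, 0⟩, 0⟩, 0, 0⟩ 0 0)))) (.pos 50 .mp ⟨⟨206536817, 0, 0, 0, 0, 0, 0, 0, 0, ⟨0, 0⟩, 0⟩, 0, 0⟩ 0 0)))) (.cut .v 16908288 (.cut .l 307582 (.cut .s 14524416 (.cut .v 16842752 (.cut .s 14503936 (.cut .d (-8192) (.pos 41 .mp ⟨⟨88947139, 0, 0, 0, 0, 197887656, 0, 0, 0, ⟨0, 0⟩, 0⟩, 0, 0⟩ 0 0) (.cut .s 14493696 (.pos 41 .mp ⟨⟨93664795, 0, 0, 0, 0, 179432118, 0, 0, 0, ⟨0, 0⟩, 0⟩, 0, 0⟩ 0 0) (.pos 41 .mp ⟨⟨94660317, 0, 0, 0, 0, 180769798,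 0, 0, 0, ⟨0, 0⟩, 0⟩, 0, 0⟩ 0 0))) (.cut .d (-8192) (.pos 41 .mp ⟨⟨90855923, 0, 0, 0, 0, 200890007, 0, 0, 0, ⟨0, 0⟩, 0⟩, 0, 0⟩ 0 0) (.cut .s 14514176 (.pos 41 .mp ⟨⟨95669473, 0, 0, 0, 0, 182144940, 0, 0, 0, ⟨0, 0⟩, 0⟩, 0, 0⟩ 0 0) (.pos 41 .mp ⟨⟨96692443, 0, 0, 0, 0, 183557695, 0, 0, 0, ⟨0, 0⟩, 0⟩, 0, 0⟩ 0 0)))) (.cut .s 14503936 (.pos 42 .mp ⟨⟨106804560, 0, 0, 0, 0, 156689072, 0, 0, 0, ⟨0, 0⟩, 0⟩, 0, 0⟩ 0 0) (.pos 42 .mp ⟨⟨108717589, 0, 0, 0, 0, 159787114, 0, 0, 0, ⟨0, 0⟩, 0⟩, 0, 0⟩ 0 0))) (.cut .d (-8192) (.cut .d (-12288) (.pos 35 .mp ⟨⟨95076410, 0, 0, 0, 0, 211682705, 0, 0, 0, ⟨0, 0⟩, 0⟩, 0, 0⟩ 0 0) (.cut .l 153791 (.void 35 ⟨⟨0,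 0, 0, 0, 0, 100000, 0, 0, 0, ⟨0, 0⟩, 0⟩, 0, 0⟩ 0 0) (.cut .s 14544896 (.pos 35 .mp ⟨⟨99123475, 0, 0, 0, 0, 183246819, 0, 0, 0, ⟨0, 0⟩, 0⟩, 0, 0⟩ 0 0) (.pos 35 .mp ⟨⟨101284770, 0, 0, 0, 0, 186192379, 0, 0, 0, ⟨0, 0⟩, 0⟩, 0, 0⟩ 0 0)))) (.cut .l 153791 (.cut .v 16842752 (.cut .s 14544896 (.cut .d (-4096) (.pos 41 .mp ⟨⟨96148777, 0, 0, 0, 0, 194043964, 0, 0, 0, ⟨0, 0⟩, 0⟩, 0, 0⟩ 0 0) (.cut .s 14534656 (.pos 41 .mp ⟨⟨96217724, 0, 0, 0, 0, 188348176, 0, 0, 0, ⟨0, 0⟩, 0⟩, 0, 0⟩ 0 0) (.pos 41 .mp ⟨⟨97288162, 0, 0, 0, 0, 189768014, 0, 0, 0, ⟨0, 0⟩, 0⟩, 0, 0⟩ 0 0))) (.cut .d (-4096) (.pos 41 .mp ⟨⟨98106250, 0, 0, 0, 0, 197663144, 0, 0, 0, ⟨0,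 0⟩, 0⟩, 0, 0⟩ 0 0) (.cut .s 14555136 (.pos 41 .mp ⟨⟨98366155, 0, 0, 0, 0, 191245353, 0, 0, 0, ⟨0, 0⟩, 0⟩, 0, 0⟩ 0 0) (.pos 41 .mp ⟨⟨99451506, 0, 0, 0, 0, 192781450, 0, 0, 0, ⟨0, 0⟩, 0⟩, 0, 0⟩ 0 0)))) (.pos 42 .mp ⟨⟨206085343, 0, 0, 0, 0, 0, 0, 0, 0, ⟨0, 0⟩, 0⟩, 0, 0⟩ 0 0)) (.pos 35 .mp ⟨⟨99543802, 0, 0, 0, 0, 178585434, 0, 0, 0, ⟨0, 0⟩, 0⟩, 0, 0⟩ 0 0)))) (.cut .s 14524416 (.pos 35 .mp ⟨⟨95858982, 0, 0, 0, 0, 172597882, 0, 0, 0, ⟨0, 0⟩, 0⟩, 0, 0⟩ 0 0) (.pos 35 .mp ⟨⟨99979039, 0, 0, 0, 0, 178473441, 0, 0, 0, ⟨0, 0⟩, 0⟩, 0, 0⟩ 0 0))) (.pos 36 .mp ⟨⟨176287779, 0, 0, 0, 0, 0, 0, 0, 0, ⟨0, 0⟩, 0⟩, 0, 0⟩ 0 0))) (.cut .d (-16384) (.cut .l 307582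 (.void 33 ⟨⟨0, 0, 0, 0, 0, 100000, 0, 0, 0, ⟨0, 0⟩, 0⟩, 0, 0⟩ 0 0) (.cut .v 16908288 (.cut .l 461373 (.cut .s 14606336 (.pos 35 .mp ⟨⟨98644020, 0, 0, 0, 0, 215113964, 0, 0, 0, ⟨0, 0⟩, 0⟩, 0, 0⟩ 0 0) (.pos 35 .mp ⟨⟨103056694, 0, 0, 0, 0, 222912897, 0, 0, 0, ⟨0, 0⟩, 0⟩, 0, 0⟩ 0 0)) (.pos 35 .mp ⟨⟨0, 0, 0, 0, 0, 394755333, 0, 0, 0, ⟨0, 0⟩, 0⟩, 0, 0⟩ 0 0)) (.cut .v 16973824 (.cut .s 14606336 (.cut .l 461373 (.pos 49 .mp ⟨⟨113063392, 0, 0, 0, 0, 187251562, 0, 0, 0, ⟨0, 0⟩, 0⟩, 0, 0⟩ 0 0) (.cut .d (-24576) (.pos 49 .mp ⟨⟨102393205, 0, 0, 0, 0, 210684032, 0, 0, 0, ⟨0, 0⟩, 0⟩, 0, 0⟩ 0 0) (.pos 49 .mp ⟨⟨109104783, 0, 0, 0, 0, 183844967, 0, 0,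 0, ⟨0, 0⟩, 0⟩, 0, 0⟩ 0 0))) (.cut .d (-24576) (.pos 49 .mp ⟨⟨106992564, 0, 0, 0, 0, 219662611, 0, 0, 0, ⟨0, 0⟩, 0⟩, 0, 0⟩ 0 0) (.cut .s 14626816 (.pos 49 .mp ⟨⟨113713767, 0, 0, 0, 0, 190604284, 0, 0, 0, ⟨0, 0⟩, 0⟩, 0, 0⟩ 0 0) (.pos 49 .mp ⟨⟨116263365, 0, 0, 0, 0, 193993771, 0, 0, 0, ⟨0, 0⟩, 0⟩, 0, 0⟩ 0 0)))) (.pos 50 .mp ⟨⟨221638591, 0, 0, 0, 0, 0, 0, 0, 0, ⟨0, 0⟩, 0⟩, 0, 0⟩ 0 0)))) (.cut .v 16908288 (.cut .l 307582 (.cut .s 14606336 (.cut .d (-8192) (.cut .d (-12288) (.pos 35 .mp ⟨⟨99265242, 0, 0, 0, 0, 219293896, 0, 0, 0, ⟨0, 0⟩, 0⟩, 0, 0⟩ 0 0) (.cut .l 153791 (.void 35 ⟨⟨0, 0, 0, 0, 0, 100000, 0, 0, 0, ⟨0, 0⟩, 0⟩, 0, 0⟩ 0 0) (.cut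 .s 14585856 (.pos 35 .mp ⟨⟨103505353, 0, 0, 0, 0, 189286988, 0, 0, 0, ⟨0, 0⟩, 0⟩, 0, 0⟩ 0 0) (.pos 35 .mp ⟨⟨100334722, 0, 0, 0, 0, 211710471, 0, 0, 0, ⟨0, 0⟩, 0⟩, 0, 0⟩ 0 0)))) (.cut .l 153791 (.cut .v 16842752 (.cut .s 14585856 (.cut .d (-4096) (.pos 41 .mp ⟨⟨100185754, 0, 0, 0, 0, 201253365, 0, 0, 0, ⟨0, 0⟩, 0⟩, 0, 0⟩ 0 0) (.cut .s 14575616 (.pos 41 .mp ⟨⟨100544010, 0, 0, 0, 0, 194377592, 0, 0, 0, ⟨0, 0⟩, 0⟩, 0, 0⟩ 0 0) (.pos 41 .mp ⟨⟨101643456, 0, 0, 0, 0, 196035098, 0, 0, 0, ⟨0, 0⟩, 0⟩, 0, 0⟩ 0 0))) (.cut .d (-4096) (.pos 41 .mp ⟨⟨99648525, 0, 0, 0, 0, 214493107, 0, 0, 0, ⟨0, 0⟩, 0⟩, 0, 0⟩ 0 0) (.cut .s 14596096 (.pos 41 .mp ⟨⟨102749621,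 0, 0, 0, 0, 197755318, 0, 0, 0, ⟨0, 0⟩, 0⟩, 0, 0⟩ 0 0) (.pos 41 .mp ⟨⟨103862275, 0, 0, 0, 0, 199539638, 0, 0, 0, ⟨0, 0⟩, 0⟩, 0, 0⟩ 0 0)))) (.pos 42 .mp ⟨⟨213739359, 0, 0, 0, 0, 0, 0, 0, 0, ⟨0, 0⟩, 0⟩, 0, 0⟩ 0 0)) (.pos 35 .mp ⟨⟨103888524, 0, 0, 0, 0, 184771704, 0, 0, 0, ⟨0, 0⟩, 0⟩, 0, 0⟩ 0 0))) (.cut .d (-8192) (.cut .d (-12288) (.pos 35 .mp ⟨⟨103685365, 0, 0, 0, 0, 227778159, 0, 0, 0, ⟨0, 0⟩, 0⟩, 0, 0⟩ 0 0) (.cut .l 153791 (.void 35 ⟨⟨0, 0, 0, 0, 0, 100000, 0, 0, 0, ⟨0, 0⟩, 0⟩, 0, 0⟩ 0 0) (.cut .s 14626816 (.pos 35 .mp ⟨⟨102575851, 0, 0, 0, 0, 215448605, 0, 0, 0, ⟨0, 0⟩, 0⟩, 0, 0⟩ 0 0) (.pos 35 .mp ⟨⟨104928036, 0, 0, 0, 0, 219173679,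 0, 0, 0, ⟨0, 0⟩, 0⟩, 0, 0⟩ 0 0)))) (.cut .l 153791 (.cut .v 16842752 (.cut .s 14626816 (.cut .d (-4096) (.pos 41 .mp ⟨⟨101834664, 0, 0, 0, 0, 218552995, 0, 0, 0, ⟨0, 0⟩, 0⟩, 0, 0⟩ 0 0) (.cut .s 14616576 (.pos 41 .mp ⟨⟨104981176, 0, 0, 0, 0, 201389476, 0, 0, 0, ⟨0, 0⟩, 0⟩, 0, 0⟩ 0 0) (.pos 41 .mp ⟨⟨106106075, 0, 0, 0, 0, 203306289, 0, 0, 0, ⟨0, 0⟩, 0⟩, 0, 0⟩ 0 0))) (.cut .d (-4096) (.pos 41 .mp ⟨⟨104080427, 0, 0, 0, 0, 222838734, 0, 0, 0, ⟨0, 0⟩, 0⟩, 0, 0⟩ 0 0) (.cut .s 14637056 (.pos 41 .mp ⟨⟨107236711, 0, 0, 0, 0, 205291568, 0, 0, 0, ⟨0, 0⟩, 0⟩, 0, 0⟩ 0 0) (.pos 41 .mp ⟨⟨108372814, 0, 0, 0, 0, 207346842, 0, 0, 0, ⟨0, 0⟩, 0⟩, 0, 0⟩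 0 0)))) (.pos 42 .mp ⟨⟨221784864, 0, 0, 0, 0, 0, 0, 0, 0, ⟨0, 0⟩, 0⟩, 0, 0⟩ 0 0)) (.pos 35 .mp ⟨⟨108465638, 0, 0, 0, 0, 191277290, 0, 0, 0, ⟨0, 0⟩, 0⟩, 0, 0⟩ 0 0)))) (.cut .s 14606336 (.pos 35 .mp ⟨⟨104310296, 0, 0, 0, 0, 184717180, 0, 0, 0, ⟨0, 0⟩, 0⟩, 0, 0⟩ 0 0) (.pos 35 .mp ⟨⟨108864691, 0, 0, 0, 0, 191298713, 0, 0, 0, ⟨0, 0⟩, 0⟩, 0, 0⟩ 0 0))) (.pos 36 .mp ⟨⟨190206510, 0, 0, 0, 0, 0, 0, 0, 0, ⟨0, 0⟩, 0⟩, 0, 0⟩ 0 0)))) (.pos 34 .mp ⟨⟨210788016, 0, 0, 0, 0, 0, 0, 0, 0, ⟨0, 0⟩, 0⟩, 0, 0⟩ 0 0)))))) (.pos 32 .mp ⟨⟨273707645, 0, 0, 0, 0, 0, 0, 0, 0, ⟨0, 0⟩, 0⟩, 0, 0⟩ 0 0))) (.void 30 ⟨⟨100000, 0, 0, 0, 0, 0, 0, 0, 0, ⟨0, 0⟩, 0⟩, 0, 0⟩ 0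 0))) (.void 28 ⟨⟨100000, 0, 0, 0, 0, 0, 0, 0, 0, ⟨0, 0⟩, 0⟩, 0, 0⟩ 0 0))) (.void 26 ⟨⟨100000, 0, 0, 0, 0, 0, 0, 0, 0, ⟨0, 0⟩, 0⟩, 0, 0⟩ 0 0)))) (.void 24 ⟨⟨100000, 0, 0, 0, 0, 0, 0, 0, 0, ⟨0, 0⟩, 0⟩, 0, 0⟩ 0 0)) (.void 89 ⟨⟨100000, 0, 0, 0, 0, 0, 0, 0, 0, ⟨0, 0⟩, 0⟩, 0, 0⟩ 0 0)) (.void 96 ⟨⟨100000, 0, 0, 0, 0, 0, 0, 0, 0, ⟨0, 0⟩, 0⟩, 0, 0⟩ 0 0)) (.void 111 ⟨⟨88911, 0, 0, 11089, 0, 0, 0, 0, 0, ⟨0, 0⟩, 0⟩, 0, 0⟩ 0 0))) (.cut .v 16777216 (.cut .v 8388608 (.cut .v 4194304 (.cut .d 1328514 (.void 4 ⟨⟨0, 0, 100000, 0, 0, 0, 0, 0, 0, ⟨0, 0⟩, 0⟩, 0, 0⟩ 0 0) (.cut .v 2097152 (.cut .v 1048576 (.void 107 ⟨⟨0, 0, 19122, 0, 0, 0, 0, 0, 80878, ⟨0,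 0⟩, 1983364⟩, 0, 0⟩ 0 0) (.pos 108 .pm ⟨⟨0, 3081182, 0, 0, 0, 0, 0, 0, 0, ⟨0, 0⟩, 0⟩, 0, 113903⟩ 0 0)) (.pos 98 .pm ⟨⟨0, 10793173, 0, 0, 0, 0, 0, 0, 0, ⟨0, 0⟩, 0⟩, 0, 176747⟩ 0 0))) (.pos 5 .pm ⟨⟨0, 0, 1599939, 0, 0, 0, 0, 0, 0, ⟨0, 0⟩, 0⟩, 0, 211200⟩ 0 0)) (.pos 3 .pm ⟨⟨0, 0, 0, 0, 0, 0, 0, 0, 0, ⟨0, 0⟩, 0⟩, 0, 0⟩ 0 0)) (.cut .v 268435456 (.cut .v 67108864 (.cut .d 1328514 (.cut .v 33554432 (.cut .d 664257 (.cut .v 25165824 (.cut .v 20971520 (.cut .v 18874368 (.pos 27 .pp ⟨⟨118367098, 0, 0, 0, 0, 0, 0, 0, 0, ⟨0, 0⟩, 0⟩, 11136901, 0⟩ 0 0) (.pos 28 .pp ⟨⟨214222619, 0, 0, 0, 0, 0, 0, 0, 0, ⟨0, 0⟩, 0⟩, 0, 0⟩ 0 0)) (.pos 26 .pp ⟨⟨294136492,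 0, 0, 0, 0, 0, 0, 0, 0, ⟨0, 0⟩, 0⟩, 0, 0⟩ 0 0)) (.pos 24 .pp ⟨⟨0, 0, 0, 0, 0, 0, 0, 0, 0, ⟨0, 0⟩, 0⟩, 105362674, 0⟩ 0 0)) (.pos 22 .pp ⟨⟨0, 0, 0, 0, 0, 0, 0, 0, 0, ⟨0, 0⟩, 0⟩, 20729621, 386973⟩ 0 0)) (.pos 89 .pp ⟨⟨0, 375925012, 0, 0, 0, 0, 0, 0, 0, ⟨0, 0⟩, 0⟩, 207129534, 0⟩ 0 0)) (.pos 88 .pp ⟨⟨0, 0, 0, 0, 0, 0, 0, 0, 0, ⟨0, 0⟩, 0⟩, 0, 560400⟩ 0 0)) (.void 96 ⟨⟨0, 0, 0, 50900, 0, 0, 0, 0, 0, ⟨0, 0⟩, 0⟩, 49100, 0⟩ 0 0)) (.void 111 ⟨⟨0, 0, 0, 0, 0, 0, 0, 0, 0, ⟨0, 0⟩, 0⟩, 100000, 0⟩ 0 0)))),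
    by decide +kernel⟩

def covers30 : cell.Covers Vale.Agent.P237.Petty.Cor.Grid.N6.table row30.1 :=
  ⟨(.cut .d 0 (.cut .v 16777216 (.cut .v 8388608 (.void 2 ⟨⟨0, 0, 100000, 0, 0, 0, 0, 0, 0, ⟨0, 0⟩, 0⟩, 0, 0⟩ 0 0) (.cut .d (-8388608) (.void 3 ⟨⟨100000, 0, 0, 0, 0, 0, 0, 0, 0, ⟨0, 0⟩, 0⟩, 0, 0⟩ 0 0) (.cut .d (-4194304) (.void 3 ⟨⟨100000, 0, 0, 0, 0, 0, 0, 0, 0, ⟨0, 0⟩, 0⟩, 0, 0⟩ 0 0) (.cut .d (-2097152) (.void 3 ⟨⟨59448, 0, 40552, 0, 0, 0, 0, 0, 0, ⟨0, 0⟩, 0⟩, 0, 0⟩ 0 0) (.cut .d (-1048576) (.void 3 ⟨⟨0, 0, 0, 0, 0, 100000, 0, 0, 0, ⟨0, 0⟩, 0⟩, 0, 0⟩ 0 0) (.cut .d (-524288) (.void 3 ⟨⟨0, 0, 0, 0, 0, 100000, 0, 0, 0, ⟨0, 0⟩, 0⟩, 0,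 0⟩ 0 0) (.cut .s 14729216 (.pos 3 .mm ⟨⟨0, 0, 0, 0, 0, 480215651, 0, 0, 0, ⟨0, 0⟩, 0⟩, 0, 0⟩ 0 0) (.pos 3 .mm ⟨⟨0, 0, 0, 0, 0, 524413131, 0, 0, 0, ⟨0, 0⟩, 0⟩, 0, 0⟩ 0 0)))))))) (.cut .v 268435456 (.cut .v 67108864 (.cut .v 33554432 (.cut .v 25165824 (.cut .d (-8388608) (.void 23 ⟨⟨100000, 0, 0, 0, 0, 0, 0, 0, 0, ⟨0, 0⟩, 0⟩, 0, 0⟩ 0 0) (.cut .d (-4194304) (.void 23 ⟨⟨100000, 0, 0, 0, 0, 0, 0, 0, 0, ⟨0, 0⟩, 0⟩, 0, 0⟩ 0 0) (.cut .v 20971520 (.cut .d (-2097152) (.void 25 ⟨⟨100000, 0, 0, 0, 0, 0, 0, 0, 0, ⟨0, 0⟩, 0⟩, 0, 0⟩ 0 0) (.cut .v 18874368 (.cut .d (-1048576) (.void 27 ⟨⟨100000, 0, 0, 0, 0, 0, 0, 0, 0, ⟨0, 0⟩, 0⟩, 0, 0⟩ 0 0) (.cut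 .v 17825792 (.cut .d (-524288) (.void 29 ⟨⟨100000, 0, 0, 0, 0, 0, 0, 0, 0, ⟨0, 0⟩, 0⟩, 0, 0⟩ 0 0) (.cut .v 17301504 (.cut .d (-262144) (.void 31 ⟨⟨100000, 0, 0, 0, 0, 0, 0, 0, 0, ⟨0, 0⟩, 0⟩, 0, 0⟩ 0 0) (.cut .d (-131072) (.void 31 ⟨⟨100000, 0, 0, 0, 0, 0, 0, 0, 0, ⟨0, 0⟩, 0⟩, 0, 0⟩ 0 0) (.cut .d (-65536) (.void 31 ⟨⟨100000, 0, 0, 0, 0, 0, 0, 0, 0, ⟨0, 0⟩, 0⟩, 0, 0⟩ 0 0) (.cut .d (-32768) (.void 31 ⟨⟨0, 0, 0, 0, 0, 100000, 0, 0, 0, ⟨0, 0⟩, 0⟩, 0, 0⟩ 0 0) (.cut .v 17039360 (.cut .s 14729216 (.cut .d (-16384) (.cut .l 307582 (.void 33 ⟨⟨0, 0, 0, 0, 0, 100000, 0, 0, 0, ⟨0, 0⟩, 0⟩, 0, 0⟩ 0 0) (.cut .s 14688256 (.cut .v 16908288 (.cut .s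 14667776 (.pos 35 .mp ⟨⟨103435288, 0, 0, 0, 0, 232557857, 0, 0, 0, ⟨0, 0⟩, 0⟩, 0, 0⟩ 0 0) (.pos 35 .mp ⟨⟨104918120, 0, 0, 0, 0, 238341200, 0, 0, 0, ⟨0, 0⟩, 0⟩, 0, 0⟩ 0 0)) (.cut .d (-24576) (.pos 36 .mp ⟨⟨114324921, 0, 0, 0, 0, 228322120, 0, 0, 0, ⟨0, 0⟩, 0⟩, 0, 0⟩ 0 0) (.cut .s 14667776 (.pos 36 .mp ⟨⟨120022491, 0, 0, 0, 0, 195702143, 0, 0, 0, ⟨0, 0⟩, 0⟩, 0, 0⟩ 0 0) (.pos 36 .mp ⟨⟨122752604, 0, 0, 0, 0, 198716464, 0, 0, 0, ⟨0, 0⟩, 0⟩, 0, 0⟩ 0 0)))) (.cut .v 16908288 (.cut .s 14708736 (.pos 35 .mp ⟨⟨106636929, 0, 0, 0, 0, 243966551, 0, 0, 0, ⟨0, 0⟩, 0⟩, 0, 0⟩ 0 0) (.pos 35 .mp ⟨⟨108610986, 0, 0, 0, 0, 249397304, 0, 0, 0, ⟨0, 0⟩, 0⟩,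 0, 0⟩ 0 0)) (.cut .d (-24576) (.pos 36 .mp ⟨⟨119162645, 0, 0, 0, 0, 237560745, 0, 0, 0, ⟨0, 0⟩, 0⟩, 0, 0⟩ 0 0) (.cut .s 14708736 (.pos 36 .mp ⟨⟨125562960, 0, 0, 0, 0, 201914898, 0, 0, 0, ⟨0, 0⟩, 0⟩, 0, 0⟩ 0 0) (.pos 36 .mp ⟨⟨128455915, 0, 0, 0, 0, 205298453, 0, 0, 0, ⟨0, 0⟩, 0⟩, 0, 0⟩ 0 0)))))) (.cut .l 307582 (.cut .v 16908288 (.cut .s 14688256 (.cut .d (-8192) (.cut .d (-12288) (.pos 35 .mp ⟨⟨108882994, 0, 0, 0, 0, 235413635, 0, 0, 0, ⟨0, 0⟩, 0⟩, 0, 0⟩ 0 0) (.cut .l 153791 (.void 35 ⟨⟨0, 0, 0, 0, 0, 100000, 0, 0, 0, ⟨0, 0⟩, 0⟩, 0, 0⟩ 0 0) (.cut .s 14667776 (.pos 35 .mp ⟨⟨107764498, 0, 0, 0, 0, 222268278, 0, 0, 0, ⟨0, 0⟩, 0⟩, 0, 0⟩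 0 0) (.pos 35 .mp ⟨⟨109975472, 0, 0, 0, 0, 226691018, 0, 0, 0, ⟨0, 0⟩, 0⟩, 0, 0⟩ 0 0)))) (.cut .l 153791 (.cut .v 16842752 (.cut .s 14667776 (.cut .s 14657536 (.pos 41 .mp ⟨⟨111337974, 0, 0, 0, 0, 205411633, 0, 0, 0, ⟨0, 0⟩, 0⟩, 0, 0⟩ 0 0) (.cut .s 14662656 (.pos 41 .mp ⟨⟨111729022, 0, 0, 0, 0, 207868846, 0, 0, 0, ⟨0, 0⟩, 0⟩, 0, 0⟩ 0 0) (.pos 41 .mp ⟨⟨112418522, 0, 0, 0, 0, 208551092, 0, 0, 0, ⟨0, 0⟩, 0⟩, 0, 0⟩ 0 0))) (.cut .d (-4096) (.pos 41 .mp ⟨⟨108763735, 0, 0, 0, 0, 231092332, 0, 0, 0, ⟨0, 0⟩, 0⟩, 0, 0⟩ 0 0) (.cut .s 14678016 (.pos 41 .mp ⟨⟨112122890, 0, 0, 0, 0, 212424664, 0, 0, 0, ⟨0, 0⟩, 0⟩, 0, 0⟩ 0 0) (.pos 41 .mp ⟨⟨113439351,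 0, 0, 0, 0, 214015738, 0, 0, 0, ⟨0, 0⟩, 0⟩, 0, 0⟩ 0 0)))) (.pos 42 .mp ⟨⟨231250281, 0, 0, 0, 0, 0, 0, 0, 0, ⟨0, 0⟩, 0⟩, 0, 0⟩ 0 0)) (.pos 35 .mp ⟨⟨113942770, 0, 0, 0, 0, 197640671, 0, 0, 0, ⟨0, 0⟩, 0⟩, 0, 0⟩ 0 0))) (.cut .d (-8192) (.cut .d (-12288) (.pos 35 .mp ⟨⟨113641331, 0, 0, 0, 0, 244578003, 0, 0, 0, ⟨0, 0⟩, 0⟩, 0, 0⟩ 0 0) (.cut .l 153791 (.void 35 ⟨⟨0, 0, 0, 0, 0, 100000, 0, 0, 0, ⟨0, 0⟩, 0⟩, 0, 0⟩ 0 0) (.cut .s 14708736 (.pos 35 .mp ⟨⟨112301077, 0, 0, 0, 0, 231162001, 0, 0, 0, ⟨0, 0⟩, 0⟩, 0, 0⟩ 0 0) (.pos 35 .mp ⟨⟨114747762, 0, 0, 0, 0, 235667986, 0, 0, 0, ⟨0, 0⟩, 0⟩, 0, 0⟩ 0 0)))) (.cut .v 16842752 (.cut .l 153791 (.cut .s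 14708736 (.cut .d (-4096) (.pos 41 .mp ⟨⟨111208386, 0, 0, 0, 0, 235079392, 0, 0, 0, ⟨0, 0⟩, 0⟩, 0, 0⟩ 0 0) (.cut .s 14698496 (.pos 41 .mp ⟨⟨114752568, 0, 0, 0, 0, 215718298, 0, 0, 0, ⟨0, 0⟩, 0⟩, 0, 0⟩ 0 0) (.pos 41 .mp ⟨⟨116042753, 0, 0, 0, 0, 217589877, 0, 0, 0, ⟨0, 0⟩, 0⟩, 0, 0⟩ 0 0))) (.cut .d (-4096) (.pos 41 .mp ⟨⟨113724100, 0, 0, 0, 0, 239333583, 0, 0, 0, ⟨0, 0⟩, 0⟩, 0, 0⟩ 0 0) (.cut .s 14718976 (.pos 41 .mp ⟨⟨117351701, 0, 0, 0, 0, 219511734, 0, 0, 0, ⟨0, 0⟩, 0⟩, 0, 0⟩ 0 0) (.pos 41 .mp ⟨⟨118679687, 0, 0, 0, 0, 221484054, 0, 0, 0, ⟨0, 0⟩, 0⟩, 0, 0⟩ 0 0)))) (.pos 41 .mp ⟨⟨118025582, 0, 0, 0, 0, 206506906, 0, 0, 0, ⟨0, 0⟩, 0⟩,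 0, 0⟩ 0 0)) (.pos 42 .mp ⟨⟨207787664, 0, 0, 0, 0, 0, 0, 0, 0, ⟨0, 0⟩, 0⟩, 0, 0⟩ 0 0)))) (.pos 36 .mp ⟨⟨236407901, 0, 0, 0, 0, 0, 0, 0, 0, ⟨0, 0⟩, 0⟩, 0, 0⟩ 0 0)) (.cut .v 16908288 (.cut .v 16842752 (.pos 41 .mp ⟨⟨0, 0, 0, 0, 0, 406303640, 0, 0, 0, ⟨0, 0⟩, 0⟩, 0, 0⟩ 0 0) (.cut .s 14688256 (.pos 42 .mp ⟨⟨116040362, 0, 0, 0, 0, 197957744, 0, 0, 0, ⟨0, 0⟩, 0⟩, 0, 0⟩ 0 0) (.cut .s 14708736 (.pos 42 .mp ⟨⟨118689683, 0, 0, 0, 0, 209150562, 0, 0, 0, ⟨0, 0⟩, 0⟩, 0, 0⟩ 0 0) (.pos 42 .mp ⟨⟨121416361, 0, 0, 0, 0, 212721263, 0, 0, 0, ⟨0, 0⟩, 0⟩, 0, 0⟩ 0 0)))) (.pos 36 .mp ⟨⟨201960145, 0, 0, 0, 0, 0, 0, 0, 0, ⟨0, 0⟩, 0⟩, 0, 0⟩ 0 0)))) (.cut .d (-16384)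 (.cut .l 307582 (.void 33 ⟨⟨0, 0, 0, 0, 0, 100000, 0, 0, 0, ⟨0, 0⟩, 0⟩, 0, 0⟩ 0 0) (.cut .s 14770176 (.cut .v 16908288 (.cut .s 14749696 (.pos 35 .mp ⟨⟨110860254, 0, 0, 0, 0, 254595453, 0, 0, 0, ⟨0, 0⟩, 0⟩, 0, 0⟩ 0 0) (.pos 35 .mp ⟨⟨113405423, 0, 0, 0, 0, 259521528, 0, 0, 0, ⟨0, 0⟩, 0⟩, 0, 0⟩ 0 0)) (.cut .d (-24576) (.pos 36 .mp ⟨⟨124249860, 0, 0, 0, 0, 247366488, 0, 0, 0, ⟨0, 0⟩, 0⟩, 0, 0⟩ 0 0) (.cut .s 14749696 (.pos 36 .mp ⟨⟨131433921, 0, 0, 0, 0, 208868065, 0, 0, 0, ⟨0, 0⟩, 0⟩, 0, 0⟩ 0 0) (.pos 36 .mp ⟨⟨134499528, 0, 0, 0, 0, 212624598, 0, 0, 0, ⟨0, 0⟩, 0⟩, 0, 0⟩ 0 0)))) (.cut .d (-24576) (.pos 33 .mp ⟨⟨127045440, 0, 0, 0, 0, 264361121,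 0, 0, 0, ⟨0, 0⟩, 0⟩, 0, 0⟩ 0 0) (.cut .v 16908288 (.pos 35 .mp ⟨⟨108318106, 0, 0, 0, 0, 287110500, 0, 0, 0, ⟨0, 0⟩, 0⟩, 0, 0⟩ 0 0) (.cut .s 14790656 (.pos 36 .mp ⟨⟨137655394, 0, 0, 0, 0, 216568831, 0, 0, 0, ⟨0, 0⟩, 0⟩, 0, 0⟩ 0 0) (.pos 36 .mp ⟨⟨140904285, 0, 0, 0, 0, 220701457, 0, 0, 0, ⟨0, 0⟩, 0⟩, 0, 0⟩ 0 0)))))) (.cut .l 307582 (.cut .v 16908288 (.cut .s 14770176 (.cut .d (-8192) (.cut .d (-12288) (.pos 35 .mp ⟨⟨118648121, 0, 0, 0, 0, 254996837, 0, 0, 0, ⟨0, 0⟩, 0⟩, 0, 0⟩ 0 0) (.cut .l 153791 (.void 35 ⟨⟨0, 0, 0, 0, 0, 100000, 0, 0, 0, ⟨0, 0⟩, 0⟩, 0, 0⟩ 0 0) (.cut .s 14749696 (.pos 35 .mp ⟨⟨117322209, 0, 0, 0, 0, 240195269, 0, 0,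 0, ⟨0, 0⟩, 0⟩, 0, 0⟩ 0 0) (.pos 35 .mp ⟨⟨120031342, 0, 0, 0, 0, 244729658, 0, 0, 0, ⟨0, 0⟩, 0⟩, 0, 0⟩ 0 0)))) (.cut .v 16842752 (.cut .l 153791 (.cut .s 14749696 (.cut .d (-4096) (.pos 41 .mp ⟨⟨116312965, 0, 0, 0, 0, 243863142, 0, 0, 0, ⟨0, 0⟩, 0⟩, 0, 0⟩ 0 0) (.cut .s 14739456 (.pos 41 .mp ⟨⟨120026992, 0, 0, 0, 0, 223507020, 0, 0, 0, ⟨0, 0⟩, 0⟩, 0, 0⟩ 0 0) (.pos 41 .mp ⟨⟨121393904, 0, 0, 0, 0, 225580808, 0, 0, 0, ⟨0, 0⟩, 0⟩, 0, 0⟩ 0 0))) (.cut .d (-4096) (.pos 41 .mp ⟨⟨118977151, 0, 0, 0, 0, 248676638, 0, 0, 0, ⟨0, 0⟩, 0⟩, 0, 0⟩ 0 0) (.cut .s 14759936 (.pos 41 .mp ⟨⟨122780714, 0, 0, 0, 0, 227705596, 0, 0, 0, ⟨0, 0⟩, 0⟩, 0, 0⟩ 0 0) (.pos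 41 .mp ⟨⟨124187721, 0, 0, 0, 0, 229881553, 0, 0, 0, ⟨0, 0⟩, 0⟩, 0, 0⟩ 0 0)))) (.pos 41 .mp ⟨⟨123528792, 0, 0, 0, 0, 213828900, 0, 0, 0, ⟨0, 0⟩, 0⟩, 0, 0⟩ 0 0)) (.pos 42 .mp ⟨⟨216397585, 0, 0, 0, 0, 0, 0, 0, 0, ⟨0, 0⟩, 0⟩, 0, 0⟩ 0 0))) (.cut .d (-8192) (.cut .s 14790656 (.cut .s 14780416 (.pos 35 .mp ⟨⟨122269467, 0, 0, 0, 0, 250474653, 0, 0, 0, ⟨0, 0⟩, 0⟩, 0, 0⟩ 0 0) (.pos 35 .mp ⟨⟨123681466, 0, 0, 0, 0, 253060997, 0, 0, 0, ⟨0, 0⟩, 0⟩, 0, 0⟩ 0 0)) (.pos 35 .mp ⟨⟨125113846, 0, 0, 0, 0, 260483365, 0, 0, 0, ⟨0, 0⟩, 0⟩, 0, 0⟩ 0 0)) (.cut .v 16842752 (.cut .l 153791 (.cut .s 14790656 (.cut .d (-4096) (.pos 41 .mp ⟨⟨121718921, 0, 0, 0, 0,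 253782988, 0, 0, 0, ⟨0, 0⟩, 0⟩, 0, 0⟩ 0 0) (.cut .s 14780416 (.pos 41 .mp ⟨⟨125615231, 0, 0, 0, 0, 232108847, 0, 0, 0, ⟨0, 0⟩, 0⟩, 0, 0⟩ 0 0) (.pos 41 .mp ⟨⟨127063555, 0, 0, 0, 0, 234387641, 0, 0, 0, ⟨0, 0⟩, 0⟩, 0, 0⟩ 0 0))) (.cut .d (-4096) (.pos 41 .mp ⟨⟨124540627, 0, 0, 0, 0, 259191479, 0, 0, 0, ⟨0, 0⟩, 0⟩, 0, 0⟩ 0 0) (.cut .s 14800896 (.pos 41 .mp ⟨⟨128509227, 0, 0, 0, 0, 236785962, 0, 0, 0, ⟨0, 0⟩, 0⟩, 0, 0⟩ 0 0) (.pos 41 .mp ⟨⟨129923349, 0, 0, 0, 0, 239387254, 0, 0, 0, ⟨0, 0⟩, 0⟩, 0, 0⟩ 0 0)))) (.pos 41 .mp ⟨⟨129358853, 0, 0, 0, 0, 221516690, 0, 0, 0, ⟨0, 0⟩, 0⟩, 0, 0⟩ 0 0)) (.pos 42 .mp ⟨⟨225756095, 0, 0, 0, 0, 0, 0, 0, 0, ⟨0,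 0⟩, 0⟩, 0, 0⟩ 0 0)))) (.pos 36 .mp ⟨⟨255083255, 0, 0, 0, 0, 0, 0, 0, 0, ⟨0, 0⟩, 0⟩, 0, 0⟩ 0 0)) (.cut .v 16908288 (.cut .d (-8192) (.cut .d (-12288) (.cut .s 14770176 (.cut .s 14749696 (.pos 35 .mp ⟨⟨113843957, 0, 0, 0, 0, 245004952, 0, 0, 0, ⟨0, 0⟩, 0⟩, 0, 0⟩ 0 0) (.pos 35 .mp ⟨⟨116478616, 0, 0, 0, 0, 249621642, 0, 0, 0, ⟨0, 0⟩, 0⟩, 0, 0⟩ 0 0)) (.pos 35 .mp ⟨⟨119188923, 0, 0, 0, 0, 256981872, 0, 0, 0, ⟨0, 0⟩, 0⟩, 0, 0⟩ 0 0)) (.pos 35 .mp ⟨⟨129407752, 0, 0, 0, 0, 0, 0, 0, 0, ⟨0, 0⟩, 0⟩, 0, 0⟩ 0 0)) (.pos 35 .mp ⟨⟨0, 0, 0, 0, 0, 0, 0, 0, 0, ⟨0, 0⟩, 0⟩, 0, 0⟩ 0 0)) (.pos 36 .mp ⟨⟨218267204, 0, 0, 0, 0, 0, 0, 0, 0, ⟨0, 0⟩, 0⟩, 0, 0⟩ 0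 0))))) (.pos 34 .mp ⟨⟨247334560, 0, 0, 0, 0, 0, 0, 0, 0, ⟨0, 0⟩, 0⟩, 0, 0⟩ 0 0)))))) (.pos 32 .mp ⟨⟨322242606, 0, 0, 0, 0, 0, 0, 0, 0, ⟨0, 0⟩, 0⟩, 0, 0⟩ 0 0))) (.void 30 ⟨⟨100000, 0, 0, 0, 0, 0, 0, 0, 0, ⟨0, 0⟩, 0⟩, 0, 0⟩ 0 0))) (.void 28 ⟨⟨100000, 0, 0, 0, 0, 0, 0, 0, 0, ⟨0, 0⟩, 0⟩, 0, 0⟩ 0 0))) (.void 26 ⟨⟨100000, 0, 0, 0, 0, 0, 0, 0, 0, ⟨0, 0⟩, 0⟩, 0, 0⟩ 0 0)))) (.void 24 ⟨⟨100000, 0, 0, 0, 0, 0, 0, 0, 0, ⟨0, 0⟩, 0⟩, 0, 0⟩ 0 0)) (.void 89 ⟨⟨100000, 0, 0, 0, 0, 0, 0, 0, 0, ⟨0, 0⟩, 0⟩, 0, 0⟩ 0 0)) (.void 96 ⟨⟨100000, 0, 0, 0, 0, 0, 0, 0, 0, ⟨0, 0⟩, 0⟩, 0, 0⟩ 0 0)) (.void 111 ⟨⟨88801, 0, 0, 11199, 0, 0, 0, 0, 0, ⟨0, 0⟩, 0⟩, 0, 0⟩ 0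 0))) (.cut .v 16777216 (.cut .v 8388608 (.cut .v 4194304 (.cut .v 2097152 (.cut .v 1048576 (.pos 107 .pm ⟨⟨0, 0, 19821055, 0, 0, 0, 0, 0, 9582956, ⟨0, 0⟩, 1983364⟩, 0, 2878⟩ 0 0) (.pos 108 .pm ⟨⟨0, 0, 9619826, 0, 0, 0, 0, 0, 0, ⟨0, 0⟩, 0⟩, 0, 103037⟩ 0 0)) (.pos 98 .pm ⟨⟨0, 0, 6613159, 0, 0, 0, 0, 0, 0, ⟨0, 0⟩, 0⟩, 0, 132477⟩ 0 0)) (.pos 5 .pm ⟨⟨0, 0, 5932352, 0, 0, 0, 0, 0, 0, ⟨0, 0⟩, 0⟩, 0, 188320⟩ 0 0)) (.pos 3 .pm ⟨⟨0, 0, 0, 0, 0, 0, 0, 0, 0, ⟨0, 0⟩, 0⟩, 0, 0⟩ 0 0)) (.cut .v 268435456 (.cut .v 67108864 (.cut .d 1219821 (.cut .v 33554432 (.cut .d 609910 (.cut .v 25165824 (.cut .v 20971520 (.cut .v 18874368 (.pos 27 .pp ⟨⟨145860891,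 0, 0, 0, 0, 0, 0, 0, 0, ⟨0, 0⟩, 0⟩, 11128842, 0⟩ 0 0) (.pos 28 .pp ⟨⟨248955450, 0, 0, 0, 0, 0, 0, 0, 0, ⟨0, 0⟩, 0⟩, 0, 0⟩ 0 0)) (.pos 26 .pp ⟨⟨340968724, 0, 0, 0, 0, 0, 0, 0, 0, ⟨0, 0⟩, 0⟩, 0, 0⟩ 0 0)) (.pos 24 .pp ⟨⟨0, 0, 0, 0, 0, 0, 0, 0, 0, ⟨0, 0⟩, 0⟩, 121943416, 0⟩ 0 0)) (.pos 22 .pp ⟨⟨0, 0, 0, 0, 0, 0, 0, 0, 0, ⟨0, 0⟩, 0⟩, 27481505, 331982⟩ 0 0)) (.pos 89 .pp ⟨⟨0, 464953264, 0, 0, 0, 0, 0, 0, 0, ⟨0, 0⟩, 0⟩, 238745319, 0⟩ 0 0)) (.pos 88 .pp ⟨⟨0, 0, 0, 0, 0, 0, 0, 0, 0, ⟨0, 0⟩, 0⟩, 0, 512528⟩ 0 0)) (.void 96 ⟨⟨0, 0, 0, 51091, 0, 0, 0, 0, 0, ⟨0, 0⟩, 0⟩, 48909, 0⟩ 0 0)) (.void 111 ⟨⟨0, 0, 0, 0, 0, 0, 0, 0, 0, ⟨0, 0⟩, 0⟩, 100000, 0⟩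 0 0)))),
    by decide +kernel⟩

def covers31 : cell.Covers Vale.Agent.P237.Petty.Cor.Grid.N6.table row31.1 :=
  ⟨(.cut .d 0 (.cut .v 16777216 (.cut .v 8388608 (.void 2 ⟨⟨0, 0, 100000, 0, 0, 0, 0, 0, 0, ⟨0, 0⟩, 0⟩, 0, 0⟩ 0 0) (.cut .d (-8388608) (.void 3 ⟨⟨100000, 0, 0, 0, 0, 0, 0, 0, 0, ⟨0, 0⟩, 0⟩, 0, 0⟩ 0 0) (.cut .d (-4194304) (.void 3 ⟨⟨100000, 0, 0, 0, 0, 0, 0, 0, 0, ⟨0, 0⟩, 0⟩, 0, 0⟩ 0 0) (.cut .d (-2097152) (.void 3 ⟨⟨59249, 0, 40751, 0, 0, 0, 0, 0, 0, ⟨0, 0⟩, 0⟩, 0, 0⟩ 0 0) (.cut .d (-1048576) (.void 3 ⟨⟨0, 0, 0, 0, 0, 100000, 0, 0, 0, ⟨0, 0⟩, 0⟩, 0, 0⟩ 0 0) (.cut .d (-524288) (.void 3 ⟨⟨0, 0, 0, 0, 0, 100000, 0, 0, 0, ⟨0, 0⟩,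 0⟩, 0, 0⟩ 0 0) (.cut .s 14876672 (.pos 3 .mm ⟨⟨0, 0, 0, 0, 0, 564250507, 0, 0, 0, ⟨0, 0⟩, 0⟩, 0, 0⟩ 0 0) (.pos 3 .mm ⟨⟨0, 0, 0, 0, 0, 607554558, 0, 0, 0, ⟨0, 0⟩, 0⟩, 0, 0⟩ 0 0)))))))) (.cut .v 268435456 (.cut .v 67108864 (.cut .v 33554432 (.cut .d (-8388608) (.void 22 ⟨⟨100000, 0, 0, 0, 0, 0, 0, 0, 0, ⟨0, 0⟩, 0⟩, 0, 0⟩ 0 0) (.cut .v 25165824 (.cut .d (-4194304) (.void 23 ⟨⟨100000, 0, 0, 0, 0, 0, 0, 0, 0, ⟨0, 0⟩, 0⟩, 0, 0⟩ 0 0) (.cut .v 20971520 (.cut .d (-2097152) (.void 25 ⟨⟨100000, 0, 0, 0, 0, 0, 0, 0, 0, ⟨0, 0⟩, 0⟩, 0, 0⟩ 0 0) (.cut .v 18874368 (.cut .d (-1048576) (.void 27 ⟨⟨100000, 0, 0, 0, 0, 0, 0, 0, 0, ⟨0, 0⟩, 0⟩, 0, 0⟩ 0 0)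 (.cut .v 17825792 (.cut .d (-524288) (.void 29 ⟨⟨100000, 0, 0, 0, 0, 0, 0, 0, 0, ⟨0, 0⟩, 0⟩, 0, 0⟩ 0 0) (.cut .v 17301504 (.cut .d (-262144) (.void 31 ⟨⟨100000, 0, 0, 0, 0, 0, 0, 0, 0, ⟨0, 0⟩, 0⟩, 0, 0⟩ 0 0) (.cut .d (-131072) (.void 31 ⟨⟨100000, 0, 0, 0, 0, 0, 0, 0, 0, ⟨0, 0⟩, 0⟩, 0, 0⟩ 0 0) (.cut .d (-65536) (.void 31 ⟨⟨100000, 0, 0, 0, 0, 0, 0, 0, 0, ⟨0, 0⟩, 0⟩, 0, 0⟩ 0 0) (.cut .d (-32768) (.void 31 ⟨⟨0, 0, 0, 0, 0, 100000, 0, 0, 0, ⟨0, 0⟩, 0⟩, 0, 0⟩ 0 0) (.cut .v 17039360 (.cut .d (-16384) (.cut .l 307582 (.void 33 ⟨⟨0, 0, 0, 0, 0, 100000, 0, 0, 0, ⟨0, 0⟩, 0⟩, 0, 0⟩ 0 0) (.cut .d (-24576) (.pos 33 .mp ⟨⟨133118395, 0, 0, 0, 0, 408306775,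 0, 0, 0, ⟨0, 0⟩, 0⟩, 0, 0⟩ 0 0) (.cut .s 14876672 (.cut .v 16908288 (.cut .s 14843904 (.pos 35 .mp ⟨⟨121872107, 0, 0, 0, 0, 279639102, 0, 0, 0, ⟨0, 0⟩, 0⟩, 0, 0⟩ 0 0) (.pos 35 .mp ⟨⟨124766285, 0, 0, 0, 0, 291835559, 0, 0, 0, ⟨0, 0⟩, 0⟩, 0, 0⟩ 0 0)) (.cut .l 461373 (.pos 36 .mp ⟨⟨151446144, 0, 0, 0, 0, 238475101, 0, 0, 0, ⟨0, 0⟩, 0⟩, 0, 0⟩ 0 0) (.cut .s 14843904 (.pos 36 .mp ⟨⟨143612903, 0, 0, 0, 0, 229753347, 0, 0, 0, ⟨0, 0⟩, 0⟩, 0, 0⟩ 0 0) (.cut .s 14860288 (.pos 36 .mp ⟨⟨146382124, 0, 0, 0, 0, 237556011, 0, 0, 0, ⟨0, 0⟩, 0⟩, 0, 0⟩ 0 0) (.pos 36 .mp ⟨⟨149220253, 0, 0, 0, 0, 240891427, 0, 0, 0, ⟨0, 0⟩, 0⟩, 0, 0⟩ 0 0))))) (.cut .v 16908288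 (.cut .s 14909440 (.pos 35 .mp ⟨⟨128536293, 0, 0, 0, 0, 303327721, 0, 0, 0, ⟨0, 0⟩, 0⟩, 0, 0⟩ 0 0) (.pos 35 .mp ⟨⟨0, 0, 0, 0, 0, 647690536, 0, 0, 0, ⟨0, 0⟩, 0⟩, 0, 0⟩ 0 0)) (.cut .l 461373 (.pos 36 .mp ⟨⟨164318555, 0, 0, 0, 0, 250475084, 0, 0, 0, ⟨0, 0⟩, 0⟩, 0, 0⟩ 0 0) (.cut .v 16973824 (.cut .s 14909440 (.cut .s 14893056 (.pos 49 .mp ⟨⟨150717321, 0, 0, 0, 0, 247298778, 0, 0, 0, ⟨0, 0⟩, 0⟩, 0, 0⟩ 0 0) (.pos 49 .mp ⟨⟨153673494, 0, 0, 0, 0, 250950305, 0, 0, 0, ⟨0, 0⟩, 0⟩, 0, 0⟩ 0 0)) (.cut .s 14925824 (.pos 49 .mp ⟨⟨156703450, 0, 0, 0, 0, 254732887, 0, 0, 0, ⟨0, 0⟩, 0⟩, 0, 0⟩ 0 0) (.pos 49 .mp ⟨⟨149221662, 0, 0, 0, 0, 285256370, 0, 0,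 0, ⟨0, 0⟩, 0⟩, 0, 0⟩ 0 0))) (.pos 50 .mp ⟨⟨295065806, 0, 0, 0, 0, 0, 0, 0, 0, ⟨0, 0⟩, 0⟩, 0, 0⟩ 0 0))))))) (.cut .s 14876672 (.cut .l 307582 (.cut .v 16908288 (.cut .d (-8192) (.cut .d (-12288) (.pos 35 .mp ⟨⟨129957584, 0, 0, 0, 0, 390228211, 0, 0, 0, ⟨0, 0⟩, 0⟩, 0, 0⟩ 0 0) (.cut .l 153791 (.void 35 ⟨⟨0, 0, 0, 0, 0, 100000, 0, 0, 0, ⟨0, 0⟩, 0⟩, 0, 0⟩ 0 0) (.cut .s 14843904 (.cut .s 14827520 (.pos 35 .mp ⟨⟨129728775, 0, 0, 0, 0, 255004890, 0, 0, 0, ⟨0, 0⟩, 0⟩, 0, 0⟩ 0 0) (.pos 35 .mp ⟨⟨131954077, 0, 0, 0, 0, 259332899, 0, 0, 0, ⟨0, 0⟩, 0⟩, 0, 0⟩ 0 0)) (.cut .s 14860288 (.pos 35 .mp ⟨⟨134277532, 0, 0, 0, 0, 263696687, 0, 0, 0, ⟨0, 0⟩,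 0⟩, 0, 0⟩ 0 0) (.pos 35 .mp ⟨⟨136703822, 0, 0, 0, 0, 268086655, 0, 0, 0, ⟨0, 0⟩, 0⟩, 0, 0⟩ 0 0))))) (.cut .s 14843904 (.cut .l 153791 (.cut .v 16842752 (.cut .d (-4096) (.pos 41 .mp ⟨⟨127443728, 0, 0, 0, 0, 270961274, 0, 0, 0, ⟨0, 0⟩, 0⟩, 0, 0⟩ 0 0) (.cut .v 16809984 (.cut .l 76895 (.cut .d (-2048) (.pos 45 .mp ⟨⟨127149945, 0, 0, 0, 0, 270285288, 0, 0, 0, ⟨0, 0⟩, 0⟩, 0, 0⟩ 0 0) (.cut .v 16793600 (.cut .l 38447 (.cut .d (-1024) (.pos 47 .mp ⟨⟨127004119, 0, 0, 0, 0, 269944983, 0, 0, 0, ⟨0, 0⟩, 0⟩, 0, 0⟩ 0 0) (.cut .v 16785408 (.cut .s 14827520 (.pos 51 .mp ⟨⟨129873443, 0, 0, 0, 0, 246282148, 0, 0, 0, ⟨0, 0⟩, 0⟩, 0, 0⟩ 0 0) (.cut .s 14835712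 (.pos 51 .mp ⟨⟨133926542, 0, 0, 0, 0, 244788046, 0, 0, 0, ⟨0, 0⟩, 0⟩, 0, 0⟩ 0 0) (.pos 51 .mp ⟨⟨134999978, 0, 0, 0, 0, 246887627, 0, 0, 0, ⟨0, 0⟩, 0⟩, 0, 0⟩ 0 0))) (.pos 52 .mp ⟨⟨233396241, 0, 0, 0, 0, 0, 0, 0, 0, ⟨0, 0⟩, 0⟩, 0, 0⟩ 0 0))) (.pos 47 .mp ⟨⟨132310263, 0, 0, 0, 0, 236264745, 0, 0, 0, ⟨0, 0⟩, 0⟩, 0, 0⟩ 0 0)) (.pos 48 .mp ⟨⟨233559072, 0, 0, 0, 0, 0, 0, 0, 0, ⟨0, 0⟩, 0⟩, 0, 0⟩ 0 0))) (.pos 45 .mp ⟨⟨132968167, 0, 0, 0, 0, 235340027, 0, 0, 0, ⟨0, 0⟩, 0⟩, 0, 0⟩ 0 0)) (.pos 46 .mp ⟨⟨233883091, 0, 0, 0, 0, 0, 0, 0, 0, ⟨0, 0⟩, 0⟩, 0, 0⟩ 0 0))) (.pos 42 .mp ⟨⟨270615802, 0, 0, 0, 0, 0, 0, 0, 0, ⟨0, 0⟩, 0⟩, 0, 0⟩ 0 0)) (.pos 35 .mp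 ⟨⟨135591497, 0, 0, 0, 0, 231169583, 0, 0, 0, ⟨0, 0⟩, 0⟩, 0, 0⟩ 0 0)) (.cut .v 16842752 (.cut .l 153791 (.cut .d (-4096) (.cut .s 14860288 (.pos 41 .mp ⟨⟨132284836, 0, 0, 0, 0, 270359415, 0, 0, 0, ⟨0, 0⟩, 0⟩, 0, 0⟩ 0 0) (.pos 41 .mp ⟨⟨134795528, 0, 0, 0, 0, 274377424, 0, 0, 0, ⟨0, 0⟩, 0⟩, 0, 0⟩ 0 0)) (.cut .v 16809984 (.cut .l 76895 (.cut .d (-2048) (.pos 45 .mp ⟨⟨131967803, 0, 0, 0, 0, 278193479, 0, 0, 0, ⟨0, 0⟩, 0⟩, 0, 0⟩ 0 0) (.cut .v 16793600 (.cut .l 38447 (.cut .d (-1024) (.pos 47 .mp ⟨⟨131810388, 0, 0, 0, 0, 277857520, 0, 0, 0, ⟨0, 0⟩, 0⟩, 0, 0⟩ 0 0) (.cut .v 16785408 (.cut .l 19223 (.cut .d (-512) (.pos 51 .mp ⟨⟨131731960, 0,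 0, 0, 0, 277689220, 0, 0, 0, ⟨0, 0⟩, 0⟩, 0, 0⟩ 0 0) (.cut .v 16781312 (.cut .l 9611 (.cut .s 14860288 (.cut .s 14852096 (.pos 53 .mp ⟨⟨135750813, 0, 0, 0, 0, 249445092, 0, 0, 0, ⟨0, 0⟩, 0⟩, 0, 0⟩ 0 0) (.pos 53 .mp ⟨⟨136904840, 0, 0, 0, 0, 251533731, 0, 0, 0, ⟨0, 0⟩, 0⟩, 0, 0⟩ 0 0)) (.cut .s 14868480 (.pos 53 .mp ⟨⟨138092973, 0, 0, 0, 0, 253623319, 0, 0, 0, ⟨0, 0⟩, 0⟩, 0, 0⟩ 0 0) (.pos 53 .mp ⟨⟨139316225, 0, 0, 0, 0, 255712160, 0, 0, 0, ⟨0, 0⟩, 0⟩, 0, 0⟩ 0 0))) (.pos 53 .mp ⟨⟨136862252, 0, 0, 0, 0, 244080889, 0, 0, 0, ⟨0, 0⟩, 0⟩, 0, 0⟩ 0 0)) (.pos 54 .mp ⟨⟨241037818, 0, 0, 0, 0, 0, 0, 0, 0, ⟨0, 0⟩, 0⟩, 0, 0⟩ 0 0))) (.pos 51 .mp ⟨⟨137035222,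 0, 0, 0, 0, 243836061, 0, 0, 0, ⟨0, 0⟩, 0⟩, 0, 0⟩ 0 0)) (.pos 52 .mp ⟨⟨241123019, 0, 0, 0, 0, 0, 0, 0, 0, ⟨0, 0⟩, 0⟩, 0, 0⟩ 0 0))) (.pos 47 .mp ⟨⟨137381449, 0, 0, 0, 0, 243347056, 0, 0, 0, ⟨0, 0⟩, 0⟩, 0, 0⟩ 0 0)) (.pos 48 .mp ⟨⟨241291322, 0, 0, 0, 0, 0, 0, 0, 0, ⟨0, 0⟩, 0⟩, 0, 0⟩ 0 0))) (.pos 45 .mp ⟨⟨138074966, 0, 0, 0, 0, 242367831, 0, 0, 0, ⟨0, 0⟩, 0⟩, 0, 0⟩ 0 0)) (.pos 46 .mp ⟨⟨241626199, 0, 0, 0, 0, 0, 0, 0, 0, ⟨0, 0⟩, 0⟩, 0, 0⟩ 0 0))) (.pos 41 .mp ⟨⟨139466207, 0, 0, 0, 0, 240402624, 0, 0, 0, ⟨0, 0⟩, 0⟩, 0, 0⟩ 0 0)) (.pos 42 .mp ⟨⟨242295299, 0, 0, 0, 0, 0, 0, 0, 0, ⟨0, 0⟩, 0⟩, 0, 0⟩ 0 0)))) (.pos 36 .mp ⟨⟨276656503, 0, 0, 0, 0,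 0, 0, 0, 0, ⟨0, 0⟩, 0⟩, 0, 0⟩ 0 0)) (.cut .d (-8192) (.cut .v 16908288 (.cut .d (-12288) (.cut .s 14843904 (.pos 35 .mp ⟨⟨124844594, 0, 0, 0, 0, 268367126, 0, 0, 0, ⟨0, 0⟩, 0⟩, 0, 0⟩ 0 0) (.pos 35 .mp ⟨⟨129650910, 0, 0, 0, 0, 275836916, 0, 0, 0, ⟨0, 0⟩, 0⟩, 0, 0⟩ 0 0)) (.pos 35 .mp ⟨⟨135462456, 0, 0, 0, 0, 230696626, 0, 0, 0, ⟨0, 0⟩, 0⟩, 0, 0⟩ 0 0)) (.pos 36 .mp ⟨⟨238022643, 0, 0, 0, 0, 0, 0, 0, 0, ⟨0, 0⟩, 0⟩, 0, 0⟩ 0 0)) (.pos 33 .mp ⟨⟨137147728, 0, 0, 0, 0, 0, 0, 0, 0, ⟨0, 0⟩, 0⟩, 0, 0⟩ 0 0))) (.cut .s 14909440 (.cut .v 16908288 (.cut .l 307582 (.cut .d (-8192) (.cut .s 14893056 (.pos 35 .mp ⟨⟨138059605, 0, 0, 0, 0, 279870332, 0,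 0, 0, ⟨0, 0⟩, 0⟩, 0, 0⟩ 0 0) (.pos 35 .mp ⟨⟨140720862, 0, 0, 0, 0, 284343509, 0, 0, 0, ⟨0, 0⟩, 0⟩, 0, 0⟩ 0 0)) (.cut .v 16842752 (.cut .l 153791 (.cut .d (-4096) (.cut .s 14893056 (.pos 41 .mp ⟨⟨137368345, 0, 0, 0, 0, 278623965, 0, 0, 0, ⟨0, 0⟩, 0⟩, 0, 0⟩ 0 0) (.pos 41 .mp ⟨⟨140004878, 0, 0, 0, 0, 283105146, 0, 0, 0, ⟨0, 0⟩, 0⟩, 0, 0⟩ 0 0)) (.cut .v 16809984 (.cut .l 76895 (.cut .d (-2048) (.pos 45 .mp ⟨⟨137027323, 0, 0, 0, 0, 287010308, 0, 0, 0, ⟨0, 0⟩, 0⟩, 0, 0⟩ 0 0) (.cut .v 16793600 (.cut .l 38447 (.cut .d (-1024) (.pos 47 .mp ⟨⟨136857950, 0, 0, 0, 0, 286677932, 0, 0, 0, ⟨0, 0⟩, 0⟩, 0, 0⟩ 0 0) (.cut .v 16785408 (.cut .l 19223 (.cut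 .d (-512) (.pos 51 .mp ⟨⟨136773553, 0, 0, 0, 0, 286511427, 0, 0, 0, ⟨0, 0⟩, 0⟩, 0, 0⟩ 0 0) (.cut .v 16781312 (.cut .l 9611 (.cut .s 14893056 (.cut .s 14884864 (.pos 53 .mp ⟨⟨140575622, 0, 0, 0, 0, 257798524, 0, 0, 0, ⟨0, 0⟩, 0⟩, 0, 0⟩ 0 0) (.pos 53 .mp ⟨⟨141872216, 0, 0, 0, 0, 259880641, 0, 0, 0, ⟨0, 0⟩, 0⟩, 0, 0⟩ 0 0)) (.cut .s 14901248 (.pos 53 .mp ⟨⟨143207076, 0, 0, 0, 0, 261956700, 0, 0, 0, ⟨0, 0⟩, 0⟩, 0, 0⟩ 0 0) (.pos 53 .mp ⟨⟨144581292, 0, 0, 0, 0, 264024853, 0, 0, 0, ⟨0, 0⟩, 0⟩, 0, 0⟩ 0 0))) (.pos 53 .mp ⟨⟨142160598, 0, 0, 0, 0, 251558735, 0, 0, 0, ⟨0, 0⟩, 0⟩, 0, 0⟩ 0 0)) (.pos 54 .mp ⟨⟨249351164, 0, 0, 0, 0, 0, 0, 0, 0, ⟨0,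 0⟩, 0⟩, 0, 0⟩ 0 0))) (.pos 51 .mp ⟨⟨142342919, 0, 0, 0, 0, 251299522, 0, 0, 0, ⟨0, 0⟩, 0⟩, 0, 0⟩ 0 0)) (.pos 52 .mp ⟨⟨249439367, 0, 0, 0, 0, 0, 0, 0, 0, ⟨0, 0⟩, 0⟩, 0, 0⟩ 0 0))) (.pos 47 .mp ⟨⟨142707860, 0, 0, 0, 0, 250781791, 0, 0, 0, ⟨0, 0⟩, 0⟩, 0, 0⟩ 0 0)) (.pos 48 .mp ⟨⟨249613555, 0, 0, 0, 0, 0, 0, 0, 0, ⟨0, 0⟩, 0⟩, 0, 0⟩ 0 0))) (.pos 45 .mp ⟨⟨143438850, 0, 0, 0, 0, 249745066, 0, 0, 0, ⟨0, 0⟩, 0⟩, 0, 0⟩ 0 0)) (.pos 46 .mp ⟨⟨249960105, 0, 0, 0, 0, 0, 0, 0, 0, ⟨0, 0⟩, 0⟩, 0, 0⟩ 0 0))) (.pos 41 .mp ⟨⟨144905216, 0, 0, 0, 0, 247664563, 0, 0, 0, ⟨0, 0⟩, 0⟩, 0, 0⟩ 0 0)) (.pos 42 .mp ⟨⟨250652510, 0, 0, 0, 0, 0, 0, 0, 0, ⟨0, 0⟩, 0⟩, 0, 0⟩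 0 0))) (.cut .s 14893056 (.pos 35 .mp ⟨⟨145026223, 0, 0, 0, 0, 247387527, 0, 0, 0, ⟨0, 0⟩, 0⟩, 0, 0⟩ 0 0) (.cut .s 14901248 (.pos 35 .mp ⟨⟨146432210, 0, 0, 0, 0, 253136812, 0, 0, 0, ⟨0, 0⟩, 0⟩, 0, 0⟩ 0 0) (.pos 35 .mp ⟨⟨147855617, 0, 0, 0, 0, 255079157, 0, 0, 0, ⟨0, 0⟩, 0⟩, 0, 0⟩ 0 0)))) (.pos 36 .mp ⟨⟨252038749, 0, 0, 0, 0, 0, 0, 0, 0, ⟨0, 0⟩, 0⟩, 0, 0⟩ 0 0)) (.cut .v 16908288 (.cut .l 307582 (.cut .d (-8192) (.cut .s 14925824 (.pos 35 .mp ⟨⟨143447887, 0, 0, 0, 0, 289058432, 0, 0, 0, ⟨0, 0⟩, 0⟩, 0, 0⟩ 0 0) (.pos 35 .mp ⟨⟨146242396, 0, 0, 0, 0, 294021669, 0, 0, 0, ⟨0, 0⟩, 0⟩, 0, 0⟩ 0 0)) (.cut .v 16842752 (.cut .l 153791 (.cut .d (-4096)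 (.cut .s 14925824 (.pos 41 .mp ⟨⟨142706774, 0, 0, 0, 0, 287827290, 0, 0, 0, ⟨0, 0⟩, 0⟩, 0, 0⟩ 0 0) (.pos 41 .mp ⟨⟨145475739, 0, 0, 0, 0, 292796945, 0, 0, 0, ⟨0, 0⟩, 0⟩, 0, 0⟩ 0 0)) (.cut .v 16809984 (.cut .l 76895 (.cut .d (-2048) (.pos 45 .mp ⟨⟨142340985, 0, 0, 0, 0, 296784830, 0, 0, 0, ⟨0, 0⟩, 0⟩, 0, 0⟩ 0 0) (.cut .v 16793600 (.cut .l 38447 (.cut .d (-1024) (.pos 47 .mp ⟨⟨142159267, 0, 0, 0, 0, 296455232, 0, 0, 0, ⟨0, 0⟩, 0⟩, 0, 0⟩ 0 0) (.cut .v 16785408 (.cut .l 19223 (.cut .d (-512) (.pos 51 .mp ⟨⟨142068707, 0, 0, 0, 0, 296290117, 0, 0, 0, ⟨0, 0⟩, 0⟩, 0, 0⟩ 0 0) (.cut .v 16781312 (.cut .l 9611 (.cut .s 14925824 (.cut .s 14917632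 (.pos 53 .mp ⟨⟨145995974, 0, 0, 0, 0, 266083210, 0, 0, 0, ⟨0, 0⟩, 0⟩, 0, 0⟩ 0 0) (.pos 53 .mp ⟨⟨147452257, 0, 0, 0, 0, 268129839, 0, 0, 0, ⟨0, 0⟩, 0⟩, 0, 0⟩ 0 0)) (.cut .s 14934016 (.pos 53 .mp ⟨⟨148951295, 0, 0, 0, 0, 270162763, 0, 0, 0, ⟨0, 0⟩, 0⟩, 0, 0⟩ 0 0) (.pos 53 .mp ⟨⟨150494264, 0, 0, 0, 0, 272179965, 0, 0, 0, ⟨0, 0⟩, 0⟩, 0, 0⟩ 0 0))) (.pos 53 .mp ⟨⟨141886439, 0, 0, 0, 0, 274083603, 0, 0, 0, ⟨0, 0⟩, 0⟩, 0, 0⟩ 0 0)) (.pos 54 .mp ⟨⟨176557813, 0, 0, 0, 0, 206164628, 0, 0, 0, ⟨0, 0⟩, 0⟩, 0, 0⟩ 0 0))) (.pos 51 .mp ⟨⟨141794537, 0, 0, 0, 0, 274525572, 0, 0, 0, ⟨0, 0⟩, 0⟩, 0, 0⟩ 0 0)) (.pos 52 .mp ⟨⟨176467005, 0, 0, 0, 0, 206602298,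 0, 0, 0, ⟨0, 0⟩, 0⟩, 0, 0⟩ 0 0))) (.pos 47 .mp ⟨⟨141610840, 0, 0, 0, 0, 275410791, 0, 0, 0, ⟨0, 0⟩, 0⟩, 0, 0⟩ 0 0)) (.pos 48 .mp ⟨⟨258555845, 0, 0, 0, 0, 0, 0, 0, 0, ⟨0, 0⟩, 0⟩, 0, 0⟩ 0 0))) (.pos 45 .mp ⟨⟨141243786, 0, 0, 0, 0, 277182091, 0, 0, 0, ⟨0, 0⟩, 0⟩, 0, 0⟩ 0 0)) (.pos 46 .mp ⟨⟨258914927, 0, 0, 0, 0, 0, 0, 0, 0, ⟨0, 0⟩, 0⟩, 0, 0⟩ 0 0))) (.pos 41 .mp ⟨⟨140510996, 0, 0, 0, 0, 280726005, 0, 0, 0, ⟨0, 0⟩, 0⟩, 0, 0⟩ 0 0)) (.pos 42 .mp ⟨⟨259632350, 0, 0, 0, 0, 0, 0, 0, 0, ⟨0, 0⟩, 0⟩, 0, 0⟩ 0 0))) (.cut .s 14925824 (.pos 35 .mp ⟨⟨139050807, 0, 0, 0, 0, 284580209, 0, 0, 0, ⟨0, 0⟩, 0⟩, 0, 0⟩ 0 0) (.pos 35 .mp ⟨⟨141740188, 0, 0, 0, 0,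 289142708, 0, 0, 0, ⟨0, 0⟩, 0⟩, 0, 0⟩ 0 0))) (.cut .s 14925824 (.pos 36 .mp ⟨⟨257641794, 0, 0, 0, 0, 0, 0, 0, 0, ⟨0, 0⟩, 0⟩, 0, 0⟩ 0 0) (.pos 36 .mp ⟨⟨165932491, 0, 0, 0, 0, 242903416, 0, 0, 0, ⟨0, 0⟩, 0⟩, 0, 0⟩ 0 0)))))) (.pos 34 .mp ⟨⟨289353938, 0, 0, 0, 0, 0, 0, 0, 0, ⟨0, 0⟩, 0⟩, 0, 0⟩ 0 0)))))) (.pos 32 .mp ⟨⟨370028375, 0, 0, 0, 0, 0, 0, 0, 0, ⟨0, 0⟩, 0⟩, 0, 0⟩ 0 0))) (.void 30 ⟨⟨100000, 0, 0, 0, 0, 0, 0, 0, 0, ⟨0, 0⟩, 0⟩, 0, 0⟩ 0 0))) (.void 28 ⟨⟨100000, 0, 0, 0, 0, 0, 0, 0, 0, ⟨0, 0⟩, 0⟩, 0, 0⟩ 0 0))) (.void 26 ⟨⟨100000, 0, 0, 0, 0, 0, 0, 0, 0, ⟨0, 0⟩, 0⟩, 0, 0⟩ 0 0))) (.void 24 ⟨⟨100000, 0, 0, 0, 0, 0, 0, 0, 0, ⟨0, 0⟩, 0⟩, 0,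 0⟩ 0 0))) (.void 89 ⟨⟨100000, 0, 0, 0, 0, 0, 0, 0, 0, ⟨0, 0⟩, 0⟩, 0, 0⟩ 0 0)) (.void 96 ⟨⟨100000, 0, 0, 0, 0, 0, 0, 0, 0, ⟨0, 0⟩, 0⟩, 0, 0⟩ 0 0)) (.void 111 ⟨⟨88713, 0, 0, 11287, 0, 0, 0, 0, 0, ⟨0, 0⟩, 0⟩, 0, 0⟩ 0 0))) (.cut .v 16777216 (.cut .v 8388608 (.cut .v 4194304 (.cut .v 2097152 (.cut .v 1048576 (.pos 107 .pm ⟨⟨0, 0, 20974221, 0, 0, 0, 0, 0, 10742772, ⟨0, 0⟩, 1983364⟩, 0, 0⟩ 0 0) (.pos 108 .pm ⟨⟨0, 0, 12756886, 0, 0, 0, 0, 0, 0, ⟨0, 0⟩, 0⟩, 0, 93987⟩ 0 0)) (.pos 98 .pm ⟨⟨0, 0, 10903219, 0, 0, 0, 0, 0, 0, ⟨0, 0⟩, 0⟩, 0, 120841⟩ 0 0)) (.pos 5 .pm ⟨⟨0, 0, 11686961, 0, 0, 0, 0, 0, 0, ⟨0, 0⟩, 0⟩, 0, 169177⟩ 0 0)) (.pos 3 .pm ⟨⟨0,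 0, 0, 0, 0, 0, 0, 0, 0, ⟨0, 0⟩, 0⟩, 0, 0⟩ 0 0)) (.cut .v 268435456 (.cut .v 67108864 (.cut .d 1113533 (.cut .v 33554432 (.cut .d 556766 (.cut .v 25165824 (.cut .v 20971520 (.cut .v 18874368 (.pos 27 .pp ⟨⟨163881507, 0, 0, 0, 0, 0, 0, 0, 0, ⟨0, 0⟩, 0⟩, 15031400, 0⟩ 0 0) (.pos 28 .pp ⟨⟨289460312, 0, 0, 0, 0, 0, 0, 0, 0, ⟨0, 0⟩, 0⟩, 0, 0⟩ 0 0)) (.pos 26 .pp ⟨⟨392739166, 0, 0, 0, 0, 0, 0, 0, 0, ⟨0, 0⟩, 0⟩, 0, 0⟩ 0 0)) (.pos 24 .pp ⟨⟨0, 0, 0, 0, 0, 0, 0, 0, 0, ⟨0, 0⟩, 0⟩, 139014319, 0⟩ 0 0)) (.pos 22 .pp ⟨⟨0, 0, 0, 0, 0, 0, 0, 0, 0, ⟨0, 0⟩, 0⟩, 36371452, 279888⟩ 0 0)) (.pos 89 .pp ⟨⟨0, 546232131, 0, 0, 0, 0, 0, 0, 0, ⟨0, 0⟩, 0⟩, 270181282,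 0⟩ 0 0)) (.pos 88 .pp ⟨⟨0, 0, 0, 0, 0, 0, 0, 0, 0, ⟨0, 0⟩, 0⟩, 0, 463691⟩ 0 0)) (.void 96 ⟨⟨0, 0, 0, 51244, 0, 0, 0, 0, 0, ⟨0, 0⟩, 0⟩, 48756, 0⟩ 0 0)) (.void 111 ⟨⟨0, 0, 0, 0, 0, 0, 0, 0, 0, ⟨0, 0⟩, 0⟩, 100000, 0⟩ 0 0)))),
    by decide +kernel⟩

def covers32 : cell.Covers Vale.Agent.P237.Petty.Cor.Grid.N6.table row32.1 :=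
  ⟨(.cut .d 0 (.cut .v 16777216 (.cut .v 8388608 (.void 2 ⟨⟨0, 0, 100000, 0, 0, 0, 0, 0, 0, ⟨0, 0⟩, 0⟩, 0, 0⟩ 0 0) (.cut .d (-8388608) (.void 3 ⟨⟨100000, 0, 0, 0, 0, 0, 0, 0, 0, ⟨0, 0⟩, 0⟩, 0, 0⟩ 0 0) (.cut .d (-4194304) (.void 3 ⟨⟨100000, 0, 0, 0, 0, 0, 0, 0, 0, ⟨0, 0⟩, 0⟩, 0, 0⟩ 0 0) (.cut .d (-2097152) (.void 3 ⟨⟨59090, 0, 40910, 0, 0, 0, 0, 0, 0, ⟨0, 0⟩, 0⟩, 0, 0⟩ 0 0) (.cut .d (-1048576) (.void 3 ⟨⟨0, 0, 0, 0, 0, 100000, 0, 0, 0, ⟨0, 0⟩, 0⟩, 0, 0⟩ 0 0) (.cut .d (-524288) (.void 3 ⟨⟨0, 0, 0, 0, 0, 100000, 0, 0, 0, ⟨0, 0⟩, 0⟩, 0, 0⟩ 0 0) (.cut .s 15007744 (.pos 3 .mm ⟨⟨0, 0, 0, 0, 0, 655513000, 0, 0, 0, ⟨0, 0⟩, 0⟩, 0, 0⟩ 0 0) (.pos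 3 .mm ⟨⟨0, 0, 0, 0, 0, 708565145, 0, 0, 0, ⟨0, 0⟩, 0⟩, 0, 0⟩ 0 0)))))))) (.cut .v 268435456 (.cut .v 67108864 (.cut .v 33554432 (.cut .d (-8388608) (.void 22 ⟨⟨100000, 0, 0, 0, 0, 0, 0, 0, 0, ⟨0, 0⟩, 0⟩, 0, 0⟩ 0 0) (.cut .v 25165824 (.cut .d (-4194304) (.void 23 ⟨⟨100000, 0, 0, 0, 0, 0, 0, 0, 0, ⟨0, 0⟩, 0⟩, 0, 0⟩ 0 0) (.cut .v 20971520 (.cut .d (-2097152) (.void 25 ⟨⟨100000, 0, 0, 0, 0, 0, 0, 0, 0, ⟨0, 0⟩, 0⟩, 0, 0⟩ 0 0) (.cut .v 18874368 (.cut .d (-1048576) (.void 27 ⟨⟨100000, 0, 0, 0, 0, 0, 0, 0, 0, ⟨0, 0⟩, 0⟩, 0, 0⟩ 0 0) (.cut .v 17825792 (.cut .d (-524288) (.void 29 ⟨⟨100000, 0, 0, 0, 0, 0, 0, 0, 0, ⟨0, 0⟩, 0⟩, 0, 0⟩ 0 0) (.cut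 .d (-262144) (.void 29 ⟨⟨100000, 0, 0, 0, 0, 0, 0, 0, 0, ⟨0, 0⟩, 0⟩, 0, 0⟩ 0 0) (.cut .v 17301504 (.cut .d (-131072) (.void 31 ⟨⟨100000, 0, 0, 0, 0, 0, 0, 0, 0, ⟨0, 0⟩, 0⟩, 0, 0⟩ 0 0) (.cut .d (-65536) (.void 31 ⟨⟨100000, 0, 0, 0, 0, 0, 0, 0, 0, ⟨0, 0⟩, 0⟩, 0, 0⟩ 0 0) (.cut .d (-32768) (.void 31 ⟨⟨0, 0, 0, 0, 0, 100000, 0, 0, 0, ⟨0, 0⟩, 0⟩, 0, 0⟩ 0 0) (.cut .v 17039360 (.cut .d (-16384) (.cut .l 307582 (.void 33 ⟨⟨0, 0, 0, 0, 0, 100000, 0, 0, 0, ⟨0, 0⟩, 0⟩, 0, 0⟩ 0 0) (.cut .d (-24576) (.void 33 ⟨⟨0, 0, 0, 0, 0, 100000, 0, 0, 0, ⟨0, 0⟩, 0⟩, 0, 0⟩ 0 0) (.cut .s 15007744 (.cut .v 16908288 (.cut .s 14974976 (.pos 35 .mp ⟨⟨0, 0, 0, 0, 0,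 674615777, 0, 0, 0, ⟨0, 0⟩, 0⟩, 0, 0⟩ 0 0) (.pos 35 .mp ⟨⟨0, 0, 0, 0, 0, 699193569, 0, 0, 0, ⟨0, 0⟩, 0⟩, 0, 0⟩ 0 0)) (.cut .l 461373 (.pos 36 .mp ⟨⟨175120728, 0, 0, 0, 0, 278208490, 0, 0, 0, ⟨0, 0⟩, 0⟩, 0, 0⟩ 0 0) (.cut .v 16973824 (.cut .s 14974976 (.cut .s 14958592 (.pos 49 .mp ⟨⟨152164251, 0, 0, 0, 0, 291258901, 0, 0, 0, ⟨0, 0⟩, 0⟩, 0, 0⟩ 0 0) (.pos 49 .mp ⟨⟨155196403, 0, 0, 0, 0, 295641207, 0, 0, 0, ⟨0, 0⟩, 0⟩, 0, 0⟩ 0 0)) (.cut .s 14991360 (.pos 49 .mp ⟨⟨158307628, 0, 0, 0, 0, 300213726, 0, 0, 0, ⟨0, 0⟩, 0⟩, 0, 0⟩ 0 0) (.pos 49 .mp ⟨⟨161500064, 0, 0, 0, 0, 304975330, 0, 0, 0, ⟨0, 0⟩, 0⟩, 0, 0⟩ 0 0))) (.pos 50 .mp ⟨⟨320907783, 0,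 0, 0, 0, 0, 0, 0, 0, ⟨0, 0⟩, 0⟩, 0, 0⟩ 0 0)))) (.cut .v 16908288 (.pos 35 .mp ⟨⟨0, 0, 0, 0, 0, 735891811, 0, 0, 0, ⟨0, 0⟩, 0⟩, 0, 0⟩ 0 0) (.cut .v 16973824 (.cut .d (-20480) (.pos 49 .mp ⟨⟨167341282, 0, 0, 0, 0, 344700330, 0, 0, 0, ⟨0, 0⟩, 0⟩, 0, 0⟩ 0 0) (.cut .l 461373 (.void 49 ⟨⟨0, 0, 0, 0, 0, 100000, 0, 0, 0, ⟨0, 0⟩, 0⟩, 0, 0⟩ 0 0) (.cut .s 15040512 (.pos 49 .mp ⟨⟨177604435, 0, 0, 0, 0, 278814956, 0, 0, 0, ⟨0, 0⟩, 0⟩, 0, 0⟩ 0 0) (.pos 49 .mp ⟨⟨185049406, 0, 0, 0, 0, 287603768, 0, 0, 0, ⟨0, 0⟩, 0⟩, 0, 0⟩ 0 0)))) (.pos 50 .mp ⟨⟨342760821, 0, 0, 0, 0, 0, 0, 0, 0, ⟨0, 0⟩, 0⟩, 0, 0⟩ 0 0)))))) (.cut .s 15007744 (.cut .s 14974976 (.cut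 .v 16908288 (.cut .l 307582 (.cut .d (-8192) (.cut .s 14958592 (.pos 35 .mp ⟨⟨149106821, 0, 0, 0, 0, 299250316, 0, 0, 0, ⟨0, 0⟩, 0⟩, 0, 0⟩ 0 0) (.pos 35 .mp ⟨⟨152051289, 0, 0, 0, 0, 303659359, 0, 0, 0, ⟨0, 0⟩, 0⟩, 0, 0⟩ 0 0)) (.cut .v 16842752 (.cut .s 14958592 (.cut .l 153791 (.cut .d (-4096) (.pos 41 .mp ⟨⟨148314137, 0, 0, 0, 0, 298031250, 0, 0, 0, ⟨0, 0⟩, 0⟩, 0, 0⟩ 0 0) (.cut .s 14950400 (.pos 41 .mp ⟨⟨152583795, 0, 0, 0, 0, 273412354, 0, 0, 0, ⟨0, 0⟩, 0⟩, 0, 0⟩ 0 0) (.pos 41 .mp ⟨⟨154178973, 0, 0, 0, 0, 275108511, 0, 0, 0, ⟨0, 0⟩, 0⟩, 0, 0⟩ 0 0))) (.pos 41 .mp ⟨⟨146011723, 0, 0, 0, 0, 287263673, 0, 0, 0, ⟨0, 0⟩, 0⟩, 0, 0⟩ 0 0))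 (.cut .l 153791 (.cut .d (-4096) (.pos 41 .mp ⟨⟨151228148, 0, 0, 0, 0, 302459201, 0, 0, 0, ⟨0, 0⟩, 0⟩, 0, 0⟩ 0 0) (.cut .s 14966784 (.pos 41 .mp ⟨⟨155753651, 0, 0, 0, 0, 276970906, 0, 0, 0, ⟨0, 0⟩, 0⟩, 0, 0⟩ 0 0) (.pos 41 .mp ⟨⟨157285710, 0, 0, 0, 0, 279062972, 0, 0, 0, ⟨0, 0⟩, 0⟩, 0, 0⟩ 0 0))) (.pos 41 .mp ⟨⟨148869943, 0, 0, 0, 0, 291915111, 0, 0, 0, ⟨0, 0⟩, 0⟩, 0, 0⟩ 0 0))) (.pos 42 .mp ⟨⟨183422361, 0, 0, 0, 0, 216660345, 0, 0, 0, ⟨0, 0⟩, 0⟩, 0, 0⟩ 0 0))) (.cut .d (-8192) (.cut .s 14958592 (.pos 35 .mp ⟨⟨144380170, 0, 0, 0, 0, 299869257, 0, 0, 0, ⟨0, 0⟩, 0⟩, 0, 0⟩ 0 0) (.pos 35 .mp ⟨⟨146928917, 0, 0, 0, 0, 305245938, 0, 0, 0, ⟨0,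 0⟩, 0⟩, 0, 0⟩ 0 0)) (.pos 35 .mp ⟨⟨0, 0, 0, 0, 0, 0, 0, 0, 0, ⟨0, 0⟩, 0⟩, 0, 0⟩ 0 0))) (.cut .s 14958592 (.pos 36 .mp ⟨⟨169818364, 0, 0, 0, 0, 245476477, 0, 0, 0, ⟨0, 0⟩, 0⟩, 0, 0⟩ 0 0) (.pos 36 .mp ⟨⟨172580960, 0, 0, 0, 0, 250261340, 0, 0, 0, ⟨0, 0⟩, 0⟩, 0, 0⟩ 0 0))) (.cut .v 16908288 (.cut .l 307582 (.cut .d (-8192) (.cut .s 14991360 (.pos 35 .mp ⟨⟨155073002, 0, 0, 0, 0, 308351499, 0, 0, 0, ⟨0, 0⟩, 0⟩, 0, 0⟩ 0 0) (.pos 35 .mp ⟨⟨158174050, 0, 0, 0, 0, 313334716, 0, 0, 0, ⟨0, 0⟩, 0⟩, 0, 0⟩ 0 0)) (.cut .v 16842752 (.cut .s 14991360 (.cut .l 153791 (.cut .d (-4096) (.pos 41 .mp ⟨⟨154218833, 0, 0, 0, 0, 307169584, 0, 0, 0, ⟨0, 0⟩, 0⟩,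 0, 0⟩ 0 0) (.cut .s 14983168 (.pos 41 .mp ⟨⟨158837960, 0, 0, 0, 0, 281207462, 0, 0, 0, ⟨0, 0⟩, 0⟩, 0, 0⟩ 0 0) (.pos 41 .mp ⟨⟨160410673, 0, 0, 0, 0, 283404498, 0, 0, 0, ⟨0, 0⟩, 0⟩, 0, 0⟩ 0 0))) (.pos 41 .mp ⟨⟨151802971, 0, 0, 0, 0, 296701722, 0, 0, 0, ⟨0, 0⟩, 0⟩, 0, 0⟩ 0 0)) (.cut .l 153791 (.cut .d (-4096) (.pos 41 .mp ⟨⟨157288266, 0, 0, 0, 0, 312170360, 0, 0, 0, ⟨0, 0⟩, 0⟩, 0, 0⟩ 0 0) (.cut .s 14999552 (.pos 41 .mp ⟨⟨162004128, 0, 0, 0, 0, 285654198, 0, 0, 0, ⟨0, 0⟩, 0⟩, 0, 0⟩ 0 0) (.pos 41 .mp ⟨⟨163618609, 0, 0, 0, 0, 287956677, 0, 0, 0, ⟨0, 0⟩, 0⟩, 0, 0⟩ 0 0))) (.pos 41 .mp ⟨⟨154812829, 0, 0, 0, 0, 301618547, 0, 0, 0, ⟨0, 0⟩, 0⟩,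 0, 0⟩ 0 0))) (.pos 42 .mp ⟨⟨190133007, 0, 0, 0, 0, 224179277, 0, 0, 0, ⟨0, 0⟩, 0⟩, 0, 0⟩ 0 0))) (.cut .d (-8192) (.cut .s 14991360 (.pos 35 .mp ⟨⟨149632067, 0, 0, 0, 0, 310617797, 0, 0, 0, ⟨0, 0⟩, 0⟩, 0, 0⟩ 0 0) (.pos 35 .mp ⟨⟨152498534, 0, 0, 0, 0, 315967124, 0, 0, 0, ⟨0, 0⟩, 0⟩, 0, 0⟩ 0 0)) (.pos 35 .mp ⟨⟨0, 0, 0, 0, 0, 0, 0, 0, 0, ⟨0, 0⟩, 0⟩, 0, 0⟩ 0 0))) (.cut .s 14991360 (.pos 36 .mp ⟨⟨175751908, 0, 0, 0, 0, 254492287, 0, 0, 0, ⟨0, 0⟩, 0⟩, 0, 0⟩ 0 0) (.pos 36 .mp ⟨⟨179291440, 0, 0, 0, 0, 258281080, 0, 0, 0, ⟨0, 0⟩, 0⟩, 0, 0⟩ 0 0)))) (.cut .s 15040512 (.cut .v 16908288 (.cut .l 307582 (.cut .d (-8192) (.cut .s 15024128 (.pos 35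 .mp ⟨⟨161356599, 0, 0, 0, 0, 318617284, 0, 0, 0, ⟨0, 0⟩, 0⟩, 0, 0⟩ 0 0) (.pos 35 .mp ⟨⟨164622896, 0, 0, 0, 0, 324207788, 0, 0, 0, ⟨0, 0⟩, 0⟩, 0, 0⟩ 0 0)) (.cut .s 15024128 (.cut .v 16842752 (.cut .l 153791 (.cut .d (-4096) (.pos 41 .mp ⟨⟨160438597, 0, 0, 0, 0, 317469785, 0, 0, 0, ⟨0, 0⟩, 0⟩, 0, 0⟩ 0 0) (.cut .v 16809984 (.cut .s 15015936 (.pos 45 .mp ⟨⟨162832152, 0, 0, 0, 0, 296187797, 0, 0, 0, ⟨0, 0⟩, 0⟩, 0, 0⟩ 0 0) (.pos 45 .mp ⟨⟨164453073, 0, 0, 0, 0, 298685133, 0, 0, 0, ⟨0, 0⟩, 0⟩, 0, 0⟩ 0 0)) (.pos 46 .mp ⟨⟨185291985, 0, 0, 0, 0, 250984382, 0, 0, 0, ⟨0, 0⟩, 0⟩, 0, 0⟩ 0 0))) (.pos 41 .mp ⟨⟨157901616, 0, 0, 0, 0, 306660480, 0, 0,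 0, ⟨0, 0⟩, 0⟩, 0, 0⟩ 0 0)) (.pos 42 .mp ⟨⟨184407902, 0, 0, 0, 0, 255012897, 0, 0, 0, ⟨0, 0⟩, 0⟩, 0, 0⟩ 0 0)) (.cut .v 16842752 (.cut .l 153791 (.cut .d (-4096) (.pos 41 .mp ⟨⟨163672056, 0, 0, 0, 0, 323076422, 0, 0, 0, ⟨0, 0⟩, 0⟩, 0, 0⟩ 0 0) (.cut .s 15032320 (.cut .s 15028224 (.pos 41 .mp ⟨⟨167289278, 0, 0, 0, 0, 297293756, 0, 0, 0, ⟨0, 0⟩, 0⟩, 0, 0⟩ 0 0) (.pos 41 .mp ⟨⟨168151221, 0, 0, 0, 0, 298509968, 0, 0, 0, ⟨0, 0⟩, 0⟩, 0, 0⟩ 0 0)) (.pos 41 .mp ⟨⟨170292632, 0, 0, 0, 0, 297696517, 0, 0, 0, ⟨0, 0⟩, 0⟩, 0, 0⟩ 0 0))) (.pos 41 .mp ⟨⟨161071509, 0, 0, 0, 0, 311822260, 0, 0, 0, ⟨0, 0⟩, 0⟩, 0, 0⟩ 0 0)) (.pos 42 .mp ⟨⟨188410841, 0, 0, 0,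 0, 258572551, 0, 0, 0, ⟨0, 0⟩, 0⟩, 0, 0⟩ 0 0)))) (.cut .d (-8192) (.cut .s 15024128 (.pos 35 .mp ⟨⟨155537530, 0, 0, 0, 0, 321275607, 0, 0, 0, ⟨0, 0⟩, 0⟩, 0, 0⟩ 0 0) (.pos 35 .mp ⟨⟨158758580, 0, 0, 0, 0, 326524308, 0, 0, 0, ⟨0, 0⟩, 0⟩, 0, 0⟩ 0 0)) (.pos 35 .mp ⟨⟨0, 0, 0, 0, 0, 0, 0, 0, 0, ⟨0, 0⟩, 0⟩, 0, 0⟩ 0 0))) (.cut .s 15024128 (.pos 36 .mp ⟨⟨182926101, 0, 0, 0, 0, 262331728, 0, 0, 0, ⟨0, 0⟩, 0⟩, 0, 0⟩ 0 0) (.pos 36 .mp ⟨⟨186658539, 0, 0, 0, 0, 266651676, 0, 0, 0, ⟨0, 0⟩, 0⟩, 0, 0⟩ 0 0))) (.cut .v 16908288 (.cut .l 307582 (.cut .d (-8192) (.cut .s 15056896 (.pos 35 .mp ⟨⟨167975274, 0, 0, 0, 0, 330115137, 0, 0, 0, ⟨0, 0⟩, 0⟩, 0, 0⟩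 0 0) (.pos 35 .mp ⟨⟨171416155, 0, 0, 0, 0, 336348578, 0, 0, 0, ⟨0, 0⟩, 0⟩, 0, 0⟩ 0 0)) (.cut .s 15056896 (.cut .v 16842752 (.cut .l 153791 (.cut .d (-4096) (.pos 41 .mp ⟨⟨166990958, 0, 0, 0, 0, 328999158, 0, 0, 0, ⟨0, 0⟩, 0⟩, 0, 0⟩ 0 0) (.cut .s 15048704 (.pos 41 .mp ⟨⟨172016674, 0, 0, 0, 0, 300264451, 0, 0, 0, ⟨0, 0⟩, 0⟩, 0, 0⟩ 0 0) (.pos 41 .mp ⟨⟨173763557, 0, 0, 0, 0, 302885755, 0, 0, 0, ⟨0, 0⟩, 0⟩, 0, 0⟩ 0 0))) (.pos 41 .mp ⟨⟨164324766, 0, 0, 0, 0, 317098468, 0, 0, 0, ⟨0, 0⟩, 0⟩, 0, 0⟩ 0 0)) (.pos 42 .mp ⟨⟨192770110, 0, 0, 0, 0, 261756137, 0, 0, 0, ⟨0, 0⟩, 0⟩, 0, 0⟩ 0 0)) (.cut .v 16842752 (.cut .l 153791 (.cut .d (-4096) (.pos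 41 .mp ⟨⟨170397708, 0, 0, 0, 0, 335247218, 0, 0, 0, ⟨0, 0⟩, 0⟩, 0, 0⟩ 0 0) (.cut .s 15065088 (.pos 41 .mp ⟨⟨175533601, 0, 0, 0, 0, 305560511, 0, 0, 0, ⟨0, 0⟩, 0⟩, 0, 0⟩ 0 0) (.pos 41 .mp ⟨⟨177327138, 0, 0, 0, 0, 308288792, 0, 0, 0, ⟨0, 0⟩, 0⟩, 0, 0⟩ 0 0))) (.pos 41 .mp ⟨⟨167663733, 0, 0, 0, 0, 322483515, 0, 0, 0, ⟨0, 0⟩, 0⟩, 0, 0⟩ 0 0)) (.pos 42 .mp ⟨⟨197507989, 0, 0, 0, 0, 264520680, 0, 0, 0, ⟨0, 0⟩, 0⟩, 0, 0⟩ 0 0)))) (.cut .d (-8192) (.cut .s 15056896 (.pos 35 .mp ⟨⟨162171538, 0, 0, 0, 0, 331693626, 0, 0, 0, ⟨0, 0⟩, 0⟩, 0, 0⟩ 0 0) (.pos 35 .mp ⟨⟨165786602, 0, 0, 0, 0, 336763273, 0, 0, 0, ⟨0, 0⟩, 0⟩, 0, 0⟩ 0 0)) (.pos 35 .mp ⟨⟨0, 0,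 0, 0, 0, 0, 0, 0, 0, ⟨0, 0⟩, 0⟩, 0, 0⟩ 0 0))) (.cut .s 15056896 (.pos 36 .mp ⟨⟨190932810, 0, 0, 0, 0, 270129997, 0, 0, 0, ⟨0, 0⟩, 0⟩, 0, 0⟩ 0 0) (.pos 36 .mp ⟨⟨195657967, 0, 0, 0, 0, 273009985, 0, 0, 0, ⟨0, 0⟩, 0⟩, 0, 0⟩ 0 0)))))) (.pos 34 .mp ⟨⟨333319778, 0, 0, 0, 0, 0, 0, 0, 0, ⟨0, 0⟩, 0⟩, 0, 0⟩ 0 0))))) (.pos 32 .mp ⟨⟨391821483, 0, 0, 0, 0, 0, 0, 0, 0, ⟨0, 0⟩, 0⟩, 0, 0⟩ 0 0)))) (.void 30 ⟨⟨100000, 0, 0, 0, 0, 0, 0, 0, 0, ⟨0, 0⟩, 0⟩, 0, 0⟩ 0 0))) (.void 28 ⟨⟨100000, 0, 0, 0, 0, 0, 0, 0, 0, ⟨0, 0⟩, 0⟩, 0, 0⟩ 0 0))) (.void 26 ⟨⟨100000, 0, 0, 0, 0, 0, 0, 0, 0, ⟨0, 0⟩, 0⟩, 0, 0⟩ 0 0))) (.void 24 ⟨⟨100000, 0, 0, 0, 0, 0, 0, 0, 0, ⟨0, 0⟩,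 0⟩, 0, 0⟩ 0 0))) (.void 89 ⟨⟨100000, 0, 0, 0, 0, 0, 0, 0, 0, ⟨0, 0⟩, 0⟩, 0, 0⟩ 0 0)) (.void 96 ⟨⟨100000, 0, 0, 0, 0, 0, 0, 0, 0, ⟨0, 0⟩, 0⟩, 0, 0⟩ 0 0)) (.void 111 ⟨⟨88625, 0, 0, 11375, 0, 0, 0, 0, 0, ⟨0, 0⟩, 0⟩, 0, 0⟩ 0 0))) (.cut .v 16777216 (.cut .v 8388608 (.cut .v 4194304 (.cut .v 2097152 (.cut .v 1048576 (.pos 107 .pm ⟨⟨0, 0, 22386308, 0, 0, 0, 0, 0, 11654203, ⟨0, 0⟩, 1983364⟩, 0, 0⟩ 0 0) (.pos 108 .pm ⟨⟨0, 0, 16509927, 0, 0, 0, 0, 0, 0, ⟨0, 0⟩, 0⟩, 0, 85001⟩ 0 0)) (.pos 98 .pm ⟨⟨0, 0, 15398114, 0, 0, 0, 0, 0, 0, ⟨0, 0⟩, 0⟩, 0, 109287⟩ 0 0)) (.pos 5 .pm ⟨⟨0, 0, 18670223, 0, 0, 0, 0, 0, 0, ⟨0, 0⟩, 0⟩, 0, 153002⟩ 0 0)) (.pos 3 .pm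 ⟨⟨0, 0, 0, 0, 0, 0, 0, 0, 0, ⟨0, 0⟩, 0⟩, 0, 0⟩ 0 0)) (.cut .v 268435456 (.cut .v 67108864 (.cut .d 1030181 (.cut .v 33554432 (.cut .d 515090 (.cut .v 25165824 (.cut .v 20971520 (.cut .v 18874368 (.pos 27 .pp ⟨⟨195267322, 0, 0, 0, 0, 0, 0, 0, 0, ⟨0, 0⟩, 0⟩, 15672010, 0⟩ 0 0) (.pos 28 .pp ⟨⟨331683624, 0, 0, 0, 0, 0, 0, 0, 0, ⟨0, 0⟩, 0⟩, 0, 0⟩ 0 0)) (.pos 26 .pp ⟨⟨448936747, 0, 0, 0, 0, 0, 0, 0, 0, ⟨0, 0⟩, 0⟩, 0, 0⟩ 0 0)) (.pos 24 .pp ⟨⟨0, 0, 0, 0, 0, 0, 0, 0, 0, ⟨0, 0⟩, 0⟩, 158626703, 0⟩ 0 0)) (.pos 22 .pp ⟨⟨0, 0, 0, 0, 0, 0, 0, 0, 0, ⟨0, 0⟩, 0⟩, 45555851, 239518⟩ 0 0)) (.pos 89 .pp ⟨⟨0, 656273760, 0, 0, 0, 0, 0, 0, 0, ⟨0, 0⟩, 0⟩, 307363375,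 0⟩ 0 0)) (.pos 88 .pp ⟨⟨0, 0, 0, 0, 0, 0, 0, 0, 0, ⟨0, 0⟩, 0⟩, 0, 422919⟩ 0 0)) (.void 96 ⟨⟨0, 0, 0, 51396, 0, 0, 0, 0, 0, ⟨0, 0⟩, 0⟩, 48604, 0⟩ 0 0)) (.void 111 ⟨⟨0, 0, 0, 0, 0, 0, 0, 0, 0, ⟨0, 0⟩, 0⟩, 100000, 0⟩ 0 0)))),
    by decide +kernel⟩

def covers33 : cell.Covers Vale.Agent.P237.Petty.Cor.Grid.N6.table row33.1 :=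
  ⟨(.cut .d 0 (.cut .v 16777216 (.cut .v 8388608 (.void 2 ⟨⟨0, 0, 100000, 0, 0, 0, 0, 0, 0, ⟨0, 0⟩, 0⟩, 0, 0⟩ 0 0) (.cut .d (-8388608) (.void 3 ⟨⟨100000, 0, 0, 0, 0, 0, 0, 0, 0, ⟨0, 0⟩, 0⟩, 0, 0⟩ 0 0) (.cut .d (-4194304) (.void 3 ⟨⟨100000, 0, 0, 0, 0, 0, 0, 0, 0, ⟨0, 0⟩, 0⟩, 0, 0⟩ 0 0) (.cut .d (-2097152) (.void 3 ⟨⟨58932, 0, 41068, 0, 0, 0, 0, 0, 0, ⟨0, 0⟩, 0⟩, 0, 0⟩ 0 0) (.cut .d (-1048576) (.void 3 ⟨⟨0, 0, 0, 0, 0, 100000, 0, 0, 0, ⟨0, 0⟩, 0⟩, 0, 0⟩ 0 0) (.cut .d (-524288) (.void 3 ⟨⟨0, 0, 0, 0, 0, 100000, 0, 0, 0, ⟨0, 0⟩, 0⟩, 0, 0⟩ 0 0) (.cut .s 15122432 (.pos 3 .mm ⟨⟨0, 0, 0, 0, 0, 752846636, 0, 0, 0, ⟨0, 0⟩, 0⟩, 0, 0⟩ 0 0) (.pos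 3 .mm ⟨⟨0, 0, 0, 0, 0, 816748104, 0, 0, 0, ⟨0, 0⟩, 0⟩, 0, 0⟩ 0 0)))))))) (.cut .v 268435456 (.cut .v 67108864 (.cut .v 33554432 (.cut .d (-8388608) (.void 22 ⟨⟨100000, 0, 0, 0, 0, 0, 0, 0, 0, ⟨0, 0⟩, 0⟩, 0, 0⟩ 0 0) (.cut .v 25165824 (.cut .d (-4194304) (.void 23 ⟨⟨100000, 0, 0, 0, 0, 0, 0, 0, 0, ⟨0, 0⟩, 0⟩, 0, 0⟩ 0 0) (.cut .v 20971520 (.cut .d (-2097152) (.void 25 ⟨⟨100000, 0, 0, 0, 0, 0, 0, 0, 0, ⟨0, 0⟩, 0⟩, 0, 0⟩ 0 0) (.cut .v 18874368 (.cut .d (-1048576) (.void 27 ⟨⟨100000, 0, 0, 0, 0, 0, 0, 0, 0, ⟨0, 0⟩, 0⟩, 0, 0⟩ 0 0) (.cut .d (-524288) (.void 27 ⟨⟨100000, 0, 0, 0, 0, 0, 0, 0, 0, ⟨0, 0⟩, 0⟩, 0, 0⟩ 0 0) (.cut .v 17825792 (.cut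 .d (-262144) (.void 29 ⟨⟨100000, 0, 0, 0, 0, 0, 0, 0, 0, ⟨0, 0⟩, 0⟩, 0, 0⟩ 0 0) (.cut .v 17301504 (.cut .s 15122432 (.cut .d (-131072) (.void 31 ⟨⟨100000, 0, 0, 0, 0, 0, 0, 0, 0, ⟨0, 0⟩, 0⟩, 0, 0⟩ 0 0) (.cut .v 17039360 (.cut .s 15097856 (.cut .d (-65536) (.void 33 ⟨⟨100000, 0, 0, 0, 0, 0, 0, 0, 0, ⟨0, 0⟩, 0⟩, 0, 0⟩ 0 0) (.cut .s 15085568 (.cut .s 15079424 (.cut .d (-32768) (.void 33 ⟨⟨0, 0, 0, 0, 0, 100000, 0, 0, 0, ⟨0, 0⟩, 0⟩, 0, 0⟩ 0 0) (.cut .d (-16384) (.pos 33 .mp ⟨⟨177098130, 0, 0, 0, 0, 336656452, 0, 0, 0, ⟨0, 0⟩, 0⟩, 0, 0⟩ 0 0) (.cut .v 16908288 (.cut .d (-8192) (.pos 35 .mp ⟨⟨175608889, 0, 0, 0, 0, 326475159, 0, 0, 0, ⟨0,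 0⟩, 0⟩, 0, 0⟩ 0 0) (.cut .s 15076352 (.pos 35 .mp ⟨⟨182532781, 0, 0, 0, 0, 302518243, 0, 0, 0, ⟨0, 0⟩, 0⟩, 0, 0⟩ 0 0) (.pos 35 .mp ⟨⟨194764690, 0, 0, 0, 0, 298053556, 0, 0, 0, ⟨0, 0⟩, 0⟩, 0, 0⟩ 0 0))) (.pos 36 .mp ⟨⟨195930593, 0, 0, 0, 0, 280640070, 0, 0, 0, ⟨0, 0⟩, 0⟩, 0, 0⟩ 0 0)))) (.pos 33 .mp ⟨⟨212665121, 0, 0, 0, 0, 273202156, 0, 0, 0, ⟨0, 0⟩, 0⟩, 0, 0⟩ 0 0)) (.pos 33 .mp ⟨⟨260074824, 0, 0, 0, 0, 196581476, 0, 0, 0, ⟨0, 0⟩, 0⟩, 0, 0⟩ 0 0))) (.pos 33 .mp ⟨⟨344139248, 0, 0, 0, 0, 76242472, 0, 0, 0, ⟨0, 0⟩, 0⟩, 0, 0⟩ 0 0)) (.pos 34 .mp ⟨⟨377043499, 0, 0, 0, 0, 0, 0, 0, 0, ⟨0, 0⟩, 0⟩, 0, 0⟩ 0 0))) (.pos 31 .mp ⟨⟨431015800, 0, 0, 0,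 0, 0, 0, 0, 0, ⟨0, 0⟩, 0⟩, 0, 0⟩ 0 0)) (.pos 32 .mp ⟨⟨433367889, 0, 0, 0, 0, 0, 0, 0, 0, ⟨0, 0⟩, 0⟩, 0, 0⟩ 0 0))) (.void 30 ⟨⟨100000, 0, 0, 0, 0, 0, 0, 0, 0, ⟨0, 0⟩, 0⟩, 0, 0⟩ 0 0)))) (.void 28 ⟨⟨100000, 0, 0, 0, 0, 0, 0, 0, 0, ⟨0, 0⟩, 0⟩, 0, 0⟩ 0 0))) (.void 26 ⟨⟨100000, 0, 0, 0, 0, 0, 0, 0, 0, ⟨0, 0⟩, 0⟩, 0, 0⟩ 0 0))) (.void 24 ⟨⟨100000, 0, 0, 0, 0, 0, 0, 0, 0, ⟨0, 0⟩, 0⟩, 0, 0⟩ 0 0))) (.void 89 ⟨⟨100000, 0, 0, 0, 0, 0, 0, 0, 0, ⟨0, 0⟩, 0⟩, 0, 0⟩ 0 0)) (.void 96 ⟨⟨100000, 0, 0, 0, 0, 0, 0, 0, 0, ⟨0, 0⟩, 0⟩, 0, 0⟩ 0 0)) (.void 111 ⟨⟨88559, 0, 0, 11441, 0, 0, 0, 0, 0, ⟨0, 0⟩, 0⟩, 0, 0⟩ 0 0))) (.cut .v 16777216 (.cut .v 8388608 (.cut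 .v 4194304 (.cut .v 2097152 (.cut .v 1048576 (.pos 107 .pm ⟨⟨0, 0, 24173908, 0, 0, 0, 0, 0, 12521343, ⟨0, 0⟩, 1983364⟩, 0, 18713⟩ 0 0) (.pos 108 .pm ⟨⟨0, 0, 21024708, 0, 0, 0, 0, 0, 0, ⟨0, 0⟩, 0⟩, 0, 85006⟩ 0 0)) (.pos 98 .pm ⟨⟨0, 0, 21556745, 0, 0, 0, 0, 0, 0, ⟨0, 0⟩, 0⟩, 0, 109294⟩ 0 0)) (.pos 5 .pm ⟨⟨0, 0, 29025243, 0, 0, 0, 0, 0, 0, ⟨0, 0⟩, 0⟩, 0, 153012⟩ 0 0)) (.pos 3 .pm ⟨⟨0, 0, 0, 0, 0, 0, 0, 0, 0, ⟨0, 0⟩, 0⟩, 0, 0⟩ 0 0)) (.cut .v 268435456 (.cut .v 67108864 (.cut .d 948278 (.cut .v 33554432 (.cut .d 474139 (.cut .v 25165824 (.cut .v 20971520 (.cut .v 18874368 (.pos 27 .pp ⟨⟨209435334, 0, 0, 0, 0, 0, 0, 0, 0, ⟨0, 0⟩, 0⟩, 22296182,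 0⟩ 0 0) (.pos 28 .pp ⟨⟨379311721, 0, 0, 0, 0, 0, 0, 0, 0, ⟨0, 0⟩, 0⟩, 0, 0⟩ 0 0)) (.pos 26 .pp ⟨⟨508272636, 0, 0, 0, 0, 0, 0, 0, 0, ⟨0, 0⟩, 0⟩, 0, 0⟩ 0 0)) (.pos 24 .pp ⟨⟨0, 0, 0, 0, 0, 0, 0, 0, 0, ⟨0, 0⟩, 0⟩, 175832283, 0⟩ 0 0)) (.pos 22 .pp ⟨⟨0, 0, 0, 0, 0, 0, 0, 0, 0, ⟨0, 0⟩, 0⟩, 55965508, 206207⟩ 0 0)) (.pos 89 .pp ⟨⟨0, 756443826, 0, 0, 0, 0, 0, 0, 0, ⟨0, 0⟩, 0⟩, 337799270, 0⟩ 0 0)) (.pos 88 .pp ⟨⟨0, 64270622, 0, 0, 0, 0, 0, 0, 0, ⟨0, 0⟩, 0⟩, 0, 382529⟩ 0 0)) (.void 96 ⟨⟨0, 0, 0, 51510, 0, 0, 0, 0, 0, ⟨0, 0⟩, 0⟩, 48490, 0⟩ 0 0)) (.void 111 ⟨⟨0, 0, 0, 0, 0, 0, 0, 0, 0, ⟨0, 0⟩, 0⟩, 100000, 0⟩ 0 0)))),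
    by decide +kernel⟩

def covers34 : cell.Covers Vale.Agent.P237.Petty.Cor.Grid.N6.table row34.1 :=
  ⟨(.cut .d 0 (.cut .v 16777216 (.cut .v 8388608 (.void 2 ⟨⟨0, 0, 100000, 0, 0, 0, 0, 0, 0, ⟨0, 0⟩, 0⟩, 0, 0⟩ 0 0) (.cut .d (-8388608) (.void 3 ⟨⟨100000, 0, 0, 0, 0, 0, 0, 0, 0, ⟨0, 0⟩, 0⟩, 0, 0⟩ 0 0) (.cut .d (-4194304) (.void 3 ⟨⟨100000, 0, 0, 0, 0, 0, 0, 0, 0, ⟨0, 0⟩, 0⟩, 0, 0⟩ 0 0) (.pos 3 .mm ⟨⟨0, 0, 0, 0, 0, 1685085179, 0, 0, 0, ⟨0, 0⟩, 0⟩, 0, 0⟩ 0 0)))) (.cut .v 268435456 (.cut .v 67108864 (.cut .v 33554432 (.cut .d (-8388608) (.void 22 ⟨⟨100003, 0, 0, 0, 0, 0, 0, 0, 0, ⟨0, 0⟩, 0⟩, 0, 0⟩ 0 0) (.cut .v 25165824 (.cut .d (-4194304)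 (.void 23 ⟨⟨100000, 0, 0, 0, 0, 0, 0, 0, 0, ⟨0, 0⟩, 0⟩, 0, 0⟩ 0 0) (.cut .v 20971520 (.cut .d (-2097152) (.void 25 ⟨⟨100000, 0, 0, 0, 0, 0, 0, 0, 0, ⟨0, 0⟩, 0⟩, 0, 0⟩ 0 0) (.cut .d (-1048576) (.void 25 ⟨⟨100000, 0, 0, 0, 0, 0, 0, 0, 0, ⟨0, 0⟩, 0⟩, 0, 0⟩ 0 0) (.pos 25 .mp ⟨⟨390506659, 0, 0, 0, 0, 710189834, 0, 0, 0, ⟨0, 0⟩, 0⟩, 0, 0⟩ 0 0))) (.void 26 ⟨⟨100000, 0, 0, 0, 0, 0, 0, 0, 0, ⟨0, 0⟩, 0⟩, 0, 0⟩ 0 0))) (.void 24 ⟨⟨100000, 0, 0, 0, 0, 0, 0, 0, 0, ⟨0, 0⟩, 0⟩, 0, 0⟩ 0 0))) (.void 89 ⟨⟨100000, 0, 0, 0, 0, 0, 0, 0, 0, ⟨0, 0⟩, 0⟩, 0, 0⟩ 0 0)) (.void 96 ⟨⟨100000, 0, 0, 0, 0, 0, 0, 0, 0, ⟨0, 0⟩, 0⟩, 0, 0⟩ 0 0)) (.void 111 ⟨⟨88494, 0, 0,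 11506, 0, 0, 0, 0, 0, ⟨0, 0⟩, 0⟩, 0, 0⟩ 0 0))) (.cut .v 16777216 (.cut .v 8388608 (.cut .v 4194304 (.cut .v 2097152 (.cut .v 1048576 (.pos 107 .pm ⟨⟨0, 0, 23080644, 0, 0, 0, 0, 0, 0, ⟨0, 0⟩, 0⟩, 0, 53946⟩ 0 0) (.pos 108 .pm ⟨⟨0, 0, 25778952, 0, 0, 0, 0, 0, 0, ⟨0, 0⟩, 0⟩, 0, 134498⟩ 0 0)) (.pos 98 .pm ⟨⟨0, 0, 28328150, 0, 0, 0, 0, 0, 0, ⟨0, 0⟩, 0⟩, 0, 185113⟩ 0 0)) (.pos 5 .pm ⟨⟨0, 0, 40136071, 0, 0, 0, 0, 0, 0, ⟨0, 0⟩, 0⟩, 0, 290842⟩ 0 0)) (.pos 3 .pm ⟨⟨0, 0, 0, 0, 0, 0, 0, 0, 0, ⟨0, 0⟩, 0⟩, 0, 0⟩ 0 0)) (.cut .v 268435456 (.cut .v 67108864 (.cut .d 887780 (.cut .v 33554432 (.cut .d 443890 (.cut .v 25165824 (.cut .v 20971520 (.cut .v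 18874368 (.pos 27 .pp ⟨⟨334444424, 0, 0, 0, 0, 0, 0, 0, 0, ⟨0, 0⟩, 0⟩, 0, 280600⟩ 0 0) (.pos 28 .pp ⟨⟨427126014, 0, 0, 0, 0, 0, 0, 0, 0, ⟨0, 0⟩, 0⟩, 0, 370232⟩ 0 0)) (.pos 26 .pp ⟨⟨573581833, 0, 0, 0, 0, 0, 723761, 0, 0, ⟨0, 0⟩, 0⟩, 0, 0⟩ 0 0)) (.pos 24 .pp ⟨⟨0, 0, 0, 0, 0, 0, 641155, 0, 0, ⟨0, 0⟩, 0⟩, 198440339, 0⟩ 0 0)) (.pos 22 .pp ⟨⟨0, 0, 0, 0, 0, 0, 0, 0, 0, ⟨0, 0⟩, 0⟩, 65560771, 557554⟩ 0 0)) (.pos 89 .pp ⟨⟨0, 850264858, 0, 0, 0, 0, 0, 0, 0, ⟨0, 0⟩, 0⟩, 378455745, 0⟩ 0 0)) (.pos 88 .pp ⟨⟨0, 231242764, 0, 0, 0, 0, 0, 0, 0, ⟨0, 0⟩, 0⟩, 0, 727106⟩ 0 0)) (.void 96 ⟨⟨0, 0, 0, 51623, 0, 0, 0, 0, 0, ⟨0, 0⟩, 0⟩, 48377, 0⟩ 0 0)) (.void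 111 ⟨⟨0, 0, 0, 0, 0, 0, 0, 0, 0, ⟨0, 0⟩, 0⟩, 100000, 0⟩ 0 0)))),
    by decide +kernel⟩

def covers35 : cell.Covers Vale.Agent.P237.Petty.Cor.Grid.N6.table row35.1 :=
  ⟨(.cut .d 0 (.cut .v 16777216 (.cut .v 8388608 (.void 2 ⟨⟨0, 0, 100000, 0, 0, 0, 0, 0, 0, ⟨0, 0⟩, 0⟩, 0, 0⟩ 0 0) (.cut .d (-8388608) (.void 3 ⟨⟨100000, 0, 0, 0, 0, 0, 0, 0, 0, ⟨0, 0⟩, 0⟩, 0, 0⟩ 0 0) (.cut .d (-4194304) (.void 3 ⟨⟨100000, 0, 0, 0, 0, 0, 0, 0, 0, ⟨0, 0⟩, 0⟩, 0, 0⟩ 0 0) (.pos 3 .mm ⟨⟨0, 0, 0, 0, 0, 2037334226, 0, 0, 0, ⟨0, 0⟩, 0⟩, 0, 0⟩ 0 0)))) (.cut .v 268435456 (.cut .v 67108864 (.cut .v 33554432 (.cut .d (-8388608) (.void 22 ⟨⟨100000, 0, 0, 0, 0, 0,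 0, 0, 0, ⟨0, 0⟩, 0⟩, 0, 0⟩ 0 0) (.cut .v 25165824 (.cut .d (-4194304) (.void 23 ⟨⟨100000, 0, 0, 0, 0, 0, 0, 0, 0, ⟨0, 0⟩, 0⟩, 0, 0⟩ 0 0) (.cut .v 20971520 (.cut .d (-2097152) (.void 25 ⟨⟨100000, 0, 0, 0, 0, 0, 0, 0, 0, ⟨0, 0⟩, 0⟩, 0, 0⟩ 0 0) (.cut .d (-1048576) (.void 25 ⟨⟨100000, 0, 0, 0, 0, 0, 0, 0, 0, ⟨0, 0⟩, 0⟩, 0, 0⟩ 0 0) (.pos 25 .mp ⟨⟨461644279, 0, 0, 0, 0, 839185181, 0, 0, 0, ⟨0, 0⟩, 0⟩, 0, 0⟩ 0 0))) (.void 26 ⟨⟨100000, 0, 0, 0, 0, 0, 0, 0, 0, ⟨0, 0⟩, 0⟩, 0, 0⟩ 0 0))) (.void 24 ⟨⟨100000, 0, 0, 0, 0, 0, 0, 0, 0, ⟨0, 0⟩, 0⟩, 0, 0⟩ 0 0))) (.void 89 ⟨⟨100000, 0, 0, 0, 0, 0, 0, 0, 0, ⟨0, 0⟩, 0⟩, 0, 0⟩ 0 0)) (.void 96 ⟨⟨100000, 0,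 0, 0, 0, 0, 0, 0, 0, ⟨0, 0⟩, 0⟩, 0, 0⟩ 0 0)) (.void 111 ⟨⟨88407, 0, 0, 11593, 0, 0, 0, 0, 0, ⟨0, 0⟩, 0⟩, 0, 0⟩ 0 0))) (.cut .v 16777216 (.cut .v 8388608 (.cut .v 4194304 (.cut .v 2097152 (.cut .v 1048576 (.pos 107 .pm ⟨⟨0, 0, 26068988, 0, 0, 0, 0, 0, 0, ⟨0, 0⟩, 0⟩, 0, 48155⟩ 0 0) (.pos 108 .pm ⟨⟨0, 0, 31341005, 0, 0, 0, 0, 0, 0, ⟨0, 0⟩, 0⟩, 0, 103466⟩ 0 0)) (.pos 98 .pm ⟨⟨0, 0, 35983126, 0, 0, 0, 0, 0, 0, ⟨0, 0⟩, 0⟩, 0, 149817⟩ 0 0)) (.pos 5 .pm ⟨⟨0, 0, 54983500, 0, 0, 0, 0, 0, 0, ⟨0, 0⟩, 0⟩, 0, 269670⟩ 0 0)) (.pos 3 .pm ⟨⟨0, 0, 0, 0, 0, 0, 0, 0, 0, ⟨0, 0⟩, 0⟩, 0, 0⟩ 0 0)) (.cut .v 268435456 (.cut .v 67108864 (.cut .d 828061 (.cut .v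 33554432 (.cut .d 414030 (.cut .v 25165824 (.cut .d 207015 (.cut .v 20971520 (.cut .v 18874368 (.pos 27 .pp ⟨⟨398051802, 0, 0, 0, 0, 0, 0, 0, 0, ⟨0, 0⟩, 0⟩, 0, 248371⟩ 0 0) (.pos 28 .pp ⟨⟨531078983, 0, 0, 0, 0, 0, 0, 0, 0, ⟨0, 0⟩, 0⟩, 0, 311332⟩ 0 0)) (.pos 26 .pp ⟨⟨761896169, 0, 0, 0, 0, 0, 0, 0, 0, ⟨0, 0⟩, 0⟩, 0, 226234⟩ 0 0)) (.pos 23 .pp ⟨⟨312905723, 0, 0, 0, 0, 0, 0, 0, 0, ⟨0, 0⟩, 0⟩, 0, 410050⟩ 0 0)) (.pos 24 .pp ⟨⟨0, 0, 0, 0, 0, 0, 572501, 0, 0, ⟨0, 0⟩, 0⟩, 230666162, 0⟩ 0 0)) (.pos 22 .pp ⟨⟨0, 0, 0, 0, 0, 0, 0, 0, 0, ⟨0, 0⟩, 0⟩, 77136607, 512588⟩ 0 0)) (.pos 89 .pp ⟨⟨0, 1064500475, 0, 0, 0, 0, 0, 0, 0, ⟨0, 0⟩, 0⟩, 440118168,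 0⟩ 0 0)) (.pos 88 .pp ⟨⟨0, 442756907, 0, 0, 0, 0, 0, 0, 0, ⟨0, 0⟩, 0⟩, 0, 674176⟩ 0 0)) (.void 96 ⟨⟨0, 0, 0, 51775, 0, 0, 0, 0, 0, ⟨0, 0⟩, 0⟩, 48225, 0⟩ 0 0)) (.void 111 ⟨⟨0, 0, 0, 0, 0, 0, 0, 0, 0, ⟨0, 0⟩, 0⟩, 100000, 0⟩ 0 0)))),
    by decide +kernel⟩

def covers36 : cell.Covers Vale.Agent.P237.Petty.Cor.Grid.N6.table row36.1 :=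
  ⟨(.cut .d 0 (.cut .v 16777216 (.cut .v 8388608 (.void 2 ⟨⟨0, 0, 100000, 0, 0, 0, 0, 0, 0, ⟨0, 0⟩, 0⟩, 0, 0⟩ 0 0) (.cut .d (-8388608) (.void 3 ⟨⟨100000, 0, 0, 0, 0, 0, 0, 0, 0, ⟨0, 0⟩, 0⟩, 0, 0⟩ 0 0) (.cut .d (-4194304) (.void 3 ⟨⟨100000, 0, 0, 0, 0, 0, 0, 0, 0, ⟨0, 0⟩, 0⟩, 0, 0⟩ 0 0) (.pos 3 .mm ⟨⟨0, 0, 0, 0, 0, 2490301605, 0, 0, 0, ⟨0, 0⟩, 0⟩, 0, 0⟩ 0 0)))) (.cut .v 268435456 (.cut .v 67108864 (.cut .v 33554432 (.cut .d (-8388608) (.void 22 ⟨⟨100000, 0, 0, 0, 0, 0, 0, 0, 0, ⟨0, 0⟩, 0⟩, 0, 0⟩ 0 0) (.cut .v 25165824 (.cut .d (-4194304) (.void 23 ⟨⟨100000, 0, 0, 0, 0, 0, 0, 0, 0, ⟨0, 0⟩, 0⟩, 0, 0⟩ 0 0) (.cut .v 20971520 (.cut .d (-2097152)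 (.void 25 ⟨⟨100000, 0, 0, 0, 0, 0, 0, 0, 0, ⟨0, 0⟩, 0⟩, 0, 0⟩ 0 0) (.cut .d (-1048576) (.void 25 ⟨⟨100000, 0, 0, 0, 0, 0, 0, 0, 0, ⟨0, 0⟩, 0⟩, 0, 0⟩ 0 0) (.pos 25 .mp ⟨⟨560778155, 0, 0, 0, 0, 989620020, 0, 0, 0, ⟨0, 0⟩, 0⟩, 0, 0⟩ 0 0))) (.void 26 ⟨⟨100000, 0, 0, 0, 0, 0, 0, 0, 0, ⟨0, 0⟩, 0⟩, 0, 0⟩ 0 0))) (.void 24 ⟨⟨100000, 0, 0, 0, 0, 0, 0, 0, 0, ⟨0, 0⟩, 0⟩, 0, 0⟩ 0 0))) (.void 89 ⟨⟨100000, 0, 0, 0, 0, 0, 0, 0, 0, ⟨0, 0⟩, 0⟩, 0, 0⟩ 0 0)) (.void 96 ⟨⟨100000, 0, 0, 0, 0, 0, 0, 0, 0, ⟨0, 0⟩, 0⟩, 0, 0⟩ 0 0)) (.void 111 ⟨⟨88320, 0, 0, 11496, 0, 0, 0, 0, 0, ⟨0, 0⟩, 0⟩, 0, 0⟩ 0 0))) (.cut .v 16777216 (.cut .v 8388608 (.cut .v 4194304 (.cut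 .v 2097152 (.cut .v 1048576 (.pos 107 .pm ⟨⟨0, 0, 30912108, 0, 0, 0, 0, 0, 0, ⟨0, 0⟩, 0⟩, 0, 42250⟩ 0 0) (.pos 108 .pm ⟨⟨0, 0, 39565808, 0, 0, 0, 0, 0, 0, ⟨0, 0⟩, 0⟩, 0, 92592⟩ 0 0)) (.pos 98 .pm ⟨⟨0, 0, 48608180, 0, 0, 0, 0, 0, 0, ⟨0, 0⟩, 0⟩, 0, 133744⟩ 0 0)) (.pos 5 .pm ⟨⟨0, 0, 88838900, 0, 0, 0, 0, 0, 0, ⟨0, 0⟩, 0⟩, 0, 240740⟩ 0 0)) (.pos 3 .pm ⟨⟨0, 0, 0, 0, 0, 0, 0, 0, 0, ⟨0, 0⟩, 0⟩, 0, 0⟩ 0 0)) (.cut .v 268435456 (.cut .v 67108864 (.cut .d 749621 (.cut .v 33554432 (.cut .d 374810 (.cut .v 25165824 (.cut .d 187405 (.cut .v 20971520 (.cut .v 18874368 (.pos 27 .pp ⟨⟨473264780, 0, 0, 0, 0, 0, 0, 0, 0, ⟨0, 0⟩, 0⟩, 0, 234096⟩ 0 0) (.pos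 28 .pp ⟨⟨631943324, 0, 0, 0, 0, 0, 0, 0, 0, ⟨0, 0⟩, 0⟩, 0, 283992⟩ 0 0)) (.pos 26 .pp ⟨⟨907546248, 0, 0, 0, 0, 0, 0, 0, 0, ⟨0, 0⟩, 0⟩, 0, 209356⟩ 0 0)) (.pos 23 .pp ⟨⟨387371413, 0, 0, 0, 0, 0, 0, 0, 0, ⟨0, 0⟩, 0⟩, 0, 360674⟩ 0 0)) (.pos 24 .pp ⟨⟨0, 0, 0, 0, 0, 0, 536622, 0, 0, ⟨0, 0⟩, 0⟩, 273690563, 0⟩ 0 0)) (.pos 22 .pp ⟨⟨0, 0, 0, 0, 0, 0, 0, 0, 0, ⟨0, 0⟩, 0⟩, 96694027, 452447⟩ 0 0)) (.cut .d 374810 (.void 89 ⟨⟨0, 0, 0, 0, 0, 0, 0, 0, 0, ⟨0, 0⟩, 0⟩, 100000, 0⟩ 0 0) (.pos 89 .pp ⟨⟨0, 339667122, 0, 0, 0, 0, 273282, 0, 0, ⟨0, 0⟩, 0⟩, 345279793, 0⟩ 0 0))) (.pos 88 .pp ⟨⟨0, 815859898, 0, 0, 0, 0, 0, 0, 0, ⟨0, 0⟩, 0⟩, 0, 601849⟩ 0 0)) (.void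 96 ⟨⟨0, 0, 0, 51925, 0, 0, 0, 0, 0, ⟨0, 0⟩, 0⟩, 48075, 0⟩ 0 0)) (.void 111 ⟨⟨0, 0, 0, 0, 0, 0, 0, 0, 0, ⟨0, 0⟩, 0⟩, 100000, 0⟩ 0 0)))),
    by decide +kernel⟩

def covers37 : cell.Covers Vale.Agent.P237.Petty.Cor.Grid.N6.table row37.1 :=
  ⟨(.cut .d 0 (.cut .v 16777216 (.cut .v 8388608 (.void 2 ⟨⟨0, 0, 100000, 0, 0, 0, 0, 0, 0, ⟨0, 0⟩, 0⟩, 0, 0⟩ 0 0) (.cut .d (-8388608) (.void 3 ⟨⟨100000, 0, 0, 0, 0, 0, 0, 0, 0, ⟨0, 0⟩, 0⟩, 0, 0⟩ 0 0) (.cut .d (-4194304) (.void 3 ⟨⟨100000, 0, 0, 0, 0, 0, 0, 0, 0, ⟨0, 0⟩, 0⟩, 0, 0⟩ 0 0) (.cut .d (-2097152) (.void 3 ⟨⟨100000, 0, 0, 0, 0, 0, 0, 0, 0, ⟨0, 0⟩, 0⟩, 0, 0⟩ 0 0) (.pos 3 .mm ⟨⟨0, 0, 0, 0, 0,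 2746768960, 0, 0, 0, ⟨0, 0⟩, 0⟩, 0, 0⟩ 0 0))))) (.cut .v 268435456 (.cut .v 67108864 (.cut .v 33554432 (.cut .d (-8388608) (.void 22 ⟨⟨100000, 0, 0, 0, 0, 0, 0, 0, 0, ⟨0, 0⟩, 0⟩, 0, 0⟩ 0 0) (.cut .v 25165824 (.cut .d (-4194304) (.void 23 ⟨⟨100000, 0, 0, 0, 0, 0, 0, 0, 0, ⟨0, 0⟩, 0⟩, 0, 0⟩ 0 0) (.cut .v 20971520 (.cut .d (-2097152) (.void 25 ⟨⟨100000, 0, 0, 0, 0, 0, 0, 0, 0, ⟨0, 0⟩, 0⟩, 0, 0⟩ 0 0) (.cut .d (-1048576) (.void 25 ⟨⟨100000, 0, 0, 0, 0, 0, 0, 0, 0, ⟨0, 0⟩, 0⟩, 0, 0⟩ 0 0) (.cut .s 15654912 (.pos 25 .mp ⟨⟨685858395, 0, 0, 0, 0, 1167579831, 0, 0, 0, ⟨0, 0⟩, 0⟩, 0, 0⟩ 0 0) (.pos 25 .mp ⟨⟨851080973, 0, 0, 0, 0, 1398261869, 0,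 0, 0, ⟨0, 0⟩, 0⟩, 0, 0⟩ 0 0)))) (.void 26 ⟨⟨100000, 0, 0, 0, 0, 0, 0, 0, 0, ⟨0, 0⟩, 0⟩, 0, 0⟩ 0 0))) (.void 24 ⟨⟨100000, 0, 0, 0, 0, 0, 0, 0, 0, ⟨0, 0⟩, 0⟩, 0, 0⟩ 0 0))) (.void 89 ⟨⟨100000, 0, 0, 0, 0, 0, 0, 0, 0, ⟨0, 0⟩, 0⟩, 0, 0⟩ 0 0)) (.void 96 ⟨⟨99638, 0, 0, 0, 0, 0, 0, 0, 0, ⟨0, 0⟩, 0⟩, 0, 0⟩ 0 0)) (.void 111 ⟨⟨88156, 0, 0, 11844, 0, 0, 0, 0, 0, ⟨0, 0⟩, 0⟩, 0, 0⟩ 0 0))) (.cut .v 16777216 (.cut .v 8388608 (.cut .v 4194304 (.cut .v 2097152 (.cut .v 1048576 (.pos 107 .pm ⟨⟨0, 0, 41294986, 0, 0, 0, 0, 0, 0, ⟨0, 0⟩, 0⟩, 0, 15828⟩ 0 0) (.pos 108 .pm ⟨⟨0, 0, 54641597, 0, 0, 0, 0, 0, 0, ⟨0, 0⟩, 0⟩, 0, 56065⟩ 0 0)) (.pos 98 .pm ⟨⟨0, 0,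 71664202, 0, 0, 0, 0, 0, 0, ⟨0, 0⟩, 0⟩, 0, 110797⟩ 0 0)) (.pos 5 .pm ⟨⟨0, 0, 136758371, 0, 0, 0, 0, 0, 0, ⟨0, 0⟩, 0⟩, 0, 210338⟩ 0 0)) (.pos 3 .pm ⟨⟨0, 0, 0, 0, 0, 0, 0, 0, 0, ⟨0, 0⟩, 0⟩, 0, 0⟩ 0 0)) (.cut .v 268435456 (.cut .v 67108864 (.cut .d 672505 (.cut .v 33554432 (.cut .d 336252 (.cut .v 25165824 (.cut .d 168126 (.cut .v 20971520 (.cut .v 18874368 (.cut .s 15654912 (.pos 27 .pp ⟨⟨570073705, 0, 0, 0, 0, 0, 0, 0, 0, ⟨0, 0⟩, 0⟩, 0, 217413⟩ 0 0) (.pos 27 .pp ⟨⟨691487814, 0, 0, 0, 0, 0, 0, 0, 0, ⟨0, 0⟩, 0⟩, 0, 206186⟩ 0 0)) (.pos 28 .pp ⟨⟨839015206, 0, 0, 0, 0, 0, 0, 0, 0, ⟨0, 0⟩, 0⟩, 0, 222961⟩ 0 0)) (.pos 26 .pp ⟨⟨1274097704, 0,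 0, 0, 0, 0, 0, 0, 0, ⟨0, 0⟩, 0⟩, 0, 131209⟩ 0 0)) (.pos 23 .pp ⟨⟨486232470, 0, 0, 0, 0, 0, 0, 0, 0, ⟨0, 0⟩, 0⟩, 0, 310383⟩ 0 0)) (.cut .d 168126 (.pos 24 .pp ⟨⟨1890280536, 0, 0, 0, 0, 0, 335168, 0, 0, ⟨0, 0⟩, 0⟩, 95100943, 0⟩ 0 0) (.pos 24 .pp ⟨⟨0, 0, 0, 0, 0, 0, 620748, 0, 0, ⟨0, 0⟩, 0⟩, 289937441, 0⟩ 0 0))) (.cut .v 25165824 (.pos 23 .pp ⟨⟨0, 0, 0, 0, 0, 0, 0, 0, 0, ⟨0, 0⟩, 0⟩, 0, 631014⟩ 0 0) (.pos 24 .pp ⟨⟨0, 0, 0, 0, 0, 0, 1121385, 0, 0, ⟨0, 0⟩, 0⟩, 138129193, 0⟩ 0 0))) (.cut .d 336252 (.pos 89 .pp ⟨⟨0, 0, 0, 0, 0, 0, 0, 0, 0, ⟨0, 0⟩, 0⟩, 822574579, 0⟩ 0 0) (.pos 89 .pp ⟨⟨0, 948341332, 0, 0, 0, 0, 0, 0, 0, ⟨0, 0⟩, 0⟩, 482046398,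 0⟩ 0 0))) (.pos 88 .pp ⟨⟨0, 1339625439, 0, 0, 0, 0, 0, 0, 0, ⟨0, 0⟩, 0⟩, 0, 525845⟩ 0 0)) (.void 96 ⟨⟨0, 0, 0, 52207, 0, 0, 0, 0, 0, ⟨0, 0⟩, 0⟩, 47793, 0⟩ 0 0)) (.void 111 ⟨⟨0, 0, 0, 0, 0, 0, 0, 0, 0, ⟨0, 0⟩, 0⟩, 100000, 0⟩ 0 0)))),
    by decide +kernel⟩

def covers38 : cell.Covers Vale.Agent.P237.Petty.Cor.Grid.N6.table row38.1 :=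
  ⟨(.cut .d 0 (.cut .v 16777216 (.cut .v 8388608 (.void 2 ⟨⟨0, 0, 100000, 0, 0, 0, 0, 0, 0, ⟨0, 0⟩, 0⟩, 0, 0⟩ 0 0) (.cut .d (-8388608) (.void 3 ⟨⟨100000, 0, 0, 0, 0, 0, 0, 0, 0, ⟨0, 0⟩, 0⟩, 0, 0⟩ 0 0) (.cut .d (-4194304) (.void 3 ⟨⟨100000, 0, 0, 0, 0, 0, 0, 0, 0, ⟨0, 0⟩, 0⟩, 0, 0⟩ 0 0) (.cut .d (-2097152) (.void 3 ⟨⟨100000, 0, 0, 0, 0, 0, 0, 0, 0, ⟨0, 0⟩, 0⟩, 0, 0⟩ 0 0) (.pos 3 .mm ⟨⟨0, 0, 0, 0, 0, 4035334550, 0, 0, 0, ⟨0, 0⟩, 0⟩, 0, 0⟩ 0 0))))) (.cut .v 268435456 (.cut .v 67108864 (.cut .v 33554432 (.cut .d (-8388608) (.void 22 ⟨⟨100000, 0, 0, 0, 0, 0, 0, 0, 0, ⟨0, 0⟩, 0⟩, 0, 0⟩ 0 0) (.cut .v 25165824 (.cut .d (-4194304) (.void 23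 ⟨⟨100000, 0, 0, 0, 0, 0, 0, 0, 0, ⟨0, 0⟩, 0⟩, 0, 0⟩ 0 0) (.cut .d (-2097152) (.void 23 ⟨⟨100000, 0, 0, 0, 0, 0, 0, 0, 0, ⟨0, 0⟩, 0⟩, 0, 0⟩ 0 0) (.cut .v 20971520 (.cut .d (-1048576) (.void 25 ⟨⟨100000, 0, 0, 0, 0, 0, 0, 0, 0, ⟨0, 0⟩, 0⟩, 0, 0⟩ 0 0) (.cut .s 15876096 (.pos 25 .mp ⟨⟨1042861798, 0, 0, 0, 0, 1610354419, 0, 0, 0, ⟨0, 0⟩, 0⟩, 0, 0⟩ 0 0) (.pos 25 .mp ⟨⟨1283722038, 0, 0, 0, 0, 1908516834, 0, 0, 0, ⟨0, 0⟩, 0⟩, 0, 0⟩ 0 0))) (.void 26 ⟨⟨100000, 0, 0, 0, 0, 0, 0, 0, 0, ⟨0, 0⟩, 0⟩, 0, 0⟩ 0 0)))) (.void 24 ⟨⟨100000, 0, 0, 0, 0, 0, 0, 0, 0, ⟨0, 0⟩, 0⟩, 0, 0⟩ 0 0))) (.void 89 ⟨⟨100000, 0, 0, 0, 0, 0, 0, 0, 0, ⟨0, 0⟩, 0⟩, 0, 0⟩ 0 0))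 (.void 96 ⟨⟨99812, 0, 0, 0, 0, 0, 0, 0, 0, ⟨0, 0⟩, 0⟩, 0, 0⟩ 0 0)) (.void 111 ⟨⟨87988, 0, 0, 11666, 0, 0, 0, 0, 0, ⟨0, 0⟩, 0⟩, 0, 0⟩ 0 0))) (.cut .v 16777216 (.cut .v 8388608 (.cut .v 4194304 (.cut .v 2097152 (.cut .v 1048576 (.cut .v 524288 (.pos 116 .pm ⟨⟨0, 0, 42011441, 0, 0, 0, 0, 0, 0, ⟨0, 0⟩, 0⟩, 0, 5766⟩ 0 0) (.pos 117 .pm ⟨⟨0, 0, 64741531, 0, 0, 0, 0, 0, 0, ⟨0, 0⟩, 0⟩, 0, 21066⟩ 0 0)) (.pos 108 .pm ⟨⟨0, 0, 87704590, 0, 0, 0, 0, 0, 0, ⟨0, 0⟩, 0⟩, 0, 45193⟩ 0 0)) (.pos 98 .pm ⟨⟨0, 0, 135535093, 0, 0, 0, 0, 0, 0, ⟨0, 0⟩, 0⟩, 0, 79895⟩ 0 0)) (.pos 5 .pm ⟨⟨0, 0, 300117794, 0, 0, 0, 0, 0, 0, ⟨0, 0⟩, 0⟩, 0, 154842⟩ 0 0)) (.pos 3 .pm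 ⟨⟨0, 0, 0, 0, 0, 0, 0, 0, 0, ⟨0, 0⟩, 0⟩, 0, 0⟩ 0 0)) (.cut .v 268435456 (.cut .v 67108864 (.cut .d 531367 (.cut .v 33554432 (.cut .v 25165824 (.cut .d 265683 (.cut .d 132841 (.cut .v 20971520 (.cut .v 18874368 (.cut .s 15876096 (.pos 27 .pp ⟨⟨849593300, 0, 0, 0, 0, 0, 0, 0, 0, ⟨0, 0⟩, 0⟩, 0, 171064⟩ 0 0) (.pos 27 .pp ⟨⟨1024473218, 0, 0, 0, 0, 0, 0, 0, 0, ⟨0, 0⟩, 0⟩, 0, 157771⟩ 0 0)) (.pos 28 .pp ⟨⟨1230583000, 0, 0, 0, 0, 0, 0, 0, 0, ⟨0, 0⟩, 0⟩, 0, 177016⟩ 0 0)) (.pos 26 .pp ⟨⟨1854173081, 0, 0, 0, 0, 0, 0, 0, 0, ⟨0, 0⟩, 0⟩, 0, 112424⟩ 0 0)) (.pos 23 .pp ⟨⟨0, 0, 0, 0, 0, 0, 0, 0, 0, ⟨0, 0⟩, 0⟩, 191413964, 286989⟩ 0 0)) (.pos 23 .pp ⟨⟨0,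 0, 0, 0, 0, 0, 0, 0, 0, ⟨0, 0⟩, 0⟩, 0, 464525⟩ 0 0)) (.cut .d 265683 (.cut .d 132841 (.pos 24 .pp ⟨⟨2211273996, 0, 0, 0, 0, 0, 290963, 0, 0, ⟨0, 0⟩, 0⟩, 229689396, 0⟩ 0 0) (.cut .v 29360128 (.pos 114 .pp ⟨⟨0, 0, 0, 0, 0, 0, 561853, 0, 0, ⟨0, 0⟩, 0⟩, 381968496, 0⟩ 0 0) (.pos 115 .pp ⟨⟨0, 0, 0, 0, 0, 0, 458112, 0, 0, ⟨0, 0⟩, 0⟩, 558185445, 0⟩ 0 0))) (.pos 24 .pp ⟨⟨0, 0, 0, 0, 0, 0, 790578, 0, 0, ⟨0, 0⟩, 0⟩, 236166355, 0⟩ 0 0))) (.cut .d 265683 (.pos 89 .pp ⟨⟨0, 0, 0, 0, 0, 0, 0, 0, 0, ⟨0, 0⟩, 0⟩, 1182980242, 0⟩ 0 0) (.pos 89 .pp ⟨⟨0, 1801748953, 0, 0, 0, 0, 1572, 0, 0, ⟨0, 0⟩, 0⟩, 739373204, 0⟩ 0 0))) (.pos 88 .pp ⟨⟨0, 2968629794, 0,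 0, 0, 0, 0, 0, 0, ⟨0, 0⟩, 0⟩, 0, 387104⟩ 0 0)) (.void 96 ⟨⟨0, 0, 0, 52430, 0, 0, 0, 0, 0, ⟨0, 0⟩, 0⟩, 47570, 0⟩ 0 0)) (.void 111 ⟨⟨0, 0, 0, 0, 0, 0, 0, 0, 0, ⟨0, 0⟩, 0⟩, 100000, 0⟩ 0 0)))),
    by decide +kernel⟩

def covers39 : cell.Covers Vale.Agent.P237.Petty.Cor.Grid.N6.table row39.1 :=
  ⟨(.cut .d 0 (.cut .v 16777216 (.cut .v 8388608 (.void 2 ⟨⟨0, 0, 100000, 0, 0, 0, 0, 0, 0, ⟨0, 0⟩, 0⟩, 0, 0⟩ 0 0) (.cut .d (-8388608) (.void 3 ⟨⟨100000, 0, 0, 0, 0, 0, 0, 0, 0, ⟨0, 0⟩, 0⟩, 0, 0⟩ 0 0) (.cut .d (-4194304) (.void 3 ⟨⟨100000, 0, 0, 0, 0, 0, 0, 0, 0, ⟨0, 0⟩, 0⟩, 0, 0⟩ 0 0) (.cut .d (-2097152) (.void 3 ⟨⟨100000, 0, 0, 0, 0, 0, 0, 0, 0,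 ⟨0, 0⟩, 0⟩, 0, 0⟩ 0 0) (.pos 3 .mm ⟨⟨0, 0, 0, 0, 0, 5904219504, 0, 0, 0, ⟨0, 0⟩, 0⟩, 0, 0⟩ 0 0))))) (.cut .v 268435456 (.cut .v 67108864 (.cut .v 33554432 (.cut .d (-8388608) (.void 22 ⟨⟨100000, 0, 0, 0, 0, 0, 0, 0, 0, ⟨0, 0⟩, 0⟩, 0, 0⟩ 0 0) (.cut .v 25165824 (.cut .d (-4194304) (.void 23 ⟨⟨100000, 0, 0, 0, 0, 0, 0, 0, 0, ⟨0, 0⟩, 0⟩, 0, 0⟩ 0 0) (.cut .d (-2097152) (.void 23 ⟨⟨100000, 0, 0, 0, 0, 0, 0, 0, 0, ⟨0, 0⟩, 0⟩, 0, 0⟩ 0 0) (.cut .v 20971520 (.cut .d (-1048576) (.void 25 ⟨⟨100000, 0, 0, 0, 0, 0, 0, 0, 0, ⟨0, 0⟩, 0⟩, 0, 0⟩ 0 0) (.cut .s 16056320 (.pos 25 .mp ⟨⟨1570417198, 0, 0, 0, 0, 2199057599, 0, 0, 0, ⟨0, 0⟩, 0⟩, 0, 0⟩ 0 0)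 (.pos 25 .mp ⟨⟨1938496391, 0, 0, 0, 0, 2604820712, 0, 0, 0, ⟨0, 0⟩, 0⟩, 0, 0⟩ 0 0))) (.void 26 ⟨⟨100000, 0, 0, 0, 0, 0, 0, 0, 0, ⟨0, 0⟩, 0⟩, 0, 0⟩ 0 0)))) (.void 24 ⟨⟨100000, 0, 0, 0, 0, 0, 0, 0, 0, ⟨0, 0⟩, 0⟩, 0, 0⟩ 0 0))) (.void 89 ⟨⟨100000, 0, 0, 0, 0, 0, 0, 0, 0, ⟨0, 0⟩, 0⟩, 0, 0⟩ 0 0)) (.void 96 ⟨⟨87926, 0, 0, 12074, 0, 0, 0, 0, 0, ⟨0, 0⟩, 0⟩, 0, 0⟩ 0 0)) (.void 111 ⟨⟨88126, 0, 0, 12348, 0, 0, 0, 0, 0, ⟨0, 0⟩, 0⟩, 0, 0⟩ 0 0))) (.cut .v 16777216 (.cut .v 8388608 (.cut .v 4194304 (.cut .v 2097152 (.cut .v 1048576 (.cut .v 524288 (.pos 116 .pm ⟨⟨0, 0, 55011367, 0, 0, 0, 0, 0, 0, ⟨0, 0⟩, 0⟩, 0, 4024⟩ 0 0) (.pos 117 .pm ⟨⟨0, 0, 95115111,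 0, 0, 0, 0, 0, 0, ⟨0, 0⟩, 0⟩, 0, 15033⟩ 0 0)) (.pos 108 .pm ⟨⟨0, 0, 141672785, 0, 0, 0, 0, 0, 0, ⟨0, 0⟩, 0⟩, 0, 30024⟩ 0 0)) (.pos 98 .pm ⟨⟨0, 0, 239696777, 0, 0, 0, 0, 0, 0, ⟨0, 0⟩, 0⟩, 0, 55758⟩ 0 0)) (.pos 5 .pm ⟨⟨0, 0, 563400351, 0, 0, 0, 0, 0, 0, ⟨0, 0⟩, 0⟩, 0, 111578⟩ 0 0)) (.pos 3 .pm ⟨⟨0, 0, 0, 0, 0, 0, 0, 0, 0, ⟨0, 0⟩, 0⟩, 0, 0⟩ 0 0)) (.cut .v 268435456 (.cut .v 67108864 (.cut .v 33554432 (.cut .d 421582 (.cut .v 25165824 (.cut .d 210791 (.cut .d 105395 (.cut .v 20971520 (.cut .d 52697 (.cut .v 18874368 (.cut .s 16056320 (.pos 27 .pp ⟨⟨1235689938, 0, 0, 0, 0, 0, 0, 0, 0, ⟨0, 0⟩, 0⟩, 0, 136948⟩ 0 0) (.pos 27 .pp ⟨⟨1509828466,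 0, 0, 0, 0, 0, 0, 0, 0, ⟨0, 0⟩, 0⟩, 0, 116923⟩ 0 0)) (.pos 28 .pp ⟨⟨2055547490, 0, 0, 0, 0, 0, 0, 0, 0, ⟨0, 0⟩, 0⟩, 0, 110946⟩ 0 0)) (.pos 25 .pp ⟨⟨938247235, 0, 0, 0, 0, 0, 0, 0, 0, ⟨0, 0⟩, 0⟩, 0, 185198⟩ 0 0)) (.pos 26 .pp ⟨⟨2707677622, 0, 0, 0, 0, 0, 0, 0, 0, ⟨0, 0⟩, 0⟩, 0, 90151⟩ 0 0)) (.pos 23 .pp ⟨⟨0, 0, 0, 0, 0, 0, 0, 0, 0, ⟨0, 0⟩, 0⟩, 296069998, 205530⟩ 0 0)) (.pos 23 .pp ⟨⟨0, 0, 0, 0, 0, 0, 0, 0, 0, ⟨0, 0⟩, 0⟩, 0, 334734⟩ 0 0)) (.cut .d 210791 (.cut .d 105395 (.pos 24 .pp ⟨⟨2632878804, 0, 0, 0, 0, 0, 230554, 0, 0, ⟨0, 0⟩, 0⟩, 438708967, 0⟩ 0 0) (.cut .v 29360128 (.pos 114 .pp ⟨⟨0, 0, 0, 0, 0, 0, 416120, 0, 0, ⟨0, 0⟩, 0⟩, 565482429,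 0⟩ 0 0) (.pos 115 .pp ⟨⟨0, 0, 0, 0, 0, 0, 347725, 0, 0, ⟨0, 0⟩, 0⟩, 816627568, 0⟩ 0 0))) (.pos 24 .pp ⟨⟨0, 0, 0, 0, 0, 0, 549678, 0, 0, ⟨0, 0⟩, 0⟩, 385921168, 0⟩ 0 0))) (.pos 22 .pp ⟨⟨0, 473397792, 0, 0, 0, 0, 0, 0, 0, ⟨0, 0⟩, 0⟩, 0, 278945⟩ 0 0)) (.cut .d 421582 (.cut .d 210791 (.pos 89 .pp ⟨⟨0, 0, 0, 0, 0, 0, 0, 0, 0, ⟨0, 0⟩, 0⟩, 1716657914, 0⟩ 0 0) (.cut .v 50331648 (.pos 112 .pp ⟨⟨0, 1334269464, 0, 0, 0, 0, 219067, 0, 0, ⟨0, 0⟩, 0⟩, 904042275, 0⟩ 0 0) (.void 113 ⟨⟨0, 0, 0, 52616, 0, 0, 0, 0, 0, ⟨0, 0⟩, 0⟩, 47384, 0⟩ 0 0))) (.void 89 ⟨⟨0, 0, 0, 100000, 0, 0, 0, 0, 0, ⟨0, 0⟩, 0⟩, 0, 0⟩ 0 0))) (.void 96 ⟨⟨0, 0, 0, 52616, 0, 0, 0, 0,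 0, ⟨0, 0⟩, 0⟩, 47384, 0⟩ 0 0)) (.void 111 ⟨⟨0, 0, 0, 0, 0, 0, 0, 0, 0, ⟨0, 0⟩, 0⟩, 100000, 0⟩ 0 0)))),
    by decide +kernel⟩

def covers40 : cell.Covers Vale.Agent.P237.Petty.Cor.Grid.N6.table row40.1 :=
  ⟨(.cut .d 0 (.cut .v 16777216 (.cut .v 8388608 (.void 2 ⟨⟨0, 0, 100000, 0, 0, 0, 0, 0, 0, ⟨0, 0⟩, 0⟩, 0, 0⟩ 0 0) (.cut .d (-8388608) (.void 3 ⟨⟨100000, 0, 0, 0, 0, 0, 0, 0, 0, ⟨0, 0⟩, 0⟩, 0, 0⟩ 0 0) (.cut .d (-4194304) (.void 3 ⟨⟨100000, 0, 0, 0, 0, 0, 0, 0, 0, ⟨0, 0⟩, 0⟩, 0, 0⟩ 0 0) (.cut .d (-2097152) (.void 3 ⟨⟨100000, 0, 0, 0, 0, 0, 0, 0, 0, ⟨0, 0⟩, 0⟩, 0, 0⟩ 0 0) (.pos 3 .mm ⟨⟨0, 0, 0, 0, 0, 8521748655, 0, 0, 0, ⟨0, 0⟩, 0⟩,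 0, 0⟩ 0 0))))) (.cut .v 268435456 (.cut .v 67108864 (.cut .v 33554432 (.cut .d (-8388608) (.void 22 ⟨⟨100000, 0, 0, 0, 0, 0, 0, 0, 0, ⟨0, 0⟩, 0⟩, 0, 0⟩ 0 0) (.cut .v 25165824 (.cut .d (-4194304) (.void 23 ⟨⟨100000, 0, 0, 0, 0, 0, 0, 0, 0, ⟨0, 0⟩, 0⟩, 0, 0⟩ 0 0) (.cut .d (-2097152) (.void 23 ⟨⟨100000, 0, 0, 0, 0, 0, 0, 0, 0, ⟨0, 0⟩, 0⟩, 0, 0⟩ 0 0) (.cut .v 20971520 (.cut .s 16203776 (.pos 25 .mp ⟨⟨2250444995, 0, 0, 0, 0, 4905299898, 0, 0, 0, ⟨0, 0⟩, 0⟩, 0, 0⟩ 0 0) (.pos 25 .mp ⟨⟨2770187433, 0, 0, 0, 0, 5809606370, 0, 0, 0, ⟨0, 0⟩, 0⟩, 0, 0⟩ 0 0)) (.void 26 ⟨⟨100000, 0, 0, 0, 0, 0, 0, 0, 0, ⟨0, 0⟩, 0⟩, 0, 0⟩ 0 0)))) (.void 24 ⟨⟨100000,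 0, 0, 0, 0, 0, 0, 0, 0, ⟨0, 0⟩, 0⟩, 0, 0⟩ 0 0))) (.void 89 ⟨⟨100000, 0, 0, 0, 0, 0, 0, 0, 0, ⟨0, 0⟩, 0⟩, 0, 0⟩ 0 0)) (.void 96 ⟨⟨87837, 0, 0, 12163, 0, 0, 0, 0, 0, ⟨0, 0⟩, 0⟩, 0, 0⟩ 0 0)) (.void 111 ⟨⟨19586, 0, 0, 892, 0, 0, 0, 0, 0, ⟨0, 0⟩, 0⟩, 0, 0⟩ 0 0))) (.cut .v 16777216 (.cut .v 8388608 (.cut .v 4194304 (.cut .v 2097152 (.cut .v 1048576 (.cut .v 524288 (.pos 116 .pm ⟨⟨0, 0, 74833666, 0, 0, 0, 0, 0, 0, ⟨0, 0⟩, 0⟩, 0, 2760⟩ 0 0) (.pos 117 .pm ⟨⟨0, 0, 142520638, 0, 0, 0, 0, 0, 0, ⟨0, 0⟩, 0⟩, 0, 10421⟩ 0 0)) (.pos 108 .pm ⟨⟨0, 0, 227932812, 0, 0, 0, 0, 0, 0, ⟨0, 0⟩, 0⟩, 0, 20594⟩ 0 0)) (.pos 98 .pm ⟨⟨0, 0, 406532935, 0, 0, 0, 0, 0,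 0, ⟨0, 0⟩, 0⟩, 0, 38246⟩ 0 0)) (.pos 5 .pm ⟨⟨0, 0, 988878321, 0, 0, 0, 0, 0, 0, ⟨0, 0⟩, 0⟩, 0, 77886⟩ 0 0)) (.pos 3 .pm ⟨⟨0, 0, 0, 0, 0, 0, 0, 0, 0, ⟨0, 0⟩, 0⟩, 0, 0⟩ 0 0)) (.cut .v 268435456 (.cut .v 67108864 (.cut .v 33554432 (.cut .d 332139 (.cut .v 25165824 (.cut .d 166069 (.cut .d 83034 (.cut .v 20971520 (.cut .d 41517 (.cut .v 18874368 (.cut .s 16203776 (.pos 27 .pp ⟨⟨1826043010, 0, 0, 0, 0, 0, 0, 0, 0, ⟨0, 0⟩, 0⟩, 0, 97708⟩ 0 0) (.pos 27 .pp ⟨⟨2223374577, 0, 0, 0, 0, 0, 0, 0, 0, ⟨0, 0⟩, 0⟩, 0, 82442⟩ 0 0)) (.pos 28 .pp ⟨⟨3009581981, 0, 0, 0, 0, 0, 0, 0, 0, ⟨0, 0⟩, 0⟩, 0, 82602⟩ 0 0)) (.pos 25 .pp ⟨⟨1425475785, 0, 0, 0, 0, 0,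 0, 0, 0, ⟨0, 0⟩, 0⟩, 0, 129530⟩ 0 0)) (.cut .v 23068672 (.pos 118 .pp ⟨⟨3471142371, 0, 0, 0, 0, 0, 0, 0, 0, ⟨0, 0⟩, 0⟩, 0, 87305⟩ 0 0) (.pos 119 .pp ⟨⟨4279000276, 0, 0, 0, 0, 0, 220561, 0, 0, ⟨0, 0⟩, 0⟩, 0, 0⟩ 0 0))) (.pos 23 .pp ⟨⟨0, 0, 0, 0, 0, 0, 0, 0, 0, ⟨0, 0⟩, 0⟩, 451415814, 143487⟩ 0 0)) (.pos 23 .pp ⟨⟨0, 0, 0, 0, 0, 0, 0, 0, 0, ⟨0, 0⟩, 0⟩, 0, 233659⟩ 0 0)) (.cut .d 166069 (.cut .d 83034 (.pos 24 .pp ⟨⟨3157978215, 0, 0, 0, 0, 0, 172479, 0, 0, ⟨0, 0⟩, 0⟩, 757587297, 0⟩ 0 0) (.cut .v 29360128 (.pos 114 .pp ⟨⟨0, 0, 0, 0, 0, 0, 298551, 0, 0, ⟨0, 0⟩, 0⟩, 838784347, 0⟩ 0 0) (.pos 115 .pp ⟨⟨0, 0, 0, 0, 0, 0, 253486, 0, 0, ⟨0, 0⟩, 0⟩,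 1197624825, 0⟩ 0 0))) (.pos 24 .pp ⟨⟨0, 0, 0, 0, 0, 0, 372587, 0, 0, ⟨0, 0⟩, 0⟩, 621302802, 0⟩ 0 0))) (.pos 22 .pp ⟨⟨0, 1256745299, 0, 0, 0, 0, 0, 0, 0, ⟨0, 0⟩, 0⟩, 0, 194716⟩ 0 0)) (.cut .v 50331648 (.cut .d 332139 (.cut .d 166069 (.void 112 ⟨⟨0, 0, 0, 0, 0, 0, 0, 0, 0, ⟨0, 0⟩, 0⟩, 100000, 0⟩ 0 0) (.pos 112 .pp ⟨⟨0, 2393899968, 0, 0, 0, 0, 161691, 0, 0, ⟨0, 0⟩, 0⟩, 1359551824, 0⟩ 0 0)) (.void 112 ⟨⟨0, 0, 0, 100000, 0, 0, 0, 0, 0, ⟨0, 0⟩, 0⟩, 0, 0⟩ 0 0)) (.void 113 ⟨⟨0, 0, 0, 52764, 0, 0, 0, 0, 0, ⟨0, 0⟩, 0⟩, 47236, 0⟩ 0 0))) (.void 96 ⟨⟨0, 0, 0, 52764, 0, 0, 0, 0, 0, ⟨0, 0⟩, 0⟩, 47236, 0⟩ 0 0)) (.void 111 ⟨⟨0, 0, 0, 0, 0, 0, 0, 0,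 0, ⟨0, 0⟩, 0⟩, 100000, 0⟩ 0 0)))),
    by decide +kernel⟩

def covers41 : cell.Covers Vale.Agent.P237.Petty.Cor.Grid.N6.table row41.1 :=
  ⟨(.cut .d 0 (.cut .v 16777216 (.cut .v 8388608 (.void 2 ⟨⟨0, 0, 100000, 0, 0, 0, 0, 0, 0, ⟨0, 0⟩, 0⟩, 0, 0⟩ 0 0) (.cut .d (-8388608) (.void 3 ⟨⟨100000, 0, 0, 0, 0, 0, 0, 0, 0, ⟨0, 0⟩, 0⟩, 0, 0⟩ 0 0) (.cut .d (-4194304) (.void 3 ⟨⟨100000, 0, 0, 0, 0, 0, 0, 0, 0, ⟨0, 0⟩, 0⟩, 0, 0⟩ 0 0) (.pos 3 .mm ⟨⟨0, 0, 0, 0, 0, 15908171264, 0, 0, 0, ⟨0, 0⟩, 0⟩, 0, 0⟩ 0 0)))) (.cut .v 268435456 (.cut .v 67108864 (.cut .v 33554432 (.cut .d (-8388608) (.void 22 ⟨⟨100005, 0, 0, 0, 0, 0, 0, 0, 0, ⟨0, 0⟩, 0⟩, 0, 0⟩ 0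 0) (.cut .v 25165824 (.cut .d (-4194304) (.void 23 ⟨⟨100000, 0, 0, 0, 0, 0, 0, 0, 0, ⟨0, 0⟩, 0⟩, 0, 0⟩ 0 0) (.cut .d (-2097152) (.void 23 ⟨⟨100000, 0, 0, 0, 0, 0, 0, 0, 0, ⟨0, 0⟩, 0⟩, 0, 0⟩ 0 0) (.cut .v 20971520 (.cut .s 16318464 (.pos 25 .mp ⟨⟨3351983101, 0, 0, 0, 0, 6568194453, 0, 0, 0, ⟨0, 0⟩, 0⟩, 0, 0⟩ 0 0) (.pos 25 .mp ⟨⟨4056590204, 0, 0, 0, 0, 7640110958, 0, 0, 0, ⟨0, 0⟩, 0⟩, 0, 0⟩ 0 0)) (.void 26 ⟨⟨100000, 0, 0, 0, 0, 0, 0, 0, 0, ⟨0, 0⟩, 0⟩, 0, 0⟩ 0 0)))) (.void 24 ⟨⟨100000, 0, 0, 0, 0, 0, 0, 0, 0, ⟨0, 0⟩, 0⟩, 0, 0⟩ 0 0))) (.void 89 ⟨⟨100000, 0, 0, 0, 0, 0, 0, 0, 0, ⟨0, 0⟩, 0⟩, 0, 0⟩ 0 0)) (.void 96 ⟨⟨83982, 0, 0, 11585, 0,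 0, 0, 0, 0, ⟨0, 0⟩, 0⟩, 0, 0⟩ 0 0)) (.void 111 ⟨⟨128866, 0, 0, 13363, 0, 0, 0, 0, 0, ⟨0, 0⟩, 0⟩, 0, 0⟩ 0 0))) (.cut .v 16777216 (.cut .v 8388608 (.cut .v 4194304 (.cut .v 2097152 (.cut .v 1048576 (.cut .v 524288 (.pos 116 .pm ⟨⟨0, 0, 101986840, 0, 0, 0, 0, 0, 0, ⟨0, 0⟩, 0⟩, 0, 0⟩ 0 0) (.pos 117 .pm ⟨⟨0, 0, 209066056, 0, 0, 0, 0, 0, 0, ⟨0, 0⟩, 0⟩, 0, 8103⟩ 0 0)) (.pos 108 .pm ⟨⟨0, 0, 353687246, 0, 0, 0, 0, 0, 0, ⟨0, 0⟩, 0⟩, 0, 14307⟩ 0 0)) (.pos 98 .pm ⟨⟨0, 0, 655275701, 0, 0, 0, 0, 0, 0, ⟨0, 0⟩, 0⟩, 0, 27791⟩ 0 0)) (.pos 5 .pm ⟨⟨0, 0, 1640811442, 0, 0, 0, 0, 0, 0, ⟨0, 0⟩, 0⟩, 0, 53479⟩ 0 0)) (.pos 3 .pm ⟨⟨0, 0, 0, 0, 0, 0, 0, 0, 0,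 ⟨0, 0⟩, 0⟩, 0, 0⟩ 0 0)) (.cut .v 268435456 (.cut .v 67108864 (.cut .v 33554432 (.cut .d 261881 (.cut .v 25165824 (.cut .d 130940 (.cut .v 20971520 (.cut .d 65470 (.cut .d 32735 (.cut .v 18874368 (.cut .s 16318464 (.pos 27 .pp ⟨⟨2665743826, 0, 0, 0, 0, 0, 0, 0, 0, ⟨0, 0⟩, 0⟩, 0, 68241⟩ 0 0) (.pos 27 .pp ⟨⟨3195874758, 0, 0, 0, 0, 0, 0, 0, 0, ⟨0, 0⟩, 0⟩, 0, 57678⟩ 0 0)) (.pos 28 .pp ⟨⟨4302626641, 0, 0, 0, 0, 0, 0, 0, 0, ⟨0, 0⟩, 0⟩, 0, 61285⟩ 0 0)) (.pos 25 .pp ⟨⟨2139114281, 0, 0, 0, 0, 0, 0, 0, 0, ⟨0, 0⟩, 0⟩, 0, 89247⟩ 0 0)) (.pos 25 .pp ⟨⟨0, 0, 0, 0, 0, 0, 0, 0, 0, ⟨0, 0⟩, 0⟩, 0, 148554⟩ 0 0)) (.cut .d 65470 (.cut .v 23068672 (.pos 118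 .pp ⟨⟨4952878862, 0, 0, 0, 0, 0, 0, 0, 0, ⟨0, 0⟩, 0⟩, 0, 64879⟩ 0 0) (.pos 119 .pp ⟨⟨6076232420, 0, 0, 0, 0, 0, 159267, 0, 0, ⟨0, 0⟩, 0⟩, 0, 0⟩ 0 0)) (.pos 26 .pp ⟨⟨3709166187, 0, 0, 0, 0, 0, 193240, 0, 0, ⟨0, 0⟩, 0⟩, 0, 0⟩ 0 0))) (.pos 23 .pp ⟨⟨0, 0, 0, 0, 0, 0, 0, 0, 0, ⟨0, 0⟩, 0⟩, 0, 160438⟩ 0 0)) (.cut .d 130940 (.cut .d 65470 (.pos 24 .pp ⟨⟨3747297149, 0, 0, 0, 0, 0, 126935, 0, 0, ⟨0, 0⟩, 0⟩, 1205565288, 0⟩ 0 0) (.cut .v 29360128 (.pos 114 .pp ⟨⟨0, 0, 0, 0, 0, 0, 211152, 0, 0, ⟨0, 0⟩, 0⟩, 1227620740, 0⟩ 0 0) (.pos 115 .pp ⟨⟨0, 0, 0, 0, 0, 0, 182056, 0, 0, ⟨0, 0⟩, 0⟩, 1721860653, 0⟩ 0 0))) (.pos 24 .pp ⟨⟨0, 0, 0, 0, 0, 0, 252177,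 0, 0, ⟨0, 0⟩, 0⟩, 962430544, 0⟩ 0 0))) (.pos 22 .pp ⟨⟨0, 2451815290, 0, 0, 0, 0, 0, 0, 0, ⟨0, 0⟩, 0⟩, 0, 133698⟩ 0 0)) (.cut .v 50331648 (.cut .d 261881 (.cut .d 130940 (.void 112 ⟨⟨0, 0, 0, 0, 0, 0, 0, 0, 0, ⟨0, 0⟩, 0⟩, 100000, 0⟩ 0 0) (.pos 112 .pp ⟨⟨0, 3793362048, 0, 0, 0, 0, 123415, 0, 0, ⟨0, 0⟩, 0⟩, 1994195176, 0⟩ 0 0)) (.void 112 ⟨⟨0, 0, 0, 100000, 0, 0, 0, 0, 0, ⟨0, 0⟩, 0⟩, 0, 0⟩ 0 0)) (.void 113 ⟨⟨0, 0, 0, 52875, 0, 0, 0, 0, 0, ⟨0, 0⟩, 0⟩, 47125, 0⟩ 0 0))) (.void 96 ⟨⟨0, 0, 0, 52875, 0, 0, 0, 0, 0, ⟨0, 0⟩, 0⟩, 47125, 0⟩ 0 0)) (.void 111 ⟨⟨0, 0, 0, 0, 0, 0, 0, 0, 0, ⟨0, 0⟩, 0⟩, 100000, 0⟩ 0 0)))),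
    by decide +kernel⟩

def covers42 : cell.Covers Vale.Agent.P237.Petty.Cor.Grid.N6.table row42.1 :=
  ⟨(.cut .d 0 (.cut .v 16777216 (.cut .v 8388608 (.void 2 ⟨⟨0, 0, 100000, 0, 0, 0, 0, 0, 0, ⟨0, 0⟩, 0⟩, 0, 0⟩ 0 0) (.cut .d (-8388608) (.void 3 ⟨⟨100000, 0, 0, 0, 0, 0, 0, 0, 0, ⟨0, 0⟩, 0⟩, 0, 0⟩ 0 0) (.cut .d (-4194304) (.void 3 ⟨⟨100000, 0, 0, 0, 0, 0, 0, 0, 0, ⟨0, 0⟩, 0⟩, 0, 0⟩ 0 0) (.pos 3 .mm ⟨⟨0, 0, 0, 0, 0, 22021520223, 0, 0, 0, ⟨0, 0⟩, 0⟩, 0, 0⟩ 0 0)))) (.cut .v 268435456 (.cut .v 67108864 (.cut .v 33554432 (.cut .d (-8388608) (.void 22 ⟨⟨99999, 0, 0, 0, 0, 0, 0, 0, 0, ⟨0, 0⟩, 0⟩, 0, 0⟩ 0 0) (.cut .v 25165824 (.cut .d (-4194304)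 (.void 23 ⟨⟨100000, 0, 0, 0, 0, 0, 0, 0, 0, ⟨0, 0⟩, 0⟩, 0, 0⟩ 0 0) (.cut .d (-2097152) (.void 23 ⟨⟨100000, 0, 0, 0, 0, 0, 0, 0, 0, ⟨0, 0⟩, 0⟩, 0, 0⟩ 0 0) (.cut .v 20971520 (.cut .s 16408576 (.pos 25 .mp ⟨⟨4887832083, 0, 0, 0, 0, 8686879402, 0, 0, 0, ⟨0, 0⟩, 0⟩, 0, 0⟩ 0 0) (.pos 25 .mp ⟨⟨5939392988, 0, 0, 0, 0, 10115015682, 0, 0, 0, ⟨0, 0⟩, 0⟩, 0, 0⟩ 0 0)) (.void 26 ⟨⟨100000, 0, 0, 0, 0, 0, 0, 0, 0, ⟨0, 0⟩, 0⟩, 0, 0⟩ 0 0)))) (.void 24 ⟨⟨100000, 0, 0, 0, 0, 0, 0, 0, 0, ⟨0, 0⟩, 0⟩, 0, 0⟩ 0 0))) (.void 89 ⟨⟨100000, 0, 0, 0, 0, 0, 0, 0, 0, ⟨0, 0⟩, 0⟩, 0, 0⟩ 0 0)) (.void 96 ⟨⟨88127, 0, 0, 11835, 0, 0, 0, 0, 0, ⟨0, 0⟩, 0⟩, 0, 0⟩ 0 0)) (.void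 111 ⟨⟨87508, 0, 0, 12256, 0, 0, 0, 0, 0, ⟨0, 0⟩, 0⟩, 0, 0⟩ 0 0))) (.cut .v 16777216 (.cut .v 8388608 (.cut .v 4194304 (.cut .v 2097152 (.cut .v 1048576 (.cut .v 524288 (.pos 116 .pm ⟨⟨0, 0, 130222167, 0, 0, 0, 0, 0, 0, ⟨0, 0⟩, 0⟩, 0, 0⟩ 0 0) (.pos 117 .pm ⟨⟨0, 0, 303855231, 0, 0, 0, 0, 0, 0, ⟨0, 0⟩, 0⟩, 0, 5623⟩ 0 0)) (.pos 108 .pm ⟨⟨0, 0, 532780205, 0, 0, 0, 0, 0, 0, ⟨0, 0⟩, 0⟩, 0, 9702⟩ 0 0)) (.pos 98 .pm ⟨⟨0, 0, 1010830921, 0, 0, 0, 0, 0, 0, ⟨0, 0⟩, 0⟩, 0, 20619⟩ 0 0)) (.pos 5 .pm ⟨⟨0, 0, 2533764249, 0, 0, 0, 0, 0, 0, ⟨0, 0⟩, 0⟩, 0, 37114⟩ 0 0)) (.pos 3 .pm ⟨⟨0, 0, 0, 0, 0, 0, 0, 0, 0, ⟨0, 0⟩, 0⟩, 0, 0⟩ 0 0)) (.cut .v 268435456 (.cut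 .v 67108864 (.cut .v 33554432 (.cut .d 209926 (.cut .v 25165824 (.cut .d 104963 (.cut .v 20971520 (.cut .d 52481 (.cut .d 26240 (.cut .v 18874368 (.cut .s 16408576 (.pos 27 .pp ⟨⟨3811967622, 0, 0, 0, 0, 0, 0, 0, 0, ⟨0, 0⟩, 0⟩, 0, 48093⟩ 0 0) (.pos 27 .pp ⟨⟨4587602075, 0, 0, 0, 0, 0, 0, 0, 0, ⟨0, 0⟩, 0⟩, 0, 40139⟩ 0 0)) (.pos 28 .pp ⟨⟨6157451704, 0, 0, 0, 0, 0, 0, 0, 0, ⟨0, 0⟩, 0⟩, 0, 43596⟩ 0 0)) (.pos 25 .pp ⟨⟨3097646130, 0, 0, 0, 0, 0, 0, 0, 0, ⟨0, 0⟩, 0⟩, 0, 62167⟩ 0 0)) (.pos 25 .pp ⟨⟨0, 0, 0, 0, 0, 0, 0, 0, 0, ⟨0, 0⟩, 0⟩, 0, 103095⟩ 0 0)) (.cut .d 52481 (.cut .v 23068672 (.pos 118 .pp ⟨⟨7060020525, 0, 0, 0, 0, 0, 0, 0, 0, ⟨0, 0⟩,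 0⟩, 0, 46360⟩ 0 0) (.pos 119 .pp ⟨⟨8645231873, 0, 0, 0, 0, 0, 112913, 0, 0, ⟨0, 0⟩, 0⟩, 0, 0⟩ 0 0)) (.pos 26 .pp ⟨⟨5334845888, 0, 0, 0, 0, 0, 135495, 0, 0, ⟨0, 0⟩, 0⟩, 0, 0⟩ 0 0))) (.pos 23 .pp ⟨⟨0, 0, 0, 0, 0, 0, 0, 0, 0, ⟨0, 0⟩, 0⟩, 0, 111343⟩ 0 0)) (.cut .d 104963 (.cut .d 52481 (.pos 24 .pp ⟨⟨4638524540, 0, 0, 0, 0, 0, 90165, 0, 0, ⟨0, 0⟩, 0⟩, 1847850501, 0⟩ 0 0) (.cut .v 29360128 (.cut .v 27262976 (.pos 122 .pp ⟨⟨0, 0, 0, 0, 0, 0, 145416, 0, 0, ⟨0, 0⟩, 0⟩, 1613526431, 0⟩ 0 0) (.pos 123 .pp ⟨⟨0, 0, 0, 0, 0, 0, 140556, 0, 0, ⟨0, 0⟩, 0⟩, 2017353316, 0⟩ 0 0)) (.pos 115 .pp ⟨⟨0, 0, 0, 0, 0, 0, 129158, 0, 0, ⟨0, 0⟩, 0⟩, 2460964547, 0⟩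 0 0))) (.pos 24 .pp ⟨⟨0, 0, 0, 0, 0, 0, 173260, 0, 0, ⟨0, 0⟩, 0⟩, 1427941908, 0⟩ 0 0))) (.pos 22 .pp ⟨⟨0, 4102020193, 0, 0, 0, 0, 0, 0, 0, ⟨0, 0⟩, 0⟩, 0, 92786⟩ 0 0)) (.cut .v 50331648 (.cut .d 209926 (.cut .d 104963 (.void 112 ⟨⟨0, 0, 0, 0, 0, 0, 0, 0, 0, ⟨0, 0⟩, 0⟩, 100000, 0⟩ 0 0) (.cut .v 41943040 (.pos 120 .pp ⟨⟨0, 3044081981, 0, 0, 0, 0, 122248, 0, 0, ⟨0, 0⟩, 0⟩, 2536474093, 0⟩ 0 0) (.void 121 ⟨⟨0, 0, 0, 52967, 0, 0, 0, 0, 0, ⟨0, 0⟩, 0⟩, 47033, 0⟩ 0 0))) (.void 112 ⟨⟨0, 0, 0, 100000, 0, 0, 0, 0, 0, ⟨0, 0⟩, 0⟩, 0, 0⟩ 0 0)) (.void 113 ⟨⟨0, 0, 0, 52967, 0, 0, 0, 0, 0, ⟨0, 0⟩, 0⟩, 47033, 0⟩ 0 0))) (.void 96 ⟨⟨0, 0, 0, 52967, 0, 0,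 0, 0, 0, ⟨0, 0⟩, 0⟩, 47033, 0⟩ 0 0)) (.void 111 ⟨⟨0, 0, 0, 0, 0, 0, 0, 0, 0, ⟨0, 0⟩, 0⟩, 100000, 0⟩ 0 0)))),
    by decide +kernel⟩

def covers43 : cell.Covers Vale.Agent.P237.Petty.Cor.Grid.N6.table row43.1 :=
  ⟨(.cut .d 0 (.cut .v 16777216 (.cut .v 8388608 (.void 2 ⟨⟨0, 0, 100000, 0, 0, 0, 0, 0, 0, ⟨0, 0⟩, 0⟩, 0, 0⟩ 0 0) (.cut .d (-8388608) (.void 3 ⟨⟨100000, 0, 0, 0, 0, 0, 0, 0, 0, ⟨0, 0⟩, 0⟩, 0, 0⟩ 0 0) (.cut .d (-4194304) (.void 3 ⟨⟨100000, 0, 0, 0, 0, 0, 0, 0, 0, ⟨0, 0⟩, 0⟩, 0, 0⟩ 0 0) (.pos 3 .mm ⟨⟨0, 0, 0, 0, 0, 30268241903, 0, 0, 0, ⟨0, 0⟩, 0⟩, 0, 0⟩ 0 0)))) (.cut .v 268435456 (.cut .v 67108864 (.cut .v 33554432 (.cut .d (-8388608)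 (.void 22 ⟨⟨100049, 0, 0, 0, 0, 0, 0, 0, 0, ⟨0, 0⟩, 0⟩, 0, 0⟩ 0 0) (.cut .v 25165824 (.cut .d (-4194304) (.void 23 ⟨⟨100000, 0, 0, 0, 0, 0, 0, 0, 0, ⟨0, 0⟩, 0⟩, 0, 0⟩ 0 0) (.cut .v 20971520 (.cut .d (-2097152) (.void 25 ⟨⟨100000, 0, 0, 0, 0, 0, 0, 0, 0, ⟨0, 0⟩, 0⟩, 0, 0⟩ 0 0) (.pos 25 .mp ⟨⟨8178145959, 0, 0, 0, 0, 14137178648, 0, 0, 0, ⟨0, 0⟩, 0⟩, 0, 0⟩ 0 0)) (.void 26 ⟨⟨100000, 0, 0, 0, 0, 0, 0, 0, 0, ⟨0, 0⟩, 0⟩, 0, 0⟩ 0 0))) (.void 24 ⟨⟨100000, 0, 0, 0, 0, 0, 0, 0, 0, ⟨0, 0⟩, 0⟩, 0, 0⟩ 0 0))) (.void 89 ⟨⟨100000, 0, 0, 0, 0, 0, 0, 0, 0, ⟨0, 0⟩, 0⟩, 0, 0⟩ 0 0)) (.void 96 ⟨⟨88403, 0, 0, 12350, 0, 0, 0, 0, 0, ⟨0, 0⟩, 0⟩, 0, 0⟩ 0 0)) (.void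 111 ⟨⟨87671, 0, 0, 12329, 0, 0, 0, 0, 0, ⟨0, 0⟩, 0⟩, 0, 0⟩ 0 0))) (.cut .v 16777216 (.cut .v 8388608 (.cut .v 4194304 (.cut .v 2097152 (.cut .v 1048576 (.cut .v 524288 (.cut .v 262144 (.pos 124 .pm ⟨⟨0, 0, 100946518, 0, 0, 0, 0, 0, 0, ⟨0, 0⟩, 0⟩, 0, 0⟩ 0 0) (.pos 125 .pm ⟨⟨0, 0, 254729036, 0, 0, 0, 0, 0, 0, ⟨0, 0⟩, 0⟩, 0, 1691⟩ 0 0)) (.pos 117 .pm ⟨⟨0, 0, 441496765, 0, 0, 0, 0, 0, 0, ⟨0, 0⟩, 0⟩, 0, 3814⟩ 0 0)) (.pos 108 .pm ⟨⟨0, 0, 794942884, 0, 0, 0, 0, 0, 0, ⟨0, 0⟩, 0⟩, 0, 6527⟩ 0 0)) (.pos 98 .pm ⟨⟨0, 0, 1536406532, 0, 0, 0, 0, 0, 0, ⟨0, 0⟩, 0⟩, 0, 13986⟩ 0 0)) (.pos 5 .pm ⟨⟨0, 0, 3869688099, 0, 0, 0, 0, 0, 0, ⟨0, 0⟩, 0⟩, 0, 25176⟩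 0 0)) (.pos 3 .pm ⟨⟨0, 0, 0, 0, 0, 0, 0, 0, 0, ⟨0, 0⟩, 0⟩, 0, 0⟩ 0 0)) (.cut .v 268435456 (.cut .v 67108864 (.cut .v 33554432 (.cut .d 167105 (.cut .v 25165824 (.cut .d 83552 (.cut .v 20971520 (.cut .d 41776 (.cut .d 20888 (.cut .v 18874368 (.cut .s 16482304 (.pos 27 .pp ⟨⟨5479292720, 0, 0, 0, 0, 0, 0, 0, 0, ⟨0, 0⟩, 0⟩, 0, 33052⟩ 0 0) (.pos 27 .pp ⟨⟨6578861980, 0, 0, 0, 0, 0, 0, 0, 0, ⟨0, 0⟩, 0⟩, 0, 27427⟩ 0 0)) (.pos 28 .pp ⟨⟨8804063887, 0, 0, 0, 0, 0, 0, 0, 0, ⟨0, 0⟩, 0⟩, 0, 30549⟩ 0 0)) (.pos 25 .pp ⟨⟨4515889739, 0, 0, 0, 0, 0, 0, 0, 0, ⟨0, 0⟩, 0⟩, 0, 42320⟩ 0 0)) (.pos 25 .pp ⟨⟨0, 0, 0, 0, 0, 0, 0, 0, 0, ⟨0, 0⟩, 0⟩, 0, 69932⟩ 0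 0)) (.cut .d 41776 (.cut .v 23068672 (.pos 118 .pp ⟨⟨10070777784, 0, 0, 0, 0, 0, 0, 0, 0, ⟨0, 0⟩, 0⟩, 0, 32550⟩ 0 0) (.pos 119 .pp ⟨⟨12306516740, 0, 0, 0, 0, 0, 78404, 0, 0, ⟨0, 0⟩, 0⟩, 0, 0⟩ 0 0)) (.pos 26 .pp ⟨⟨7715075579, 0, 0, 0, 0, 0, 92907, 0, 0, ⟨0, 0⟩, 0⟩, 0, 0⟩ 0 0))) (.pos 23 .pp ⟨⟨0, 0, 0, 0, 0, 0, 0, 0, 0, ⟨0, 0⟩, 0⟩, 0, 75527⟩ 0 0)) (.cut .d 83552 (.cut .v 29360128 (.cut .d 41776 (.pos 114 .pp ⟨⟨0, 0, 0, 0, 0, 0, 73294, 0, 0, ⟨0, 0⟩, 0⟩, 3437074087, 0⟩ 0 0) (.cut .v 27262976 (.pos 122 .pp ⟨⟨0, 0, 0, 0, 0, 0, 98481, 0, 0, ⟨0, 0⟩, 0⟩, 2315663957, 0⟩ 0 0) (.pos 123 .pp ⟨⟨0, 0, 0, 0, 0, 0, 95655, 0, 0, ⟨0, 0⟩, 0⟩, 2883384690,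 0⟩ 0 0))) (.pos 115 .pp ⟨⟨0, 0, 0, 0, 0, 0, 81296, 0, 0, ⟨0, 0⟩, 0⟩, 3809642292, 0⟩ 0 0)) (.pos 24 .pp ⟨⟨0, 0, 0, 0, 0, 0, 117598, 0, 0, ⟨0, 0⟩, 0⟩, 2094901931, 0⟩ 0 0))) (.pos 22 .pp ⟨⟨0, 6562531155, 0, 0, 0, 0, 0, 0, 0, ⟨0, 0⟩, 0⟩, 0, 62939⟩ 0 0)) (.cut .v 50331648 (.cut .d 167105 (.cut .d 83552 (.void 112 ⟨⟨0, 0, 0, 0, 0, 0, 0, 0, 0, ⟨0, 0⟩, 0⟩, 100000, 0⟩ 0 0) (.cut .v 41943040 (.pos 120 .pp ⟨⟨0, 4768129785, 0, 0, 0, 0, 85743, 0, 0, ⟨0, 0⟩, 0⟩, 3662706608, 0⟩ 0 0) (.void 121 ⟨⟨0, 0, 0, 53041, 0, 0, 0, 0, 0, ⟨0, 0⟩, 0⟩, 46959, 0⟩ 0 0))) (.void 112 ⟨⟨0, 0, 0, 100000, 0, 0, 0, 0, 0, ⟨0, 0⟩, 0⟩, 0, 0⟩ 0 0)) (.void 113 ⟨⟨0, 0, 0, 53041,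 0, 0, 0, 0, 0, ⟨0, 0⟩, 0⟩, 46959, 0⟩ 0 0))) (.void 96 ⟨⟨0, 0, 0, 53041, 0, 0, 0, 0, 0, ⟨0, 0⟩, 0⟩, 46959, 0⟩ 0 0)) (.void 111 ⟨⟨0, 0, 0, 0, 0, 0, 0, 0, 0, ⟨0, 0⟩, 0⟩, 100000, 0⟩ 0 0)))),
    by decide +kernel⟩

def covers44 : cell.Covers Vale.Agent.P237.Petty.Cor.Grid.N6.table row44.1 :=
  ⟨(.cut .d 0 (.cut .v 16777216 (.cut .v 8388608 (.void 2 ⟨⟨0, 0, 100000, 0, 0, 0, 0, 0, 0, ⟨0, 0⟩, 0⟩, 0, 0⟩ 0 0) (.cut .d (-8388608) (.void 3 ⟨⟨100000, 0, 0, 0, 0, 0, 0, 0, 0, ⟨0, 0⟩, 0⟩, 0, 0⟩ 0 0) (.cut .d (-4194304) (.void 3 ⟨⟨100000, 0, 0, 0, 0, 0, 0, 0, 0, ⟨0, 0⟩, 0⟩, 0, 0⟩ 0 0) (.pos 3 .mm ⟨⟨0, 0, 0, 0, 0, 40511122027, 0, 0, 0, ⟨0, 0⟩, 0⟩, 0,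 0⟩ 0 0)))) (.cut .v 4294967296 (.cut .v 268435456 (.cut .v 67108864 (.cut .v 33554432 (.cut .d (-8388608) (.void 22 ⟨⟨100002, 0, 0, 0, 0, 0, 0, 0, 0, ⟨0, 0⟩, 0⟩, 0, 0⟩ 0 0) (.cut .v 25165824 (.cut .d (-4194304) (.void 23 ⟨⟨100000, 0, 0, 0, 0, 0, 0, 0, 0, ⟨0, 0⟩, 0⟩, 0, 0⟩ 0 0) (.cut .v 20971520 (.cut .d (-2097152) (.void 25 ⟨⟨100000, 0, 0, 0, 0, 0, 0, 0, 0, ⟨0, 0⟩, 0⟩, 0, 0⟩ 0 0) (.pos 25 .mp ⟨⟨11691143181, 0, 0, 0, 0, 17938717823, 0, 0, 0, ⟨0, 0⟩, 0⟩, 0, 0⟩ 0 0)) (.void 26 ⟨⟨100000, 0, 0, 0, 0, 0, 0, 0, 0, ⟨0, 0⟩, 0⟩, 0, 0⟩ 0 0))) (.void 24 ⟨⟨100000, 0, 0, 0, 0, 0, 0, 0, 0, ⟨0, 0⟩, 0⟩, 0, 0⟩ 0 0))) (.void 89 ⟨⟨100000, 0, 0, 0, 0, 0,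 0, 0, 0, ⟨0, 0⟩, 0⟩, 0, 0⟩ 0 0)) (.pos 96 .mp ⟨⟨1470397393055647, 0, 0, 207324206944354, 0, 0, 0, 0, 0, ⟨0, 0⟩, 0⟩, 0, 0⟩ 0 0)) (.void 111 ⟨⟨89276, 0, 0, 12554, 0, 0, 0, 0, 0, ⟨0, 0⟩, 0⟩, 0, 0⟩ 0 0)) (.void 128 ⟨⟨73411, 0, 14233, 12357, 0, 0, 0, 0, 0, ⟨0, 0⟩, 0⟩, 0, 0⟩ 0 0))) (.cut .v 16777216 (.cut .v 8388608 (.cut .v 4194304 (.cut .v 2097152 (.cut .v 1048576 (.cut .v 524288 (.cut .d 133154 (.void 116 ⟨⟨0, 0, 100000, 0, 0, 0, 0, 0, 0, ⟨0, 0⟩, 0⟩, 0, 0⟩ 0 0) (.pos 116 .pm ⟨⟨0, 0, 129248770, 0, 0, 0, 0, 0, 0, ⟨0, 0⟩, 0⟩, 0, 0⟩ 0 0)) (.pos 117 .pm ⟨⟨0, 0, 627873290, 0, 0, 0, 0, 0, 0, ⟨0, 0⟩, 0⟩, 0, 2569⟩ 0 0)) (.pos 108 .pm ⟨⟨0, 0, 1153883426,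 0, 0, 0, 0, 0, 0, ⟨0, 0⟩, 0⟩, 0, 4488⟩ 0 0)) (.pos 98 .pm ⟨⟨0, 0, 2270451088, 0, 0, 0, 0, 0, 0, ⟨0, 0⟩, 0⟩, 0, 9419⟩ 0 0)) (.pos 5 .pm ⟨⟨0, 0, 5781458311, 0, 0, 0, 0, 0, 0, ⟨0, 0⟩, 0⟩, 0, 16954⟩ 0 0)) (.pos 3 .pm ⟨⟨0, 0, 0, 0, 0, 0, 0, 0, 0, ⟨0, 0⟩, 0⟩, 0, 0⟩ 0 0)) (.cut .v 4294967296 (.cut .v 268435456 (.cut .v 67108864 (.cut .v 33554432 (.cut .d 133154 (.cut .v 25165824 (.cut .d 66577 (.cut .v 20971520 (.cut .d 33288 (.cut .d 16644 (.cut .v 18874368 (.cut .s 16539648 (.pos 27 .pp ⟨⟨7796442616, 0, 0, 0, 0, 0, 0, 0, 0, ⟨0, 0⟩, 0⟩, 0, 22540⟩ 0 0) (.pos 27 .pp ⟨⟨9229203612, 0, 0, 0, 0, 0, 0, 0, 0, ⟨0, 0⟩, 0⟩, 0, 18849⟩ 0 0)) (.pos 28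 .pp ⟨⟨12310597413, 0, 0, 0, 0, 0, 0, 0, 0, ⟨0, 0⟩, 0⟩, 0, 21584⟩ 0 0)) (.pos 25 .pp ⟨⟨6530962043, 0, 0, 0, 0, 0, 0, 0, 0, ⟨0, 0⟩, 0⟩, 0, 28621⟩ 0 0)) (.pos 25 .pp ⟨⟨0, 0, 0, 0, 0, 0, 0, 0, 0, ⟨0, 0⟩, 0⟩, 0, 47093⟩ 0 0)) (.cut .d 33288 (.cut .v 23068672 (.pos 118 .pp ⟨⟨14083598564, 0, 0, 0, 0, 0, 0, 0, 0, ⟨0, 0⟩, 0⟩, 0, 22965⟩ 0 0) (.pos 119 .pp ⟨⟨17154924003, 0, 0, 0, 0, 0, 54487, 0, 0, ⟨0, 0⟩, 0⟩, 0, 0⟩ 0 0)) (.pos 26 .pp ⟨⟨11072930827, 0, 0, 0, 0, 0, 63273, 0, 0, ⟨0, 0⟩, 0⟩, 0, 0⟩ 0 0))) (.pos 23 .pp ⟨⟨0, 0, 0, 0, 0, 0, 0, 0, 0, ⟨0, 0⟩, 0⟩, 0, 50861⟩ 0 0)) (.cut .d 66577 (.cut .v 29360128 (.cut .d 33288 (.pos 114 .pp ⟨⟨0, 0, 0, 0,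 0, 0, 51070, 0, 0, ⟨0, 0⟩, 0⟩, 4772168975, 0⟩ 0 0) (.cut .v 27262976 (.pos 122 .pp ⟨⟨0, 0, 0, 0, 0, 0, 67430, 0, 0, ⟨0, 0⟩, 0⟩, 3308833396, 0⟩ 0 0) (.pos 123 .pp ⟨⟨0, 0, 0, 0, 0, 0, 65883, 0, 0, ⟨0, 0⟩, 0⟩, 4064803166, 0⟩ 0 0))) (.pos 115 .pp ⟨⟨0, 0, 0, 0, 0, 0, 57468, 0, 0, ⟨0, 0⟩, 0⟩, 5295774730, 0⟩ 0 0)) (.pos 24 .pp ⟨⟨0, 0, 0, 0, 0, 0, 79726, 0, 0, ⟨0, 0⟩, 0⟩, 3022522386, 0⟩ 0 0))) (.pos 22 .pp ⟨⟨0, 10082231299, 0, 0, 0, 0, 0, 0, 0, ⟨0, 0⟩, 0⟩, 0, 42384⟩ 0 0)) (.cut .v 50331648 (.cut .d 133154 (.cut .d 66577 (.void 112 ⟨⟨0, 0, 0, 0, 0, 0, 0, 0, 0, ⟨0, 0⟩, 0⟩, 100000, 0⟩ 0 0) (.cut .v 41943040 (.pos 120 .pp ⟨⟨0, 6992738369, 0, 0,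 0, 0, 60554, 0, 0, ⟨0, 0⟩, 0⟩, 5209526371, 0⟩ 0 0) (.void 121 ⟨⟨0, 0, 0, 53096, 0, 0, 0, 0, 0, ⟨0, 0⟩, 0⟩, 46904, 0⟩ 0 0))) (.void 112 ⟨⟨0, 0, 0, 100000, 0, 0, 0, 0, 0, ⟨0, 0⟩, 0⟩, 0, 0⟩ 0 0)) (.void 113 ⟨⟨0, 0, 0, 53096, 0, 0, 0, 0, 0, ⟨0, 0⟩, 0⟩, 46904, 0⟩ 0 0))) (.void 96 ⟨⟨0, 0, 0, 53096, 0, 0, 0, 0, 0, ⟨0, 0⟩, 0⟩, 46904, 0⟩ 0 0)) (.void 111 ⟨⟨0, 0, 0, 0, 0, 0, 0, 0, 0, ⟨0, 0⟩, 0⟩, 100000, 0⟩ 0 0)) (.void 128 ⟨⟨0, 0, 0, 0, 0, 0, 0, 0, 0, ⟨0, 0⟩, 0⟩, 100000, 0⟩ 0 0)))),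
    by decide +kernel⟩

def covers45 : cell.Covers Vale.Agent.P237.Petty.Cor.Grid.N6.table row45.1 :=
  ⟨(.cut .d 0 (.cut .v 16777216 (.cut .v 8388608 (.void 2 ⟨⟨0, 0, 100000, 0, 0, 0, 0, 0, 0, ⟨0, 0⟩, 0⟩, 0, 0⟩ 0 0) (.cut .d (-8388608) (.void 3 ⟨⟨100000, 0, 0, 0, 0, 0, 0, 0, 0, ⟨0, 0⟩, 0⟩, 0, 0⟩ 0 0) (.cut .d (-4194304) (.void 3 ⟨⟨100000, 0, 0, 0, 0, 0, 0, 0, 0, ⟨0, 0⟩, 0⟩, 0, 0⟩ 0 0) (.pos 3 .mm ⟨⟨0, 0, 0, 0, 0, 58373687660, 0, 0, 0, ⟨0, 0⟩, 0⟩, 0, 0⟩ 0 0)))) (.cut .d (-8388608) (.void 127 ⟨⟨99971, 0, 2, 0, 0, 0, 0, 0, 0, ⟨0, 0⟩, 0⟩, 0, 0⟩ 0 0) (.cut .v 4294967296 (.cut .v 268435456 (.cut .v 67108864 (.cut .v 33554432 (.cut .v 25165824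 (.cut .d (-4194304) (.void 23 ⟨⟨100000, 0, 0, 0, 0, 0, 0, 0, 0, ⟨0, 0⟩, 0⟩, 0, 0⟩ 0 0) (.cut .v 20971520 (.cut .d (-2097152) (.void 25 ⟨⟨100000, 0, 0, 0, 0, 0, 0, 0, 0, ⟨0, 0⟩, 0⟩, 0, 0⟩ 0 0) (.pos 25 .mp ⟨⟨17531173973, 0, 0, 0, 0, 25409570285, 0, 0, 0, ⟨0, 0⟩, 0⟩, 0, 0⟩ 0 0)) (.void 26 ⟨⟨100000, 0, 0, 0, 0, 0, 0, 0, 0, ⟨0, 0⟩, 0⟩, 0, 0⟩ 0 0))) (.void 24 ⟨⟨100000, 0, 0, 0, 0, 0, 0, 0, 0, ⟨0, 0⟩, 0⟩, 0, 0⟩ 0 0)) (.void 89 ⟨⟨100000, 0, 0, 0, 0, 0, 0, 0, 0, ⟨0, 0⟩, 0⟩, 0, 0⟩ 0 0)) (.void 96 ⟨⟨82495, 0, 0, 17505, 0, 0, 0, 0, 0, ⟨0, 0⟩, 0⟩, 0, 0⟩ 0 0)) (.void 111 ⟨⟨82495, 0, 0, 17505, 0, 0, 0, 0, 0, ⟨0, 0⟩, 0⟩, 0, 0⟩ 0 0)) (.void 128 ⟨⟨0,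 0, 0, 100000, 0, 0, 0, 0, 0, ⟨0, 0⟩, 0⟩, 0, 0⟩ 0 0)))) (.cut .v 16777216 (.cut .v 8388608 (.cut .v 4194304 (.cut .v 2097152 (.cut .v 1048576 (.cut .d 107866 (.void 107 ⟨⟨0, 0, 100000, 0, 0, 0, 0, 0, 0, ⟨0, 0⟩, 0⟩, 0, 0⟩ 0 0) (.cut .v 524288 (.cut .v 262144 (.pos 124 .pm ⟨⟨0, 0, 81126278, 0, 0, 0, 0, 0, 0, ⟨0, 0⟩, 0⟩, 0, 0⟩ 0 0) (.pos 125 .pm ⟨⟨0, 0, 373929845, 0, 0, 0, 0, 0, 0, ⟨0, 0⟩, 0⟩, 0, 767⟩ 0 0)) (.pos 117 .pm ⟨⟨0, 0, 701292133, 0, 0, 0, 0, 0, 0, ⟨0, 0⟩, 0⟩, 0, 1511⟩ 0 0))) (.pos 108 .pm ⟨⟨0, 0, 1713763468, 0, 0, 0, 0, 0, 0, ⟨0, 0⟩, 0⟩, 0, 2768⟩ 0 0)) (.pos 98 .pm ⟨⟨0, 0, 3332899980, 0, 0, 0, 0, 0, 0, ⟨0, 0⟩, 0⟩, 0, 6445⟩ 0 0))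 (.pos 5 .pm ⟨⟨0, 0, 8283751945, 0, 0, 0, 0, 0, 0, ⟨0, 0⟩, 0⟩, 0, 11600⟩ 0 0)) (.pos 3 .pm ⟨⟨0, 0, 0, 0, 0, 0, 0, 0, 0, ⟨0, 0⟩, 0⟩, 0, 0⟩ 0 0)) (.cut .v 4294967296 (.cut .v 268435456 (.cut .v 67108864 (.cut .v 33554432 (.cut .d 107866 (.cut .v 25165824 (.cut .d 53933 (.cut .v 20971520 (.cut .d 26966 (.cut .d 13483 (.cut .v 18874368 (.cut .s 16588800 (.pos 27 .pp ⟨⟨11089171676, 0, 0, 0, 0, 0, 0, 0, 0, ⟨0, 0⟩, 0⟩, 0, 15461⟩ 0 0) (.pos 27 .pp ⟨⟨13672108141, 0, 0, 0, 0, 0, 0, 0, 0, ⟨0, 0⟩, 0⟩, 0, 12330⟩ 0 0)) (.pos 28 .pp ⟨⟨18275241239, 0, 0, 0, 0, 0, 0, 0, 0, ⟨0, 0⟩, 0⟩, 0, 13888⟩ 0 0)) (.pos 25 .pp ⟨⟨9227621889, 0, 0, 0, 0, 0, 0, 0, 0,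 ⟨0, 0⟩, 0⟩, 0, 19589⟩ 0 0)) (.pos 25 .pp ⟨⟨0, 0, 0, 0, 0, 0, 0, 0, 0, ⟨0, 0⟩, 0⟩, 0, 32223⟩ 0 0)) (.cut .d 26966 (.cut .v 23068672 (.pos 118 .pp ⟨⟨20728185562, 0, 0, 0, 0, 0, 22022, 0, 0, ⟨0, 0⟩, 0⟩, 0, 5248⟩ 0 0) (.pos 119 .pp ⟨⟨25338782299, 0, 0, 0, 0, 0, 36274, 0, 0, ⟨0, 0⟩, 0⟩, 0, 0⟩ 0 0)) (.pos 26 .pp ⟨⟨15566352531, 0, 0, 0, 0, 0, 43458, 0, 0, ⟨0, 0⟩, 0⟩, 0, 0⟩ 0 0))) (.pos 23 .pp ⟨⟨0, 0, 0, 0, 0, 0, 0, 0, 0, ⟨0, 0⟩, 0⟩, 0, 34801⟩ 0 0)) (.cut .d 53933 (.cut .d 26966 (.pos 24 .pp ⟨⟨0, 0, 0, 0, 0, 0, 29634, 0, 0, ⟨0, 0⟩, 0⟩, 7958920081, 0⟩ 0 0) (.cut .v 29360128 (.cut .d 40449 (.cut .v 27262976 (.pos 122 .pp ⟨⟨0, 0, 0, 0, 0, 0, 42074,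 0, 0, ⟨0, 0⟩, 0⟩, 4949637266, 0⟩ 0 0) (.pos 123 .pp ⟨⟨0, 0, 0, 0, 0, 0, 40571, 0, 0, ⟨0, 0⟩, 0⟩, 6278009374, 0⟩ 0 0)) (.pos 114 .pp ⟨⟨0, 0, 0, 0, 0, 0, 53687, 0, 0, ⟨0, 0⟩, 0⟩, 4386960579, 0⟩ 0 0)) (.pos 115 .pp ⟨⟨0, 0, 0, 0, 0, 0, 41942, 0, 0, ⟨0, 0⟩, 0⟩, 7223572530, 0⟩ 0 0))) (.cut .v 29360128 (.pos 114 .pp ⟨⟨0, 0, 0, 0, 0, 0, 101497, 0, 0, ⟨0, 0⟩, 0⟩, 0, 0⟩ 0 0) (.pos 115 .pp ⟨⟨0, 0, 0, 0, 0, 0, 56523, 0, 0, ⟨0, 0⟩, 0⟩, 5076950317, 0⟩ 0 0)))) (.pos 22 .pp ⟨⟨0, 14778608830, 0, 0, 0, 0, 0, 0, 0, ⟨0, 0⟩, 0⟩, 0, 29001⟩ 0 0)) (.cut .v 50331648 (.cut .d 107866 (.cut .d 53933 (.pos 112 .pp ⟨⟨0, 0, 0, 0, 0, 0, 0, 0, 0, ⟨0, 0⟩, 0⟩, 17648891497,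 0⟩ 0 0) (.cut .v 41943040 (.cut .v 37748736 (.pos 129 .pp ⟨⟨0, 5123728713, 0, 0, 0, 0, 47426, 0, 0, ⟨0, 0⟩, 0⟩, 6773090296, 0⟩ 0 0) (.void 130 ⟨⟨0, 0, 0, 53151, 0, 0, 0, 0, 0, ⟨0, 0⟩, 0⟩, 46849, 0⟩ 0 0)) (.void 121 ⟨⟨0, 0, 0, 53151, 0, 0, 0, 0, 0, ⟨0, 0⟩, 0⟩, 46849, 0⟩ 0 0))) (.void 112 ⟨⟨0, 0, 0, 100000, 0, 0, 0, 0, 0, ⟨0, 0⟩, 0⟩, 0, 0⟩ 0 0)) (.void 113 ⟨⟨0, 0, 0, 53151, 0, 0, 0, 0, 0, ⟨0, 0⟩, 0⟩, 46849, 0⟩ 0 0))) (.void 96 ⟨⟨0, 0, 0, 53151, 0, 0, 0, 0, 0, ⟨0, 0⟩, 0⟩, 46849, 0⟩ 0 0)) (.void 111 ⟨⟨0, 0, 0, 0, 0, 0, 0, 0, 0, ⟨0, 0⟩, 0⟩, 100000, 0⟩ 0 0)) (.void 128 ⟨⟨0, 0, 0, 0, 0, 0, 0, 0, 0, ⟨0, 0⟩, 0⟩, 100000, 0⟩ 0 0)))),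
    by decide +kernel⟩

def covers46 : cell.Covers Vale.Agent.P237.Petty.Cor.Grid.N6.table row46.1 :=
  ⟨(.cut .d 0 (.cut .v 16777216 (.cut .v 8388608 (.pos 2 .mm ⟨⟨0, 0, 1677721600000000, 0, 0, 0, 0, 0, 0, ⟨0, 0⟩, 0⟩, 0, 0⟩ 0 0) (.cut .d (-8388608) (.void 3 ⟨⟨100000, 0, 0, 0, 0, 0, 0, 0, 0, ⟨0, 0⟩, 0⟩, 0, 0⟩ 0 0) (.pos 3 .mm ⟨⟨0, 0, 0, 0, 0, 110640186170, 0, 0, 0, ⟨0, 0⟩, 0⟩, 0, 0⟩ 0 0))) (.cut .d (-8388608) (.void 127 ⟨⟨99999, 0, 0, 0, 0, 0, 0, 0, 0, ⟨0, 0⟩, 0⟩, 0, 0⟩ 0 0) (.cut .v 4294967296 (.cut .v 268435456 (.cut .v 67108864 (.cut .v 33554432 (.cut .v 25165824 (.cut .d (-4194304) (.void 23 ⟨⟨100000, 0, 0, 0, 0, 0, 0, 0, 0, ⟨0,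 0⟩, 0⟩, 0, 0⟩ 0 0) (.cut .v 20971520 (.cut .d (-2097152) (.void 25 ⟨⟨100000, 0, 0, 0, 0, 0, 0, 0, 0, ⟨0, 0⟩, 0⟩, 0, 0⟩ 0 0) (.pos 25 .mp ⟨⟨25800849293, 0, 0, 0, 0, 31974448855, 0, 0, 0, ⟨0, 0⟩, 0⟩, 0, 0⟩ 0 0)) (.void 26 ⟨⟨100000, 0, 0, 0, 0, 0, 0, 0, 0, ⟨0, 0⟩, 0⟩, 0, 0⟩ 0 0))) (.void 24 ⟨⟨100000, 0, 0, 0, 0, 0, 0, 0, 0, ⟨0, 0⟩, 0⟩, 0, 0⟩ 0 0)) (.void 89 ⟨⟨100000, 0, 0, 0, 0, 0, 0, 0, 0, ⟨0, 0⟩, 0⟩, 0, 0⟩ 0 0)) (.void 96 ⟨⟨82467, 0, 0, 17533, 0, 0, 0, 0, 0, ⟨0, 0⟩, 0⟩, 0, 0⟩ 0 0)) (.void 111 ⟨⟨82467, 0, 0, 17533, 0, 0, 0, 0, 0, ⟨0, 0⟩, 0⟩, 0, 0⟩ 0 0)) (.void 128 ⟨⟨82467, 0, 0, 17533, 0, 0, 0, 0, 0, ⟨0, 0⟩, 0⟩, 0, 0⟩ 0 0)))) (.cut .v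 16777216 (.cut .v 8388608 (.cut .v 4194304 (.cut .v 2097152 (.cut .v 1048576 (.cut .d 82729 (.void 107 ⟨⟨0, 0, 100000, 0, 0, 0, 0, 0, 0, ⟨0, 0⟩, 0⟩, 0, 0⟩ 0 0) (.cut .d 124093 (.pos 107 .pm ⟨⟨0, 0, 23063331567, 0, 0, 0, 0, 0, 0, ⟨0, 0⟩, 0⟩, 0, 486⟩ 0 0) (.cut .v 524288 (.pos 116 .pm ⟨⟨0, 0, 96523322, 0, 0, 0, 0, 0, 0, ⟨0, 0⟩, 0⟩, 0, 0⟩ 0 0) (.pos 117 .pm ⟨⟨0, 0, 1003502485, 0, 0, 0, 0, 0, 0, ⟨0, 0⟩, 0⟩, 0, 1090⟩ 0 0)))) (.pos 108 .pm ⟨⟨0, 0, 2550119038, 0, 0, 0, 0, 0, 0, ⟨0, 0⟩, 0⟩, 0, 1832⟩ 0 0)) (.pos 98 .pm ⟨⟨0, 0, 5063464826, 0, 0, 0, 0, 0, 0, ⟨0, 0⟩, 0⟩, 0, 3996⟩ 0 0)) (.pos 5 .pm ⟨⟨0, 0, 12857858239, 0, 0, 0, 0, 0, 0, ⟨0, 0⟩,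 0⟩, 0, 7194⟩ 0 0)) (.pos 3 .pm ⟨⟨0, 0, 0, 0, 0, 0, 0, 0, 0, ⟨0, 0⟩, 0⟩, 0, 0⟩ 0 0)) (.cut .v 4294967296 (.cut .v 268435456 (.cut .v 67108864 (.cut .v 33554432 (.cut .d 82729 (.cut .v 25165824 (.cut .d 41364 (.cut .v 20971520 (.cut .d 20682 (.cut .d 10341 (.cut .v 18874368 (.cut .s 16629760 (.pos 27 .pp ⟨⟨16538936711, 0, 0, 0, 0, 0, 0, 0, 0, ⟨0, 0⟩, 0⟩, 0, 9730⟩ 0 0) (.pos 27 .pp ⟨⟨19758521033, 0, 0, 0, 0, 0, 0, 0, 0, ⟨0, 0⟩, 0⟩, 0, 7972⟩ 0 0)) (.pos 28 .pp ⟨⟨26276528497, 0, 0, 0, 0, 0, 0, 0, 0, ⟨0, 0⟩, 0⟩, 0, 9189⟩ 0 0)) (.pos 25 .pp ⟨⟨14026120396, 0, 0, 0, 0, 0, 0, 0, 0, ⟨0, 0⟩, 0⟩, 0, 12226⟩ 0 0)) (.pos 25 .pp ⟨⟨0, 0, 0, 0, 0, 0,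 0, 0, 0, ⟨0, 0⟩, 0⟩, 0, 19982⟩ 0 0)) (.cut .d 20682 (.cut .v 23068672 (.pos 118 .pp ⟨⟨29913009674, 0, 0, 0, 0, 0, 17351, 0, 0, ⟨0, 0⟩, 0⟩, 0, 2286⟩ 0 0) (.pos 119 .pp ⟨⟨36415031229, 0, 0, 0, 0, 0, 23521, 0, 0, ⟨0, 0⟩, 0⟩, 0, 0⟩ 0 0)) (.pos 26 .pp ⟨⟨23503465973, 0, 0, 0, 0, 0, 27308, 0, 0, ⟨0, 0⟩, 0⟩, 0, 0⟩ 0 0))) (.pos 23 .pp ⟨⟨0, 0, 0, 0, 0, 0, 0, 0, 0, ⟨0, 0⟩, 0⟩, 0, 21581⟩ 0 0)) (.cut .d 41364 (.cut .v 29360128 (.cut .d 20682 (.pos 114 .pp ⟨⟨0, 0, 0, 0, 0, 0, 21389, 0, 0, ⟨0, 0⟩, 0⟩, 10178151932, 0⟩ 0 0) (.cut .d 31023 (.cut .v 27262976 (.pos 122 .pp ⟨⟨0, 0, 0, 0, 0, 0, 27286, 0, 0, ⟨0, 0⟩, 0⟩, 7479144860, 0⟩ 0 0) (.pos 123 .pp ⟨⟨0,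 0, 0, 0, 0, 0, 26452, 0, 0, ⟨0, 0⟩, 0⟩, 9265201195, 0⟩ 0 0)) (.pos 114 .pp ⟨⟨0, 0, 0, 0, 0, 0, 33844, 0, 0, ⟨0, 0⟩, 0⟩, 6577973963, 0⟩ 0 0))) (.pos 115 .pp ⟨⟨0, 0, 0, 0, 0, 0, 25159, 0, 0, ⟨0, 0⟩, 0⟩, 11220924491, 0⟩ 0 0)) (.cut .v 29360128 (.pos 114 .pp ⟨⟨0, 0, 0, 0, 0, 0, 62941, 0, 0, ⟨0, 0⟩, 0⟩, 0, 0⟩ 0 0) (.pos 115 .pp ⟨⟨0, 0, 0, 0, 0, 0, 35721, 0, 0, ⟨0, 0⟩, 0⟩, 7633561674, 0⟩ 0 0)))) (.pos 22 .pp ⟨⟨0, 23217548056, 0, 0, 0, 0, 0, 0, 0, ⟨0, 0⟩, 0⟩, 0, 17984⟩ 0 0)) (.cut .v 50331648 (.cut .d 82729 (.cut .d 41364 (.void 112 ⟨⟨0, 0, 0, 0, 0, 0, 0, 0, 0, ⟨0, 0⟩, 0⟩, 100000, 0⟩ 0 0) (.cut .v 41943040 (.cut .s 16629760 (.pos 120 .pp ⟨⟨0,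 10448171890, 0, 0, 0, 0, 30452, 0, 0, ⟨0, 0⟩, 0⟩, 10178573086, 0⟩ 0 0) (.pos 120 .pp ⟨⟨0, 12216136379, 0, 0, 0, 0, 26061, 0, 0, ⟨0, 0⟩, 0⟩, 11740201791, 0⟩ 0 0)) (.void 121 ⟨⟨0, 0, 0, 53187, 0, 0, 0, 0, 0, ⟨0, 0⟩, 0⟩, 46813, 0⟩ 0 0))) (.void 112 ⟨⟨0, 0, 0, 100000, 0, 0, 0, 0, 0, ⟨0, 0⟩, 0⟩, 0, 0⟩ 0 0)) (.void 113 ⟨⟨0, 0, 0, 53187, 0, 0, 0, 0, 0, ⟨0, 0⟩, 0⟩, 46813, 0⟩ 0 0))) (.void 96 ⟨⟨0, 0, 0, 53187, 0, 0, 0, 0, 0, ⟨0, 0⟩, 0⟩, 46813, 0⟩ 0 0)) (.void 111 ⟨⟨0, 0, 0, 0, 0, 0, 0, 0, 0, ⟨0, 0⟩, 0⟩, 100000, 0⟩ 0 0)) (.void 128 ⟨⟨0, 0, 0, 0, 0, 0, 0, 0, 0, ⟨0, 0⟩, 0⟩, 100000, 0⟩ 0 0)))),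
    by decide +kernel⟩

def covers47 : cell.Covers Vale.Agent.P237.Petty.Cor.Grid.N6.table row47.1 :=
  ⟨(.cut .d 0 (.cut .v 16777216 (.cut .v 8388608 (.void 2 ⟨⟨0, 0, 100000, 0, 0, 0, 0, 0, 0, ⟨0, 0⟩, 0⟩, 0, 0⟩ 0 0) (.cut .d (-8388608) (.void 3 ⟨⟨100015, 0, 0, 0, 0, 0, 0, 0, 0, ⟨0, 0⟩, 0⟩, 0, 0⟩ 0 0) (.pos 3 .mm ⟨⟨0, 0, 0, 0, 0, 131528087440, 0, 0, 0, ⟨0, 0⟩, 0⟩, 0, 0⟩ 0 0))) (.cut .v 4294967296 (.cut .v 268435456 (.cut .v 67108864 (.cut .v 33554432 (.cut .d (-8388608) (.void 22 ⟨⟨99951, 0, 0, 0, 0, 0, 0, 0, 0, ⟨0, 0⟩, 0⟩, 0, 0⟩ 0 0) (.cut .v 25165824 (.cut .d (-4194304) (.void 23 ⟨⟨100000, 0, 0, 0, 0, 0, 0, 0, 0, ⟨0, 0⟩, 0⟩, 0, 0⟩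 0 0) (.cut .v 20971520 (.pos 25 .mp ⟨⟨31690549198, 0, 0, 0, 0, 64404838466, 0, 0, 0, ⟨0, 0⟩, 0⟩, 0, 0⟩ 0 0) (.void 26 ⟨⟨100000, 0, 0, 0, 0, 0, 0, 0, 0, ⟨0, 0⟩, 0⟩, 0, 0⟩ 0 0))) (.void 24 ⟨⟨100000, 0, 0, 0, 0, 0, 0, 0, 0, ⟨0, 0⟩, 0⟩, 0, 0⟩ 0 0))) (.void 89 ⟨⟨100000, 0, 0, 0, 0, 0, 0, 0, 0, ⟨0, 0⟩, 0⟩, 0, 0⟩ 0 0)) (.void 96 ⟨⟨87575, 0, 0, 12425, 0, 0, 0, 0, 0, ⟨0, 0⟩, 0⟩, 0, 0⟩ 0 0)) (.void 111 ⟨⟨86683, 0, 0, 12404, 0, 0, 0, 0, 0, ⟨0, 0⟩, 0⟩, 0, 0⟩ 0 0)) (.void 128 ⟨⟨91927, 0, 0, 15049, 0, 0, 0, 0, 0, ⟨0, 0⟩, 0⟩, 0, 0⟩ 0 0))) (.cut .v 16777216 (.cut .v 8388608 (.cut .v 4194304 (.cut .v 2097152 (.cut .v 1048576 (.cut .v 524288 (.cut .d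 66053 (.void 116 ⟨⟨0, 0, 100000, 0, 0, 0, 0, 0, 0, ⟨0, 0⟩, 0⟩, 0, 0⟩ 0 0) (.cut .d 99080 (.void 116 ⟨⟨0, 0, 97854, 0, 0, 0, 0, 0, 0, ⟨0, 0⟩, 0⟩, 0, 0⟩ 0 0) (.pos 116 .pm ⟨⟨0, 0, 124804369, 0, 0, 0, 0, 0, 0, ⟨0, 0⟩, 0⟩, 0, 0⟩ 0 0))) (.pos 117 .pm ⟨⟨0, 0, 1768591354, 0, 0, 0, 0, 0, 0, ⟨0, 0⟩, 0⟩, 0, 723⟩ 0 0)) (.pos 108 .pm ⟨⟨0, 0, 3379538068, 0, 0, 0, 0, 0, 0, ⟨0, 0⟩, 0⟩, 0, 1403⟩ 0 0)) (.pos 98 .pm ⟨⟨0, 0, 6936734930, 0, 0, 0, 0, 0, 0, ⟨0, 0⟩, 0⟩, 0, 2651⟩ 0 0)) (.pos 5 .pm ⟨⟨0, 0, 18427839097, 0, 0, 0, 0, 0, 0, ⟨0, 0⟩, 0⟩, 0, 4771⟩ 0 0)) (.pos 3 .pm ⟨⟨0, 0, 0, 0, 0, 0, 0, 0, 0, ⟨0, 0⟩, 0⟩, 0, 0⟩ 0 0)) (.cut .v 4294967296 (.cut .v 268435456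 (.cut .v 67108864 (.cut .v 33554432 (.cut .d 66053 (.cut .v 25165824 (.cut .d 33026 (.cut .v 20971520 (.cut .v 18874368 (.pos 27 .pp ⟨⟨24071074764, 0, 0, 0, 0, 0, 0, 0, 0, ⟨0, 0⟩, 0⟩, 0, 6392⟩ 0 0) (.cut .s 16654336 (.pos 28 .pp ⟨⟨28294670846, 0, 0, 0, 0, 0, 0, 0, 0, ⟨0, 0⟩, 0⟩, 0, 7819⟩ 0 0) (.pos 28 .pp ⟨⟨31267168621, 0, 0, 0, 0, 0, 0, 0, 0, ⟨0, 0⟩, 0⟩, 0, 6949⟩ 0 0))) (.cut .d 16513 (.pos 26 .pp ⟨⟨43499028892, 0, 0, 0, 0, 0, 0, 0, 0, ⟨0, 0⟩, 0⟩, 0, 6556⟩ 0 0) (.pos 26 .pp ⟨⟨33103500580, 0, 0, 0, 0, 0, 18352, 0, 0, ⟨0, 0⟩, 0⟩, 0, 0⟩ 0 0))) (.pos 23 .pp ⟨⟨0, 0, 0, 0, 0, 0, 0, 0, 0, ⟨0, 0⟩, 0⟩, 0, 14313⟩ 0 0)) (.cut .d 33026 (.cut .v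 29360128 (.cut .d 16513 (.pos 114 .pp ⟨⟨0, 0, 0, 0, 0, 0, 0, 0, 0, ⟨0, 0⟩, 0⟩, 31486451207, 0⟩ 0 0) (.cut .v 27262976 (.pos 122 .pp ⟨⟨0, 0, 0, 0, 0, 0, 20876, 0, 0, ⟨0, 0⟩, 0⟩, 9716476254, 0⟩ 0 0) (.pos 123 .pp ⟨⟨0, 0, 0, 0, 0, 0, 20780, 0, 0, ⟨0, 0⟩, 0⟩, 11364897483, 0⟩ 0 0))) (.pos 115 .pp ⟨⟨0, 0, 0, 0, 0, 0, 18765, 0, 0, ⟨0, 0⟩, 0⟩, 14105258208, 0⟩ 0 0)) (.cut .v 29360128 (.pos 114 .pp ⟨⟨0, 0, 0, 0, 0, 0, 41745, 0, 0, ⟨0, 0⟩, 0⟩, 0, 0⟩ 0 0) (.pos 115 .pp ⟨⟨0, 0, 0, 0, 0, 0, 24196, 0, 0, ⟨0, 0⟩, 0⟩, 10669922369, 0⟩ 0 0)))) (.pos 22 .pp ⟨⟨0, 33621385899, 0, 0, 0, 0, 0, 0, 0, ⟨0, 0⟩, 0⟩, 0, 11928⟩ 0 0)) (.cut .v 50331648 (.cut .d 66053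 (.cut .d 33026 (.void 112 ⟨⟨0, 0, 0, 0, 0, 0, 0, 0, 0, ⟨0, 0⟩, 0⟩, 100000, 0⟩ 0 0) (.cut .v 41943040 (.pos 120 .pp ⟨⟨0, 17763499925, 0, 0, 0, 0, 19676, 0, 0, ⟨0, 0⟩, 0⟩, 14815443662, 0⟩ 0 0) (.void 121 ⟨⟨0, 0, 0, 53570, 0, 0, 0, 0, 0, ⟨0, 0⟩, 0⟩, 46730, 0⟩ 0 0))) (.void 112 ⟨⟨0, 0, 0, 100000, 0, 0, 0, 0, 0, ⟨0, 0⟩, 0⟩, 0, 0⟩ 0 0)) (.void 113 ⟨⟨0, 0, 0, 54112, 0, 0, 0, 0, 0, ⟨0, 0⟩, 0⟩, 47700, 0⟩ 0 0))) (.void 96 ⟨⟨0, 0, 0, 53206, 0, 0, 0, 0, 0, ⟨0, 0⟩, 0⟩, 46794, 0⟩ 0 0)) (.void 111 ⟨⟨0, 0, 0, 0, 0, 0, 0, 0, 0, ⟨0, 0⟩, 0⟩, 100000, 0⟩ 0 0)) (.void 128 ⟨⟨0, 0, 0, 0, 0, 0, 0, 0, 0, ⟨0, 0⟩, 0⟩, 100000, 0⟩ 0 0)))),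
    by decide +kernel⟩

def covers48 : cell.Covers Vale.Agent.P237.Petty.Cor.Grid.N6.table row48.1 :=
  ⟨(.cut .d 0 (.cut .v 16777216 (.cut .v 8388608 (.void 2 ⟨⟨0, 0, 100000, 0, 0, 0, 0, 0, 0, ⟨0, 0⟩, 0⟩, 0, 0⟩ 0 0) (.cut .d (-8388608) (.void 3 ⟨⟨100000, 0, 0, 0, 0, 0, 0, 0, 0, ⟨0, 0⟩, 0⟩, 0, 0⟩ 0 0) (.pos 3 .mm ⟨⟨0, 0, 0, 0, 0, 204037184056, 0, 0, 0, ⟨0, 0⟩, 0⟩, 0, 0⟩ 0 0))) (.cut .d (-8388608) (.void 127 ⟨⟨99855, 0, 1, 0, 0, 0, 0, 0, 0, ⟨0, 0⟩, 0⟩, 0, 0⟩ 0 0) (.cut .v 4294967296 (.cut .v 268435456 (.cut .v 67108864 (.cut .v 33554432 (.cut .v 25165824 (.cut .d (-4194304) (.void 23 ⟨⟨100000, 0, 0, 0, 0, 0, 0, 0, 0, ⟨0, 0⟩, 0⟩, 0, 0⟩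 0 0) (.cut .v 20971520 (.cut .s 16678912 (.pos 25 .mp ⟨⟨40290851294, 0, 0, 0, 0, 78104793891, 0, 0, 0, ⟨0, 0⟩, 0⟩, 0, 0⟩ 0 0) (.pos 25 .mp ⟨⟨53370848237, 0, 0, 0, 0, 97426499579, 0, 0, 0, ⟨0, 0⟩, 0⟩, 0, 0⟩ 0 0)) (.void 26 ⟨⟨100000, 0, 0, 0, 0, 0, 0, 0, 0, ⟨0, 0⟩, 0⟩, 0, 0⟩ 0 0))) (.void 24 ⟨⟨100000, 0, 0, 0, 0, 0, 0, 0, 0, ⟨0, 0⟩, 0⟩, 0, 0⟩ 0 0)) (.void 89 ⟨⟨100000, 0, 0, 0, 0, 0, 0, 0, 0, ⟨0, 0⟩, 0⟩, 0, 0⟩ 0 0)) (.void 96 ⟨⟨82424, 0, 0, 17576, 0, 0, 0, 0, 0, ⟨0, 0⟩, 0⟩, 0, 0⟩ 0 0)) (.void 111 ⟨⟨82424, 0, 0, 17576, 0, 0, 0, 0, 0, ⟨0, 0⟩, 0⟩, 0, 0⟩ 0 0)) (.void 128 ⟨⟨85553, 0, 0, 18460, 0, 0, 0, 0, 0, ⟨0, 0⟩, 0⟩, 0, 0⟩ 0 0)))) (.cut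 .v 16777216 (.cut .v 8388608 (.cut .v 4194304 (.cut .d 57740 (.pos 4 .pm ⟨⟨0, 0, 93479076519, 0, 0, 0, 0, 0, 0, ⟨0, 0⟩, 0⟩, 0, 1395⟩ 0 0) (.cut .v 2097152 (.cut .v 1048576 (.cut .v 524288 (.cut .d 86610 (.pos 116 .pm ⟨⟨0, 0, 441575457, 0, 0, 0, 0, 0, 0, ⟨0, 0⟩, 0⟩, 0, 0⟩ 0 0) (.pos 116 .pm ⟨⟨0, 0, 89824322, 0, 0, 0, 0, 0, 0, ⟨0, 0⟩, 0⟩, 0, 0⟩ 0 0)) (.pos 117 .pm ⟨⟨0, 0, 1998640956, 0, 0, 0, 0, 0, 0, ⟨0, 0⟩, 0⟩, 0, 470⟩ 0 0)) (.pos 108 .pm ⟨⟨0, 0, 3826776376, 0, 0, 0, 0, 0, 0, ⟨0, 0⟩, 0⟩, 0, 913⟩ 0 0)) (.pos 98 .pm ⟨⟨0, 0, 7223025658, 0, 0, 0, 0, 0, 0, ⟨0, 0⟩, 0⟩, 0, 1725⟩ 0 0))) (.pos 5 .pm ⟨⟨0, 0, 22960085181, 0, 0, 0, 0, 0, 0, ⟨0,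 0⟩, 0⟩, 0, 3254⟩ 0 0)) (.pos 3 .pm ⟨⟨0, 0, 0, 0, 0, 0, 0, 0, 0, ⟨0, 0⟩, 0⟩, 0, 0⟩ 0 0)) (.cut .v 4294967296 (.cut .v 268435456 (.cut .v 67108864 (.cut .v 33554432 (.cut .d 57740 (.cut .v 25165824 (.cut .d 28870 (.cut .d 14435 (.cut .v 20971520 (.cut .d 7217 (.cut .v 18874368 (.cut .d 3608 (.cut .v 17825792 (.cut .s 16678912 (.pos 29 .pp ⟨⟨28158021768, 0, 0, 0, 0, 0, 0, 0, 0, ⟨0, 0⟩, 0⟩, 0, 4808⟩ 0 0) (.pos 29 .pp ⟨⟨36778778346, 0, 0, 0, 0, 0, 0, 0, 0, ⟨0, 0⟩, 0⟩, 0, 3492⟩ 0 0)) (.pos 30 .pp ⟨⟨45038987485, 0, 0, 0, 0, 0, 0, 0, 0, ⟨0, 0⟩, 0⟩, 0, 3497⟩ 0 0)) (.pos 27 .pp ⟨⟨21981166685, 0, 0, 0, 0, 0, 0, 0, 0, ⟨0, 0⟩, 0⟩, 0, 5159⟩ 0 0))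 (.pos 28 .pp ⟨⟨52205169043, 0, 0, 0, 0, 0, 0, 0, 0, ⟨0, 0⟩, 0⟩, 0, 3875⟩ 0 0)) (.pos 25 .pp ⟨⟨25252036052, 0, 0, 0, 0, 0, 0, 0, 0, ⟨0, 0⟩, 0⟩, 0, 6163⟩ 0 0)) (.cut .d 7217 (.pos 26 .pp ⟨⟨86728650455, 0, 0, 0, 0, 0, 0, 0, 0, ⟨0, 0⟩, 0⟩, 0, 2851⟩ 0 0) (.cut .v 23068672 (.pos 118 .pp ⟨⟨48597534094, 0, 0, 0, 0, 0, 10301, 0, 0, ⟨0, 0⟩, 0⟩, 0, 0⟩ 0 0) (.cut .s 16678912 (.pos 119 .pp ⟨⟨64492972460, 0, 0, 0, 0, 0, 12086, 0, 0, ⟨0, 0⟩, 0⟩, 0, 0⟩ 0 0) (.pos 119 .pp ⟨⟨67850900013, 0, 0, 0, 0, 0, 9915, 0, 0, ⟨0, 0⟩, 0⟩, 1178311183, 0⟩ 0 0))))) (.cut .v 20971520 (.pos 25 .pp ⟨⟨0, 0, 0, 0, 0, 0, 0, 0, 0, ⟨0, 0⟩, 0⟩, 0, 10141⟩ 0 0) (.cut .s 16678912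 (.cut .v 23068672 (.pos 118 .pp ⟨⟨0, 0, 0, 0, 0, 0, 25098, 0, 0, ⟨0, 0⟩, 0⟩, 0, 0⟩ 0 0) (.pos 119 .pp ⟨⟨0, 0, 0, 0, 0, 0, 16860, 0, 0, ⟨0, 0⟩, 0⟩, 10326747532, 0⟩ 0 0)) (.pos 26 .pp ⟨⟨11512319880, 0, 0, 0, 0, 0, 11954, 0, 0, ⟨0, 0⟩, 0⟩, 8835587627, 0⟩ 0 0)))) (.pos 23 .pp ⟨⟨0, 0, 0, 0, 0, 0, 0, 0, 0, ⟨0, 0⟩, 0⟩, 0, 10953⟩ 0 0)) (.cut .d 28870 (.cut .d 14435 (.cut .v 29360128 (.pos 114 .pp ⟨⟨0, 0, 0, 0, 0, 0, 8792, 0, 0, ⟨0, 0⟩, 0⟩, 21542757605, 0⟩ 0 0) (.void 115 ⟨⟨0, 0, 0, 0, 0, 0, 0, 0, 0, ⟨0, 0⟩, 0⟩, 100000, 0⟩ 0 0)) (.cut .v 29360128 (.cut .d 21652 (.cut .l 307582 (.cut .v 27262976 (.cut .s 16678912 (.pos 122 .pp ⟨⟨0, 0, 0, 0, 0,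 0, 15286, 0, 0, ⟨0, 0⟩, 0⟩, 12689211284, 0⟩ 0 0) (.pos 122 .pp ⟨⟨0, 0, 0, 0, 0, 0, 12270, 0, 0, ⟨0, 0⟩, 0⟩, 14731789523, 0⟩ 0 0)) (.cut .s 16678912 (.pos 123 .pp ⟨⟨0, 0, 0, 0, 0, 0, 15106, 0, 0, ⟨0, 0⟩, 0⟩, 14962130835, 0⟩ 0 0) (.pos 123 .pp ⟨⟨0, 0, 0, 0, 0, 0, 11154, 0, 0, ⟨0, 0⟩, 0⟩, 18712033844, 0⟩ 0 0))) (.pos 114 .pp ⟨⟨0, 0, 0, 0, 0, 0, 0, 0, 0, ⟨0, 0⟩, 0⟩, 14266464029, 0⟩ 0 0)) (.cut .s 16678912 (.pos 114 .pp ⟨⟨0, 0, 0, 0, 0, 0, 17404, 0, 0, ⟨0, 0⟩, 0⟩, 11462364163, 0⟩ 0 0) (.pos 114 .pp ⟨⟨0, 0, 0, 0, 0, 0, 13905, 0, 0, ⟨0, 0⟩, 0⟩, 13090804969, 0⟩ 0 0))) (.cut .s 16678912 (.pos 115 .pp ⟨⟨0, 0, 0, 0, 0, 0, 15298, 0, 0, ⟨0, 0⟩,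 0⟩, 16845413482, 0⟩ 0 0) (.cut .d 21652 (.pos 115 .pp ⟨⟨0, 0, 0, 0, 0, 0, 9819, 0, 0, ⟨0, 0⟩, 0⟩, 22926158549, 0⟩ 0 0) (.pos 115 .pp ⟨⟨0, 0, 0, 0, 0, 0, 12695, 0, 0, ⟨0, 0⟩, 0⟩, 18856295039, 0⟩ 0 0))))) (.cut .v 29360128 (.pos 114 .pp ⟨⟨0, 0, 0, 0, 0, 0, 31943, 0, 0, ⟨0, 0⟩, 0⟩, 0, 0⟩ 0 0) (.cut .s 16678912 (.pos 115 .pp ⟨⟨0, 0, 0, 0, 0, 0, 18503, 0, 0, ⟨0, 0⟩, 0⟩, 13236245667, 0⟩ 0 0) (.pos 115 .pp ⟨⟨0, 0, 0, 0, 0, 0, 15015, 0, 0, ⟨0, 0⟩, 0⟩, 15114708812, 0⟩ 0 0))))) (.pos 22 .pp ⟨⟨0, 42618207512, 0, 0, 0, 0, 0, 0, 0, ⟨0, 0⟩, 0⟩, 0, 9127⟩ 0 0)) (.cut .v 50331648 (.cut .d 57740 (.cut .d 28870 (.pos 112 .pp ⟨⟨0, 0, 0, 0, 0, 0, 7296,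 0, 0, ⟨0, 0⟩, 0⟩, 33762279832, 0⟩ 0 0) (.cut .v 41943040 (.cut .v 37748736 (.cut .s 16678912 (.pos 129 .pp ⟨⟨0, 14488405406, 0, 0, 0, 0, 16351, 0, 0, ⟨0, 0⟩, 0⟩, 17368928519, 0⟩ 0 0) (.pos 129 .pp ⟨⟨0, 11365808521, 0, 0, 0, 0, 13161, 0, 0, ⟨0, 0⟩, 0⟩, 20483083819, 0⟩ 0 0)) (.void 130 ⟨⟨0, 0, 0, 53242, 0, 0, 0, 0, 0, ⟨0, 0⟩, 0⟩, 46758, 0⟩ 0 0)) (.void 121 ⟨⟨0, 0, 0, 53242, 0, 0, 0, 0, 0, ⟨0, 0⟩, 0⟩, 46758, 0⟩ 0 0))) (.void 112 ⟨⟨0, 0, 0, 100000, 0, 0, 0, 0, 0, ⟨0, 0⟩, 0⟩, 0, 0⟩ 0 0)) (.void 113 ⟨⟨0, 0, 0, 53242, 0, 0, 0, 0, 0, ⟨0, 0⟩, 0⟩, 46758, 0⟩ 0 0))) (.void 96 ⟨⟨0, 0, 0, 53242, 0, 0, 0, 0, 0, ⟨0, 0⟩, 0⟩, 46758, 0⟩ 0 0)) (.void 111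 ⟨⟨0, 0, 0, 0, 0, 0, 0, 0, 0, ⟨0, 0⟩, 0⟩, 100000, 0⟩ 0 0)) (.void 128 ⟨⟨0, 0, 0, 0, 0, 0, 0, 0, 0, ⟨0, 0⟩, 0⟩, 100000, 0⟩ 0 0)))),
    by decide +kernel⟩

def covers49 : cell.Covers Vale.Agent.P237.Petty.Cor.Grid.N6.table row49.1 :=
  ⟨(.cut .d 0 (.cut .v 16777216 (.cut .v 8388608 (.pos 2 .mm ⟨⟨0, 0, 1677721600000000, 0, 0, 0, 0, 0, 0, ⟨0, 0⟩, 0⟩, 0, 0⟩ 0 0) (.cut .d (-8388608) (.void 3 ⟨⟨100000, 0, 0, 0, 0, 0, 0, 0, 0, ⟨0, 0⟩, 0⟩, 0, 0⟩ 0 0) (.pos 3 .mm ⟨⟨0, 0, 0, 0, 0, 272323372098, 0, 0, 0, ⟨0, 0⟩, 0⟩, 0, 0⟩ 0 0))) (.cut .v 4294967296 (.cut .v 268435456 (.cut .v 67108864 (.cut .v 33554432 (.cut .v 25165824 (.cut .d (-8388608) (.void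 23 ⟨⟨99988, 0, 0, 0, 0, 0, 0, 0, 0, ⟨0, 0⟩, 0⟩, 0, 0⟩ 0 0) (.cut .d (-4194304) (.void 23 ⟨⟨100000, 0, 0, 0, 0, 0, 0, 0, 0, ⟨0, 0⟩, 0⟩, 0, 0⟩ 0 0) (.cut .v 20971520 (.pos 25 .mp ⟨⟨74877340151, 0, 0, 0, 0, 128040503960, 0, 0, 0, ⟨0, 0⟩, 0⟩, 0, 0⟩ 0 0) (.void 26 ⟨⟨100000, 0, 0, 0, 0, 0, 0, 0, 0, ⟨0, 0⟩, 0⟩, 0, 0⟩ 0 0)))) (.void 24 ⟨⟨100000, 0, 0, 0, 0, 0, 0, 0, 0, ⟨0, 0⟩, 0⟩, 0, 0⟩ 0 0)) (.pos 89 .mp ⟨⟨1677721600001512, 0, 0, 0, 0, 0, 0, 0, 0, ⟨0, 0⟩, 0⟩, 0, 0⟩ 0 0)) (.pos 96 .mp ⟨⟨1468926729833104, 0, 0, 208794870166884, 0, 0, 0, 0, 0, ⟨0, 0⟩, 0⟩, 0, 0⟩ 0 0)) (.void 111 ⟨⟨88161, 0, 0, 12334, 0, 0, 0, 0, 0, ⟨0, 0⟩, 0⟩, 0, 0⟩ 0 0)) (.void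 128 ⟨⟨88161, 0, 0, 12334, 0, 0, 0, 0, 0, ⟨0, 0⟩, 0⟩, 0, 0⟩ 0 0))) (.cut .v 16777216 (.cut .v 8388608 (.cut .v 4194304 (.cut .v 2097152 (.cut .d 41162 (.void 97 ⟨⟨0, 0, 100356, 0, 0, 0, 0, 0, 0, ⟨0, 0⟩, 0⟩, 0, 0⟩ 0 0) (.cut .d 61743 (.pos 97 .pm ⟨⟨0, 0, 13075688504, 0, 0, 0, 0, 0, 0, ⟨0, 0⟩, 0⟩, 0, 0⟩ 0 0) (.cut .v 1048576 (.cut .v 524288 (.pos 116 .pm ⟨⟨0, 0, 103363424, 0, 0, 0, 0, 0, 0, ⟨0, 0⟩, 0⟩, 0, 0⟩ 0 0) (.pos 117 .pm ⟨⟨0, 0, 3054939229, 0, 0, 0, 0, 0, 0, ⟨0, 0⟩, 0⟩, 0, 297⟩ 0 0)) (.pos 108 .pm ⟨⟨0, 0, 6088925798, 0, 0, 0, 0, 0, 0, ⟨0, 0⟩, 0⟩, 0, 576⟩ 0 0)))) (.pos 98 .pm ⟨⟨0, 0, 15361685157, 0, 0, 0, 0, 0, 0, ⟨0, 0⟩, 0⟩, 0, 1089⟩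 0 0)) (.pos 5 .pm ⟨⟨0, 0, 39189936940, 0, 0, 0, 0, 0, 0, ⟨0, 0⟩, 0⟩, 0, 1959⟩ 0 0)) (.pos 3 .pm ⟨⟨0, 0, 0, 0, 0, 0, 0, 0, 0, ⟨0, 0⟩, 0⟩, 0, 0⟩ 0 0)) (.cut .v 4294967296 (.cut .v 268435456 (.cut .v 67108864 (.cut .v 33554432 (.cut .d 41162 (.cut .v 25165824 (.cut .d 20581 (.cut .v 20971520 (.cut .d 10290 (.cut .d 5145 (.cut .v 18874368 (.cut .s 16703488 (.pos 27 .pp ⟨⟨48821998191, 0, 0, 0, 0, 0, 0, 0, 0, ⟨0, 0⟩, 0⟩, 0, 2701⟩ 0 0) (.pos 27 .pp ⟨⟨58149470697, 0, 0, 0, 0, 0, 0, 0, 0, ⟨0, 0⟩, 0⟩, 0, 2196⟩ 0 0)) (.pos 28 .pp ⟨⟨77048785691, 0, 0, 0, 0, 0, 0, 0, 0, ⟨0, 0⟩, 0⟩, 0, 2510⟩ 0 0)) (.pos 25 .pp ⟨⟨42038776050, 0, 0, 0, 0, 0, 0, 0,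 0, ⟨0, 0⟩, 0⟩, 0, 3360⟩ 0 0)) (.pos 25 .pp ⟨⟨0, 0, 0, 0, 0, 0, 0, 0, 0, ⟨0, 0⟩, 0⟩, 0, 5443⟩ 0 0)) (.cut .d 10290 (.cut .v 23068672 (.pos 118 .pp ⟨⟨87476939658, 0, 0, 0, 0, 0, 6229, 0, 0, ⟨0, 0⟩, 0⟩, 0, 0⟩ 0 0) (.pos 119 .pp ⟨⟨107473587299, 0, 0, 0, 0, 0, 6505, 0, 0, ⟨0, 0⟩, 0⟩, 161167830, 0⟩ 0 0)) (.cut .s 16703488 (.cut .v 23068672 (.pos 118 .pp ⟨⟨0, 0, 0, 0, 0, 0, 13470, 0, 0, ⟨0, 0⟩, 0⟩, 0, 0⟩ 0 0) (.pos 119 .pp ⟨⟨0, 0, 0, 0, 0, 0, 9071, 0, 0, ⟨0, 0⟩, 0⟩, 17286245626, 0⟩ 0 0)) (.pos 26 .pp ⟨⟨78748057792, 0, 0, 0, 0, 0, 6378, 0, 0, ⟨0, 0⟩, 0⟩, 0, 0⟩ 0 0)))) (.pos 23 .pp ⟨⟨0, 0, 0, 0, 0, 0, 0, 0, 0, ⟨0, 0⟩, 0⟩, 0, 5878⟩ 0 0)) (.cut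 .d 20581 (.cut .v 29360128 (.cut .d 10290 (.pos 114 .pp ⟨⟨0, 0, 0, 0, 0, 0, 5899, 0, 0, ⟨0, 0⟩, 0⟩, 29726260242, 0⟩ 0 0) (.cut .d 15435 (.cut .v 27262976 (.cut .v 26214400 (.pos 135 .pp ⟨⟨0, 0, 0, 0, 0, 0, 7624, 0, 0, ⟨0, 0⟩, 0⟩, 20905544763, 0⟩ 0 0) (.pos 136 .pp ⟨⟨0, 0, 0, 0, 0, 0, 7216, 0, 0, ⟨0, 0⟩, 0⟩, 23636262990, 0⟩ 0 0)) (.pos 123 .pp ⟨⟨0, 0, 0, 0, 0, 0, 7253, 0, 0, ⟨0, 0⟩, 0⟩, 27184530805, 0⟩ 0 0)) (.pos 114 .pp ⟨⟨0, 0, 0, 0, 0, 0, 9382, 0, 0, ⟨0, 0⟩, 0⟩, 19500177890, 0⟩ 0 0))) (.cut .s 16703488 (.pos 115 .pp ⟨⟨0, 0, 0, 0, 0, 0, 8259, 0, 0, ⟨0, 0⟩, 0⟩, 27961496865, 0⟩ 0 0) (.pos 115 .pp ⟨⟨0, 0, 0, 0, 0, 0, 6668, 0, 0, ⟨0, 0⟩,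 0⟩, 33098703913, 0⟩ 0 0))) (.cut .v 29360128 (.pos 114 .pp ⟨⟨0, 0, 0, 0, 0, 0, 17144, 0, 0, ⟨0, 0⟩, 0⟩, 0, 0⟩ 0 0) (.pos 115 .pp ⟨⟨0, 0, 0, 0, 0, 0, 9984, 0, 0, ⟨0, 0⟩, 0⟩, 22525734953, 0⟩ 0 0)))) (.pos 22 .pp ⟨⟨0, 0, 0, 10345278624, 0, 0, 0, 0, 0, ⟨0, 0⟩, 0⟩, 0, 4899⟩ 0 0)) (.cut .v 50331648 (.cut .d 41162 (.cut .d 20581 (.void 112 ⟨⟨0, 0, 0, 0, 0, 0, 0, 0, 0, ⟨0, 0⟩, 0⟩, 100000, 0⟩ 0 0) (.cut .v 41943040 (.cut .s 16703488 (.pos 120 .pp ⟨⟨0, 0, 0, 4719857063, 0, 0, 8487, 0, 0, ⟨0, 0⟩, 0⟩, 30042626506, 0⟩ 0 0) (.pos 120 .pp ⟨⟨0, 0, 0, 5423961564, 0, 0, 7309, 0, 0, ⟨0, 0⟩, 0⟩, 34594546929, 0⟩ 0 0)) (.void 121 ⟨⟨0, 0, 0, 53260, 0, 0,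 0, 0, 0, ⟨0, 0⟩, 0⟩, 46740, 0⟩ 0 0))) (.void 112 ⟨⟨0, 0, 0, 100000, 0, 0, 0, 0, 0, ⟨0, 0⟩, 0⟩, 0, 0⟩ 0 0)) (.void 113 ⟨⟨0, 0, 0, 53260, 0, 0, 0, 0, 0, ⟨0, 0⟩, 0⟩, 46740, 0⟩ 0 0))) (.void 96 ⟨⟨0, 0, 0, 53260, 0, 0, 0, 0, 0, ⟨0, 0⟩, 0⟩, 46740, 0⟩ 0 0)) (.void 111 ⟨⟨0, 0, 0, 0, 0, 0, 0, 0, 0, ⟨0, 0⟩, 0⟩, 100000, 0⟩ 0 0)) (.void 128 ⟨⟨0, 0, 0, 0, 0, 0, 0, 0, 0, ⟨0, 0⟩, 0⟩, 100000, 0⟩ 0 0)))),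
    by decide +kernel⟩

def covers50 : cell.Covers Vale.Agent.P237.Petty.Cor.Grid.N6.table row50.1 :=
  ⟨(.cut .d 0 (.cut .v 16777216 (.cut .v 8388608 (.pos 2 .mm ⟨⟨0, 0, 1677721600000000, 0, 0, 0, 0, 0, 0, ⟨0, 0⟩, 0⟩, 0, 0⟩ 0 0) (.cut .d (-8388608) (.void 3 ⟨⟨100000, 0, 0, 0, 0, 0, 0, 0, 0, ⟨0, 0⟩, 0⟩, 0, 0⟩ 0 0) (.pos 3 .mm ⟨⟨0, 0, 0, 0, 0, 396999816549, 0, 0, 0, ⟨0, 0⟩, 0⟩, 0, 0⟩ 0 0))) (.cut .v 4294967296 (.cut .v 268435456 (.cut .v 67108864 (.cut .v 33554432 (.cut .v 25165824 (.cut .d (-8388608) (.void 23 ⟨⟨100091, 0, 0, 0, 0, 0, 0, 0, 0, ⟨0, 0⟩, 0⟩, 0, 0⟩ 0 0) (.cut .v 20971520 (.cut .d (-4194304) (.void 25 ⟨⟨100000, 0, 0, 0,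 0, 0, 0, 0, 0, ⟨0, 0⟩, 0⟩, 0, 0⟩ 0 0) (.pos 25 .mp ⟨⟨114671219890, 0, 0, 0, 0, 185537286917, 0, 0, 0, ⟨0, 0⟩, 0⟩, 0, 0⟩ 0 0)) (.void 26 ⟨⟨100000, 0, 0, 0, 0, 0, 0, 0, 0, ⟨0, 0⟩, 0⟩, 0, 0⟩ 0 0))) (.pos 24 .mp ⟨⟨1677721599997418, 0, 0, 0, 0, 0, 0, 0, 0, ⟨0, 0⟩, 0⟩, 0, 0⟩ 0 0)) (.void 89 ⟨⟨100000, 0, 0, 0, 0, 0, 0, 0, 0, ⟨0, 0⟩, 0⟩, 0, 0⟩ 0 0)) (.void 96 ⟨⟨100000, 0, 0, 0, 0, 0, 0, 0, 0, ⟨0, 0⟩, 0⟩, 0, 0⟩ 0 0)) (.void 111 ⟨⟨87503, 0, 0, 12467, 0, 0, 0, 0, 0, ⟨0, 0⟩, 0⟩, 0, 0⟩ 0 0)) (.void 128 ⟨⟨149186, 0, 0, 25367, 0, 0, 0, 0, 0, ⟨0, 0⟩, 0⟩, 0, 0⟩ 0 0))) (.cut .v 16777216 (.cut .v 8388608 (.cut .v 4194304 (.cut .d 32898 (.pos 4 .pm ⟨⟨0,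 0, 199752898289, 0, 0, 0, 0, 0, 0, ⟨0, 0⟩, 0⟩, 0, 526⟩ 0 0) (.cut .d 49347 (.pos 4 .pm ⟨⟨0, 0, 10716973231, 0, 0, 0, 0, 0, 0, ⟨0, 0⟩, 0⟩, 0, 0⟩ 0 0) (.cut .v 2097152 (.cut .v 1048576 (.cut .v 524288 (.pos 116 .pm ⟨⟨0, 0, 87834178, 0, 0, 0, 0, 0, 0, ⟨0, 0⟩, 0⟩, 0, 0⟩ 0 0) (.pos 117 .pm ⟨⟨0, 0, 4324313738, 0, 0, 0, 0, 0, 0, ⟨0, 0⟩, 0⟩, 0, 193⟩ 0 0)) (.pos 108 .pm ⟨⟨0, 0, 8627715888, 0, 0, 0, 0, 0, 0, ⟨0, 0⟩, 0⟩, 0, 374⟩ 0 0)) (.pos 98 .pm ⟨⟨0, 0, 17239415818, 0, 0, 0, 0, 0, 0, ⟨0, 0⟩, 0⟩, 0, 707⟩ 0 0)))) (.pos 5 .pm ⟨⟨0, 0, 55696610636, 0, 0, 0, 0, 0, 0, ⟨0, 0⟩, 0⟩, 0, 1227⟩ 0 0)) (.pos 3 .pm ⟨⟨0, 0, 0, 0, 0, 0, 0, 0, 0, ⟨0, 0⟩, 0⟩, 0,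 0⟩ 0 0)) (.cut .v 4294967296 (.cut .v 268435456 (.cut .v 67108864 (.cut .v 33554432 (.cut .d 32898 (.cut .v 25165824 (.cut .d 16449 (.cut .v 20971520 (.cut .d 8224 (.cut .d 4112 (.cut .v 18874368 (.cut .v 17825792 (.cut .s 16719872 (.pos 29 .pp ⟨⟨67992001197, 0, 0, 0, 0, 0, 0, 0, 0, ⟨0, 0⟩, 0⟩, 0, 1695⟩ 0 0) (.pos 29 .pp ⟨⟨84256021506, 0, 0, 0, 0, 0, 0, 0, 0, ⟨0, 0⟩, 0⟩, 0, 1285⟩ 0 0)) (.pos 30 .pp ⟨⟨89643329607, 0, 0, 0, 0, 0, 0, 0, 0, ⟨0, 0⟩, 0⟩, 0, 1455⟩ 0 0)) (.pos 28 .pp ⟨⟨117368286962, 0, 0, 0, 0, 0, 0, 0, 0, ⟨0, 0⟩, 0⟩, 0, 1460⟩ 0 0)) (.pos 25 .pp ⟨⟨60121259490, 0, 0, 0, 0, 0, 0, 0, 0, ⟨0, 0⟩, 0⟩, 0, 2140⟩ 0 0)) (.pos 25 .pp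 ⟨⟨0, 0, 0, 0, 0, 0, 0, 0, 0, ⟨0, 0⟩, 0⟩, 0, 3535⟩ 0 0)) (.cut .d 8224 (.cut .d 4112 (.pos 26 .pp ⟨⟨409712965654, 0, 0, 0, 0, 0, 0, 0, 0, ⟨0, 0⟩, 0⟩, 0, 0⟩ 0 0) (.cut .v 23068672 (.pos 118 .pp ⟨⟨114458955893, 0, 0, 0, 0, 0, 3825, 0, 0, ⟨0, 0⟩, 0⟩, 0, 0⟩ 0 0) (.cut .s 16719872 (.pos 119 .pp ⟨⟨155988432684, 0, 0, 0, 0, 0, 4025, 0, 0, ⟨0, 0⟩, 0⟩, 0, 0⟩ 0 0) (.pos 119 .pp ⟨⟨136986492374, 0, 0, 0, 0, 0, 3698, 0, 0, ⟨0, 0⟩, 0⟩, 6157808768, 0⟩ 0 0)))) (.cut .s 16719872 (.cut .v 23068672 (.pos 118 .pp ⟨⟨0, 0, 0, 0, 0, 0, 8748, 0, 0, ⟨0, 0⟩, 0⟩, 0, 0⟩ 0 0) (.cut .s 16715776 (.pos 119 .pp ⟨⟨0, 0, 0, 0, 0, 0, 5981, 0, 0, ⟨0, 0⟩, 0⟩, 24285415644,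 0⟩ 0 0) (.pos 119 .pp ⟨⟨6390644959, 0, 0, 0, 0, 0, 5354, 0, 0, ⟨0, 0⟩, 0⟩, 25027141178, 0⟩ 0 0))) (.pos 26 .pp ⟨⟨19760737275, 0, 0, 0, 0, 0, 4361, 0, 0, ⟨0, 0⟩, 0⟩, 22029256513, 0⟩ 0 0)))) (.pos 23 .pp ⟨⟨0, 0, 0, 0, 0, 0, 0, 0, 0, ⟨0, 0⟩, 0⟩, 0, 3817⟩ 0 0)) (.cut .d 16449 (.cut .d 8224 (.cut .v 29360128 (.pos 114 .pp ⟨⟨0, 0, 0, 0, 0, 0, 3420, 0, 0, ⟨0, 0⟩, 0⟩, 46003756012, 0⟩ 0 0) (.void 115 ⟨⟨0, 0, 0, 0, 0, 0, 0, 0, 0, ⟨0, 0⟩, 0⟩, 100000, 0⟩ 0 0)) (.cut .v 29360128 (.cut .v 27262976 (.cut .d 12336 (.cut .s 16719872 (.cut .v 26214400 (.pos 135 .pp ⟨⟨0, 0, 0, 0, 0, 0, 5386, 0, 0, ⟨0, 0⟩, 0⟩, 28656080148, 0⟩ 0 0) (.pos 136 .pp ⟨⟨0, 0,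 0, 0, 0, 0, 5353, 0, 0, ⟨0, 0⟩, 0⟩, 31597669758, 0⟩ 0 0)) (.pos 122 .pp ⟨⟨0, 0, 0, 0, 0, 0, 4290, 0, 0, ⟨0, 0⟩, 0⟩, 34185294857, 0⟩ 0 0)) (.pos 122 .pp ⟨⟨0, 0, 0, 0, 0, 0, 6501, 0, 0, ⟨0, 0⟩, 0⟩, 24264801982, 0⟩ 0 0)) (.cut .d 12336 (.cut .s 16719872 (.pos 123 .pp ⟨⟨0, 0, 0, 0, 0, 0, 5455, 0, 0, ⟨0, 0⟩, 0⟩, 34993776138, 0⟩ 0 0) (.pos 123 .pp ⟨⟨0, 0, 0, 0, 0, 0, 4176, 0, 0, ⟨0, 0⟩, 0⟩, 42516352878, 0⟩ 0 0)) (.pos 123 .pp ⟨⟨0, 0, 0, 0, 0, 0, 5968, 0, 0, ⟨0, 0⟩, 0⟩, 32181600832, 0⟩ 0 0))) (.cut .s 16719872 (.pos 115 .pp ⟨⟨0, 0, 0, 0, 0, 0, 5479, 0, 0, ⟨0, 0⟩, 0⟩, 39197261943, 0⟩ 0 0) (.pos 115 .pp ⟨⟨0, 0, 0, 0, 0, 0, 4285, 0, 0, ⟨0, 0⟩,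 0⟩, 47816333952, 0⟩ 0 0)))) (.cut .v 29360128 (.pos 114 .pp ⟨⟨0, 0, 0, 0, 0, 0, 11133, 0, 0, ⟨0, 0⟩, 0⟩, 0, 0⟩ 0 0) (.cut .s 16719872 (.pos 115 .pp ⟨⟨0, 0, 0, 0, 0, 0, 6585, 0, 0, ⟨0, 0⟩, 0⟩, 31370970320, 0⟩ 0 0) (.pos 115 .pp ⟨⟨0, 0, 0, 0, 0, 0, 5414, 0, 0, ⟨0, 0⟩, 0⟩, 35438263502, 0⟩ 0 0))))) (.pos 22 .pp ⟨⟨0, 0, 0, 14810912560, 0, 0, 0, 0, 0, ⟨0, 0⟩, 0⟩, 0, 3181⟩ 0 0)) (.cut .v 50331648 (.cut .d 32898 (.cut .d 16449 (.pos 112 .pp ⟨⟨0, 0, 0, 0, 0, 0, 0, 0, 0, ⟨0, 0⟩, 0⟩, 120796653386, 0⟩ 0 0) (.cut .v 41943040 (.cut .v 37748736 (.cut .v 35651584 (.pos 141 .pp ⟨⟨0, 0, 0, 0, 0, 0, 6169, 0, 0, ⟨0, 0⟩, 0⟩, 39128219197, 0⟩ 0 0) (.pos 142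 .pp ⟨⟨0, 0, 0, 38617049118, 0, 0, 0, 0, 0, ⟨0, 0⟩, 0⟩, 76798892204, 0⟩ 0 0)) (.void 130 ⟨⟨0, 0, 0, 53279, 0, 0, 0, 0, 0, ⟨0, 0⟩, 0⟩, 46721, 0⟩ 0 0)) (.void 121 ⟨⟨0, 0, 0, 53279, 0, 0, 0, 0, 0, ⟨0, 0⟩, 0⟩, 46721, 0⟩ 0 0))) (.void 112 ⟨⟨0, 0, 0, 100000, 0, 0, 0, 0, 0, ⟨0, 0⟩, 0⟩, 0, 0⟩ 0 0)) (.void 113 ⟨⟨0, 0, 0, 53279, 0, 0, 0, 0, 0, ⟨0, 0⟩, 0⟩, 46721, 0⟩ 0 0))) (.void 96 ⟨⟨0, 0, 0, 53279, 0, 0, 0, 0, 0, ⟨0, 0⟩, 0⟩, 46721, 0⟩ 0 0)) (.void 111 ⟨⟨0, 0, 0, 0, 0, 0, 0, 0, 0, ⟨0, 0⟩, 0⟩, 100000, 0⟩ 0 0)) (.void 128 ⟨⟨0, 0, 0, 0, 0, 0, 0, 0, 0, ⟨0, 0⟩, 0⟩, 100000, 0⟩ 0 0)))),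
    by decide +kernel⟩

end Vale.Agent.P237.Petty.Cor.Grid.Tiny.N6
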