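import Vale.Agent.P237.Petty.Cor.Grid.Tiny.N6.Cert

/-!
# P237: a cell down to zero in dimension 6, subdivisions
-/

namespace Vale.Agent.P237.Petty.Cor.Grid.Tiny.N6

def covers0 : cell.Covers Vale.Agent.P237.Petty.Cor.Grid.N6.table row0.1 :=
  ⟨(.cut .d 0 (.cut .v 16777216 (.cut .v 8388608 (.cut .v 4194304 (.void 4 ⟨⟨0, 0, 100000, 0, 0, 0, 0, 0, 0, ⟨0, 0⟩, 0⟩, 0, 0⟩ 0 0) (.cut .d (-8388608) (.pos 5 .mm ⟨⟨0, 0, 0, 0, 0, 0, 0, 0, 0, ⟨0, 0⟩, 0⟩, 0, 0⟩ 0 0) (.pos 5 .mm ⟨⟨0, 0, 0, 0, 0, 0, 0, 0, 0, ⟨0, 0⟩, 0⟩, 0, 0⟩ 0 0))) (.cut .d (-8388608) (.cut .v 12582912 (.pos 8 .mm ⟨⟨0, 0, 0, 0, 0, 0, 0, 0, 0, ⟨0, 0⟩, 0⟩, 0, 0⟩ 0 0) (.pos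 9 .mm ⟨⟨0, 0, 0, 0, 0, 0, 0, 0, 0, ⟨0, 0⟩, 0⟩, 0, 0⟩ 0 0)) (.cut .v 12582912 (.cut .d (-4194304) (.cut .v 10485760 (.pos 10 .mm ⟨⟨0, 0, 0, 0, 0, 0, 0, 0, 0, ⟨0, 0⟩, 0⟩, 0, 0⟩ 0 0) (.cut .d (-6291456) (.pos 11 .mm ⟨⟨0, 0, 0, 0, 0, 0, 0, 0, 0, ⟨0, 0⟩, 0⟩, 0, 0⟩ 0 0) (.cut .d (-5242880) (.pos 11 .mm ⟨⟨0, 0, 0, 0, 0, 0, 0, 0, 0, ⟨0, 0⟩, 0⟩, 0, 0⟩ 0 0) (.pos 11 .mm ⟨⟨0, 0, 0, 0, 0, 0, 0, 0, 0, ⟨0, 0⟩, 0⟩, 0, 0⟩ 0 0)))) (.pos 8 .mm ⟨⟨0, 0, 0, 0, 0, 0, 0, 0, 0, ⟨0, 0⟩, 0⟩, 0, 0⟩ 0 0)) (.cut .d (-4194304) (.cut .v 14680064 (.cut .v 13631488 (.pos 16 .mm ⟨⟨0, 0, 0, 0, 0, 0, 0, 0, 0, ⟨0, 0⟩, 0⟩, 0, 0⟩ 0 0) (.pos 17 .mm ⟨⟨0, 0, 0,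 0, 0, 0, 0, 0, 0, ⟨0, 0⟩, 0⟩, 0, 0⟩ 0 0)) (.pos 15 .mm ⟨⟨0, 0, 0, 0, 0, 0, 0, 0, 0, ⟨0, 0⟩, 0⟩, 0, 0⟩ 0 0)) (.cut .d (-2097152) (.cut .v 14680064 (.cut .d (-3145728) (.cut .v 13631488 (.cut .d (-3670016) (.pos 16 .mm ⟨⟨0, 0, 0, 0, 0, 0, 0, 0, 0, ⟨0, 0⟩, 0⟩, 0, 0⟩ 0 0) (.pos 16 .mm ⟨⟨0, 0, 0, 0, 0, 0, 0, 0, 0, ⟨0, 0⟩, 0⟩, 0, 0⟩ 0 0)) (.pos 17 .mm ⟨⟨0, 0, 0, 0, 0, 0, 0, 0, 0, ⟨0, 0⟩, 0⟩, 0, 0⟩ 0 0)) (.cut .v 13631488 (.pos 16 .mm ⟨⟨0, 0, 0, 0, 0, 0, 0, 0, 0, ⟨0, 0⟩, 0⟩, 0, 0⟩ 0 0) (.pos 17 .mm ⟨⟨0, 0, 0, 0, 0, 0, 0, 0, 0, ⟨0, 0⟩, 0⟩, 0, 0⟩ 0 0))) (.pos 15 .mm ⟨⟨0, 0, 0, 0, 0, 0, 0, 0, 0, ⟨0, 0⟩, 0⟩, 0, 0⟩ 0 0)) (.cut .v 14680064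 (.pos 14 .mm ⟨⟨0, 0, 0, 0, 0, 0, 0, 0, 0, ⟨0, 0⟩, 0⟩, 0, 0⟩ 0 0) (.cut .d (-1048576) (.pos 15 .mm ⟨⟨0, 0, 0, 0, 0, 0, 0, 0, 0, ⟨0, 0⟩, 0⟩, 0, 0⟩ 0 0) (.pos 15 .mm ⟨⟨0, 0, 0, 0, 0, 914820, 0, 0, 0, ⟨0, 0⟩, 0⟩, 0, 0⟩ 0 0)))))))) (.cut .v 25165824 (.cut .v 20971520 (.pos 25 .mp ⟨⟨1083766, 0, 0, 0, 0, 39307, 10273, 0, 0, ⟨0, 0⟩, 0⟩, 0, 0⟩ 0 0) (.void 26 ⟨⟨0, 0, 0, 0, 0, 0, 100000, 0, 0, ⟨0, 0⟩, 0⟩, 0, 0⟩ 0 0)) (.void 24 ⟨⟨0, 0, 0, 0, 0, 0, 100000, 0, 0, ⟨0, 0⟩, 0⟩, 0, 0⟩ 0 0))) (.cut .v 16777216 (.cut .v 8388608 (.cut .v 4194304 (.void 4 ⟨⟨0, 0, 100000, 0, 0, 0, 0, 0, 0, ⟨0, 0⟩, 0⟩, 0, 0⟩ 0 0) (.pos 5 .pm ⟨⟨0, 0, 0, 0, 669060,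 0, 0, 0, 0, ⟨0, 0⟩, 0⟩, 0, 0⟩ 0 0)) (.pos 3 .pm ⟨⟨0, 0, 0, 0, 0, 0, 0, 0, 0, ⟨0, 0⟩, 0⟩, 0, 1735577⟩ 0 0)) (.cut .v 25165824 (.cut .v 20971520 (.cut .v 18874368 (.cut .v 17825792 (.cut .d 400494 (.cut .v 17301504 (.cut .v 17039360 (.cut .s 851968 (.pos 33 .pp ⟨⟨858201, 0, 0, 0, 0, 0, 298270, 0, 0, ⟨0, 0⟩, 0⟩, 0, 144882⟩ 0 0) (.cut .d 200247 (.pos 33 .pp ⟨⟨1022159, 0, 0, 0, 0, 0, 0, 0, 0, ⟨0, 0⟩, 0⟩, 0, 339513⟩ 0 0) (.pos 33 .pp ⟨⟨1110515, 0, 0, 0, 0, 0, 0, 0, 0, ⟨0, 0⟩, 0⟩, 0, 179410⟩ 0 0))) (.pos 34 .pp ⟨⟨1231839, 0, 0, 0, 0, 0, 0, 0, 0, ⟨0, 0⟩, 0⟩, 0, 0⟩ 0 0)) (.pos 32 .pp ⟨⟨1304083, 0, 0, 0, 0, 0, 0, 0, 0, ⟨0, 0⟩, 0⟩,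 0, 0⟩ 0 0)) (.cut .l 307582 (.pos 29 .pp ⟨⟨0, 0, 0, 0, 0, 0, 1265955, 0, 0, ⟨0, 0⟩, 0⟩, 0, 1835943⟩ 0 0) (.cut .v 17301504 (.cut .s 851968 (.pos 31 .pp ⟨⟨1287958, 0, 0, 0, 0, 0, 0, 0, 0, ⟨0, 0⟩, 0⟩, 0, 0⟩ 0 0) (.pos 31 .pp ⟨⟨1068925, 0, 0, 0, 0, 0, 0, 0, 0, ⟨0, 0⟩, 0⟩, 0, 465934⟩ 0 0)) (.cut .v 17563648 (.cut .d 600741 (.pos 37 .pp ⟨⟨1457256, 0, 0, 0, 0, 0, 0, 0, 0, ⟨0, 0⟩, 0⟩, 0, 0⟩ 0 0) (.cut .s 851968 (.pos 37 .pp ⟨⟨1168045, 0, 0, 0, 0, 0, 383973, 0, 0, ⟨0, 0⟩, 0⟩, 0, 0⟩ 0 0) (.pos 37 .pp ⟨⟨1410479, 0, 0, 0, 0, 0, 0, 0, 0, ⟨0, 0⟩, 0⟩, 0, 372643⟩ 0 0))) (.void 38 ⟨⟨100000, 0, 0, 0, 0, 0, 0, 0, 0, ⟨0, 0⟩, 0⟩, 0, 0⟩ 0 0)))))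 (.void 30 ⟨⟨100000, 0, 0, 0, 0, 0, 0, 0, 0, ⟨0, 0⟩, 0⟩, 0, 0⟩ 0 0)) (.void 28 ⟨⟨0, 0, 0, 0, 0, 0, 0, 0, 0, ⟨0, 0⟩, 0⟩, 100000, 0⟩ 0 0)) (.void 26 ⟨⟨0, 0, 0, 0, 0, 0, 0, 0, 0, ⟨0, 0⟩, 0⟩, 100000, 0⟩ 0 0)) (.void 24 ⟨⟨0, 0, 0, 0, 0, 0, 0, 0, 0, ⟨0, 0⟩, 0⟩, 100000, 0⟩ 0 0)))),
    by decide +kernel⟩

def covers1 : cell.Covers Vale.Agent.P237.Petty.Cor.Grid.N6.table row1.1 :=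
  ⟨(.cut .d 0 (.cut .v 16777216 (.cut .v 8388608 (.void 2 ⟨⟨0, 0, 0, 0, 50000, 50000, 0, 0, 0, ⟨0, 0⟩, 0⟩, 0, 0⟩ 0 0) (.cut .v 12582912 (.void 8 ⟨⟨0, 0, 0, 0, 50000, 50000, 0, 0, 0, ⟨0, 0⟩, 0⟩, 0, 0⟩ 0 0) (.cut .d (-8388608) (.void 9 ⟨⟨0, 0, 0, 0, 0, 100000, 0, 0, 0, ⟨0, 0⟩, 0⟩, 0, 0⟩ 0 0) (.cut .d (-4194304) (.void 9 ⟨⟨0, 0, 0, 0, 0, 100000, 0, 0, 0, ⟨0, 0⟩, 0⟩, 0, 0⟩ 0 0) (.cut .d (-2097152) (.cut .v 14680064 (.pos 14 .mm ⟨⟨0, 0, 0, 0, 687335, 2284140, 0, 0, 0, ⟨0, 0⟩, 0⟩, 0, 0⟩ 0 0) (.pos 15 .mm ⟨⟨0, 0, 0, 0, 0, 1030941, 0, 0, 0, ⟨0, 0⟩, 0⟩, 0, 0⟩ 0 0)) (.cut .v 14680064 (.pos 14 .mm ⟨⟨0, 0, 0, 0, 2853972, 1030941, 0,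 0, 0, ⟨0, 0⟩, 0⟩, 0, 0⟩ 0 0) (.pos 15 .mm ⟨⟨0, 0, 0, 0, 0, 1100327, 0, 0, 0, ⟨0, 0⟩, 0⟩, 0, 0⟩ 0 0))))))) (.cut .v 25165824 (.cut .v 20971520 (.pos 25 .mp ⟨⟨1011473, 0, 0, 0, 0, 0, 0, 0, 0, ⟨0, 0⟩, 0⟩, 0, 0⟩ 0 0) (.void 26 ⟨⟨100000, 0, 0, 0, 0, 0, 0, 0, 0, ⟨0, 0⟩, 0⟩, 0, 0⟩ 0 0)) (.void 24 ⟨⟨0, 0, 0, 0, 0, 0, 100000, 0, 0, ⟨0, 0⟩, 0⟩, 0, 0⟩ 0 0))) (.cut .v 16777216 (.cut .v 8388608 (.void 2 ⟨⟨0, 0, 0, 0, 100000, 0, 0, 0, 0, ⟨0, 0⟩, 0⟩, 0, 0⟩ 0 0) (.pos 3 .pm ⟨⟨0, 0, 0, 0, 0, 0, 0, 0, 0, ⟨0, 0⟩, 0⟩, 0, 829527⟩ 0 0)) (.cut .v 25165824 (.cut .v 20971520 (.cut .v 18874368 (.cut .v 17825792 (.cut .d 571727 (.cut .v 17301504 (.cut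 .d 285863 (.cut .l 307582 (.cut .v 17039360 (.cut .s 2359296 (.cut .d 142931 (.pos 33 .pp ⟨⟨889883, 0, 0, 0, 0, 0, 0, 0, 0, ⟨0, 0⟩, 0⟩, 0, 396787⟩ 0 0) (.pos 33 .pp ⟨⟨893345, 0, 0, 0, 0, 0, 0, 0, 0, ⟨0, 0⟩, 0⟩, 0, 466311⟩ 0 0)) (.cut .d 142931 (.cut .v 16908288 (.cut .s 2686976 (.pos 35 .pp ⟨⟨791459, 0, 0, 0, 0, 0, 0, 0, 0, ⟨0, 0⟩, 0⟩, 0, 428647⟩ 0 0) (.cut .s 2850816 (.pos 35 .pp ⟨⟨746421, 0, 0, 0, 0, 0, 0, 0, 0, ⟨0, 0⟩, 0⟩, 0, 433839⟩ 0 0) (.cut .d 71465 (.pos 35 .pp ⟨⟨692573, 0, 0, 0, 0, 0, 0, 0, 0, ⟨0, 0⟩, 0⟩, 0, 442768⟩ 0 0) (.pos 35 .pp ⟨⟨690798, 0, 0, 0, 0, 0, 0, 0, 0, ⟨0, 0⟩, 0⟩, 0, 451730⟩ 0 0)))) (.pos 36 .pp ⟨⟨866214,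 0, 0, 0, 0, 0, 0, 0, 0, ⟨0, 0⟩, 0⟩, 0, 284014⟩ 0 0)) (.cut .l 153791 (.pos 33 .pp ⟨⟨720673, 0, 0, 0, 0, 0, 0, 0, 0, ⟨0, 0⟩, 0⟩, 0, 595633⟩ 0 0) (.pos 33 .pp ⟨⟨730367, 0, 0, 0, 0, 0, 0, 0, 0, ⟨0, 0⟩, 0⟩, 0, 411152⟩ 0 0)))) (.cut .s 2359296 (.pos 34 .pp ⟨⟨1106789, 0, 0, 0, 0, 0, 0, 0, 0, ⟨0, 0⟩, 0⟩, 0, 150863⟩ 0 0) (.pos 34 .pp ⟨⟨917552, 0, 0, 0, 0, 0, 0, 0, 0, ⟨0, 0⟩, 0⟩, 0, 295108⟩ 0 0))) (.pos 31 .pp ⟨⟨864982, 0, 0, 0, 0, 0, 0, 0, 0, ⟨0, 0⟩, 0⟩, 0, 0⟩ 0 0)) (.cut .l 307582 (.cut .s 2359296 (.pos 31 .pp ⟨⟨958086, 0, 0, 0, 0, 0, 0, 0, 0, ⟨0, 0⟩, 0⟩, 0, 774107⟩ 0 0) (.cut .v 17039360 (.pos 33 .pp ⟨⟨0, 0, 0, 0, 0, 0, 0, 0,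 0, ⟨0, 0⟩, 0⟩, 0, 1460607⟩ 0 0) (.pos 34 .pp ⟨⟨823756, 0, 0, 0, 0, 0, 0, 0, 0, ⟨0, 0⟩, 0⟩, 0, 542149⟩ 0 0))) (.cut .s 2359296 (.pos 31 .pp ⟨⟨1095677, 0, 0, 0, 0, 0, 0, 0, 0, ⟨0, 0⟩, 0⟩, 0, 125291⟩ 0 0) (.cut .d 428795 (.pos 31 .pp ⟨⟨846827, 0, 0, 0, 0, 0, 0, 0, 0, ⟨0, 0⟩, 0⟩, 0, 301219⟩ 0 0) (.pos 31 .pp ⟨⟨863554, 0, 0, 0, 0, 0, 0, 0, 0, ⟨0, 0⟩, 0⟩, 0, 329559⟩ 0 0))))) (.cut .s 2359296 (.pos 32 .pp ⟨⟨1319047, 0, 0, 0, 0, 0, 0, 0, 0, ⟨0, 0⟩, 0⟩, 0, 0⟩ 0 0) (.cut .s 2686976 (.pos 32 .pp ⟨⟨1166359, 0, 0, 0, 0, 0, 0, 236778, 0, ⟨99726, 15793920⟩, 0⟩, 0, 0⟩ 36 43) (.pos 32 .pp ⟨⟨1081680, 0, 0, 0, 0, 0, 0, 305849, 0, ⟨141987,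 15536054⟩, 0⟩, 0, 0⟩ 41 48)))) (.cut .d 857590 (.cut .d 714658 (.cut .v 17301504 (.pos 31 .pp ⟨⟨0, 0, 0, 0, 0, 0, 0, 1537718, 0, ⟨75393, 15891223⟩, 0⟩, 0, 1351624⟩ 26 48) (.cut .v 17563648 (.cut .l 307582 (.void 37 ⟨⟨55588, 0, 0, 0, 0, 0, 0, 0, 0, ⟨0, 0⟩, 0⟩, 0, 44412⟩ 0 0) (.cut .l 461373 (.void 37 ⟨⟨758, 0, 0, 0, 0, 0, 0, 0, 0, ⟨0, 0⟩, 0⟩, 0, 99242⟩ 0 0) (.cut .s 2359296 (.cut .s 2031616 (.pos 37 .pp ⟨⟨1430118, 0, 0, 0, 0, 0, 0, 105416, 0, ⟨41674, 16223232⟩, 0⟩, 0, 0⟩ 26 33) (.pos 37 .pp ⟨⟨1265934, 0, 0, 0, 0, 0, 0, 443142, 0, ⟨69735, 16002304⟩, 0⟩, 0, 0⟩ 32 38)) (.cut .s 2686976 (.pos 37 .pp ⟨⟨1155341, 0, 0, 0, 0, 0,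 0, 404943, 0, ⟨103739, 15770026⟩, 0⟩, 0, 0⟩ 37 43) (.pos 37 .pp ⟨⟨1008871, 0, 0, 0, 0, 0, 0, 566424, 0, ⟨146998, 15509333⟩, 0⟩, 0, 0⟩ 42 48))))) (.void 38 ⟨⟨84276, 0, 0, 0, 0, 0, 0, 0, 0, ⟨0, 0⟩, 0⟩, 0, 15724⟩ 0 0))) (.void 29 ⟨⟨1134, 0, 0, 0, 0, 0, 0, 0, 0, ⟨0, 0⟩, 0⟩, 0, 98866⟩ 0 0)) (.void 29 ⟨⟨993, 0, 0, 0, 0, 0, 0, 0, 0, ⟨0, 0⟩, 0⟩, 0, 99007⟩ 0 0))) (.void 30 ⟨⟨84330, 0, 0, 0, 0, 0, 0, 0, 0, ⟨0, 0⟩, 0⟩, 0, 15670⟩ 0 0)) (.void 28 ⟨⟨100000, 0, 0, 0, 0, 0, 0, 0, 0, ⟨0, 0⟩, 0⟩, 0, 0⟩ 0 0)) (.void 26 ⟨⟨0, 0, 0, 0, 0, 0, 0, 0, 0, ⟨0, 0⟩, 0⟩, 100000, 0⟩ 0 0)) (.void 24 ⟨⟨0, 0, 0, 0, 0, 0, 0, 0, 0, ⟨0, 0⟩, 0⟩, 100000, 0⟩ 0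 0)))),
    by decide +kernel⟩

def covers2 : cell.Covers Vale.Agent.P237.Petty.Cor.Grid.N6.table row2.1 :=
  ⟨(.cut .d 0 (.cut .v 16777216 (.cut .v 8388608 (.void 2 ⟨⟨0, 0, 0, 0, 50000, 50000, 0, 0, 0, ⟨0, 0⟩, 0⟩, 0, 0⟩ 0 0) (.cut .v 12582912 (.void 8 ⟨⟨0, 0, 0, 0, 50000, 50000, 0, 0, 0, ⟨0, 0⟩, 0⟩, 0, 0⟩ 0 0) (.cut .v 14680064 (.pos 14 .mm ⟨⟨0, 0, 0, 0, 6667170, 10075493, 0, 0, 0, ⟨0, 0⟩, 0⟩, 0, 0⟩ 0 0) (.cut .d (-8388608) (.void 15 ⟨⟨0, 0, 0, 0, 0, 100000, 0, 0, 0, ⟨0, 0⟩, 0⟩, 0, 0⟩ 0 0) (.cut .v 15728640 (.pos 20 .mm ⟨⟨0, 0, 0, 0, 0, 2573286, 0, 0, 0, ⟨0, 0⟩, 0⟩, 0, 0⟩ 0 0) (.pos 21 .mm ⟨⟨0, 0, 0, 0, 0, 1076507, 0, 0,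 0, ⟨0, 0⟩, 0⟩, 0, 0⟩ 0 0)))))) (.cut .v 25165824 (.cut .v 20971520 (.pos 25 .mp ⟨⟨862495, 0, 0, 0, 0, 0, 0, 0, 0, ⟨0, 0⟩, 0⟩, 0, 0⟩ 0 0) (.void 26 ⟨⟨100000, 0, 0, 0, 0, 0, 0, 0, 0, ⟨0, 0⟩, 0⟩, 0, 0⟩ 0 0)) (.void 24 ⟨⟨0, 0, 0, 0, 0, 0, 100000, 0, 0, ⟨0, 0⟩, 0⟩, 0, 0⟩ 0 0))) (.cut .v 16777216 (.cut .v 8388608 (.void 2 ⟨⟨0, 0, 0, 0, 100000, 0, 0, 0, 0, ⟨0, 0⟩, 0⟩, 0, 0⟩ 0 0) (.cut .v 12582912 (.void 8 ⟨⟨0, 0, 0, 0, 100000, 0, 0, 0, 0, ⟨0, 0⟩, 0⟩, 0, 0⟩ 0 0) (.pos 9 .pm ⟨⟨0, 0, 0, 0, 0, 0, 0, 0, 0, ⟨0, 0⟩, 0⟩, 0, 607498⟩ 0 0))) (.cut .v 25165824 (.cut .v 20971520 (.cut .d 734039 (.cut .v 18874368 (.cut .v 17825792 (.cut .d 367019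 (.cut .v 17301504 (.cut .l 307582 (.cut .v 17039360 (.cut .d 183509 (.cut .l 153791 (.cut .v 16908288 (.cut .d 91754 (.cut .s 3407872 (.cut .l 76895 (.cut .v 16842752 (.cut .d 45877 (.cut .s 3211264 (.pos 41 .pp ⟨⟨644108, 0, 0, 0, 0, 0, 0, 0, 0, ⟨0, 0⟩, 0⟩, 0, 457117⟩ 0 0) (.cut .s 3309568 (.pos 41 .pp ⟨⟨611088, 0, 0, 0, 0, 0, 0, 0, 0, ⟨0, 0⟩, 0⟩, 0, 469121⟩ 0 0) (.pos 41 .pp ⟨⟨592339, 0, 0, 0, 0, 0, 0, 0, 0, ⟨0, 0⟩, 0⟩, 0, 469774⟩ 0 0))) (.pos 41 .pp ⟨⟨588699, 0, 0, 0, 0, 0, 0, 0, 0, ⟨0, 0⟩, 0⟩, 0, 513656⟩ 0 0)) (.pos 42 .pp ⟨⟨698826, 0, 0, 0, 0, 0, 0, 0, 0, ⟨0, 0⟩, 0⟩, 0, 412173⟩ 0 0)) (.pos 35 .pp ⟨⟨618967, 0, 0, 0, 0,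 0, 0, 0, 0, ⟨0, 0⟩, 0⟩, 0, 363945⟩ 0 0)) (.cut .l 76895 (.cut .s 3604480 (.cut .v 16842752 (.cut .d 45877 (.cut .l 38447 (.cut .v 16809984 (.cut .d 22938 (.cut .s 3506176 (.pos 45 .pp ⟨⟨569533, 0, 0, 0, 0, 0, 0, 0, 0, ⟨0, 0⟩, 0⟩, 0, 471491⟩ 0 0) (.cut .s 3555328 (.pos 45 .pp ⟨⟨554008, 0, 0, 0, 0, 0, 0, 0, 0, ⟨0, 0⟩, 0⟩, 0, 474970⟩ 0 0) (.pos 45 .pp ⟨⟨543078, 0, 0, 0, 0, 0, 0, 0, 0, ⟨0, 0⟩, 0⟩, 0, 475518⟩ 0 0))) (.pos 45 .pp ⟨⟨538339, 0, 0, 0, 0, 0, 0, 0, 0, ⟨0, 0⟩, 0⟩, 0, 499696⟩ 0 0)) (.pos 46 .pp ⟨⟨601340, 0, 0, 0, 0, 0, 0, 0, 0, ⟨0, 0⟩, 0⟩, 0, 447886⟩ 0 0)) (.pos 41 .pp ⟨⟨547131, 0, 0, 0, 0, 0, 0, 0, 0, ⟨0, 0⟩, 0⟩, 0,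 430237⟩ 0 0)) (.pos 41 .pp ⟨⟨548498, 0, 0, 0, 0, 0, 0, 0, 0, ⟨0, 0⟩, 0⟩, 0, 492078⟩ 0 0)) (.pos 42 .pp ⟨⟨637683, 0, 0, 0, 0, 0, 0, 0, 0, ⟨0, 0⟩, 0⟩, 0, 419819⟩ 0 0)) (.cut .d 45877 (.cut .v 16842752 (.cut .l 38447 (.cut .s 3702784 (.cut .d 22938 (.cut .v 16809984 (.cut .s 3653632 (.pos 45 .pp ⟨⟨531403, 0, 0, 0, 0, 0, 0, 0, 0, ⟨0, 0⟩, 0⟩, 0, 476649⟩ 0 0) (.pos 45 .pp ⟨⟨521584, 0, 0, 0, 0, 0, 0, 0, 0, ⟨0, 0⟩, 0⟩, 0, 476197⟩ 0 0)) (.pos 46 .pp ⟨⟨1132462, 0, 0, 0, 0, 0, 0, 0, 0, ⟨0, 0⟩, 0⟩, 0, 0⟩ 0 0)) (.pos 41 .pp ⟨⟨525930, 0, 0, 0, 0, 0, 0, 0, 0, ⟨0, 0⟩, 0⟩, 0, 482620⟩ 0 0)) (.cut .d 22938 (.cut .v 16809984 (.cut .l 19223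 (.cut .s 3751936 (.cut .s 3727360 (.pos 45 .pp ⟨⟨511790, 0, 0, 0, 0, 0, 0, 0, 0, ⟨0, 0⟩, 0⟩, 0, 478766⟩ 0 0) (.pos 45 .pp ⟨⟨506867, 0, 0, 0, 0, 0, 0, 0, 0, ⟨0, 0⟩, 0⟩, 0, 478595⟩ 0 0)) (.cut .d 11469 (.cut .s 3776512 (.pos 45 .pp ⟨⟨503295, 0, 0, 0, 0, 0, 0, 0, 0, ⟨0, 0⟩, 0⟩, 0, 476789⟩ 0 0) (.pos 45 .pp ⟨⟨498377, 0, 0, 0, 0, 0, 0, 0, 0, ⟨0, 0⟩, 0⟩, 0, 476405⟩ 0 0)) (.pos 45 .pp ⟨⟨497626, 0, 0, 0, 0, 0, 0, 0, 0, ⟨0, 0⟩, 0⟩, 0, 482032⟩ 0 0))) (.pos 45 .pp ⟨⟨496246, 0, 0, 0, 0, 0, 0, 0, 0, ⟨0, 0⟩, 0⟩, 0, 456991⟩ 0 0)) (.pos 46 .pp ⟨⟨1130541, 0, 0, 0, 0, 0, 0, 0, 0, ⟨0, 0⟩, 0⟩, 0, 0⟩ 0 0)) (.cut .s 3751936 (.pos 41 .pp ⟨⟨514582,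 0, 0, 0, 0, 0, 0, 0, 0, ⟨0, 0⟩, 0⟩, 0, 476471⟩ 0 0) (.pos 41 .pp ⟨⟨504543, 0, 0, 0, 0, 0, 0, 0, 0, ⟨0, 0⟩, 0⟩, 0, 475452⟩ 0 0)))) (.pos 41 .pp ⟨⟨506697, 0, 0, 0, 0, 0, 0, 0, 0, ⟨0, 0⟩, 0⟩, 0, 437363⟩ 0 0)) (.pos 42 .pp ⟨⟨1133627, 0, 0, 0, 0, 0, 0, 0, 0, ⟨0, 0⟩, 0⟩, 0, 0⟩ 0 0)) (.cut .s 3702784 (.pos 35 .pp ⟨⟨536384, 0, 0, 0, 0, 0, 0, 0, 0, ⟨0, 0⟩, 0⟩, 0, 473741⟩ 0 0) (.cut .s 3751936 (.pos 35 .pp ⟨⟨518613, 0, 0, 0, 0, 0, 0, 0, 0, ⟨0, 0⟩, 0⟩, 0, 475209⟩ 0 0) (.pos 35 .pp ⟨⟨507560, 0, 0, 0, 0, 0, 0, 0, 0, ⟨0, 0⟩, 0⟩, 0, 475260⟩ 0 0))))) (.pos 35 .pp ⟨⟨533764, 0, 0, 0, 0, 0, 0, 0, 0, ⟨0, 0⟩, 0⟩, 0, 391060⟩ 0 0))) (.cut .l 76895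 (.void 35 ⟨⟨305, 0, 0, 0, 0, 0, 0, 0, 0, ⟨0, 0⟩, 0⟩, 0, 99695⟩ 0 0) (.pos 35 .pp ⟨⟨551186, 0, 0, 0, 0, 0, 0, 0, 0, ⟨0, 0⟩, 0⟩, 0, 438694⟩ 0 0))) (.cut .d 91754 (.pos 36 .pp ⟨⟨1139808, 0, 0, 0, 0, 0, 0, 0, 0, ⟨0, 0⟩, 0⟩, 0, 0⟩ 0 0) (.cut .s 3407872 (.pos 36 .pp ⟨⟨675661, 0, 0, 0, 0, 0, 0, 0, 0, ⟨0, 0⟩, 0⟩, 0, 454166⟩ 0 0) (.cut .s 3604480 (.pos 36 .pp ⟨⟨604570, 0, 0, 0, 0, 0, 0, 0, 0, ⟨0, 0⟩, 0⟩, 0, 460564⟩ 0 0) (.pos 36 .pp ⟨⟨560218, 0, 0, 0, 0, 0, 0, 0, 0, ⟨0, 0⟩, 0⟩, 0, 462024⟩ 0 0))))) (.cut .s 3407872 (.pos 33 .pp ⟨⟨671637, 0, 0, 0, 0, 0, 0, 0, 0, ⟨0, 0⟩, 0⟩, 0, 268312⟩ 0 0) (.pos 33 .pp ⟨⟨576390, 0, 0, 0, 0, 0, 0, 0,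 0, ⟨0, 0⟩, 0⟩, 0, 308897⟩ 0 0))) (.cut .d 275264 (.cut .v 16908288 (.pos 35 .pp ⟨⟨0, 0, 0, 0, 0, 0, 0, 857115, 0, ⟨228420, 15061011⟩, 0⟩, 0, 584655⟩ 46 59) (.cut .l 153791 (.void 36 ⟨⟨613, 0, 0, 0, 0, 0, 0, 0, 0, ⟨0, 0⟩, 0⟩, 0, 99387⟩ 0 0) (.pos 36 .pp ⟨⟨607524, 0, 0, 0, 0, 0, 0, 0, 0, ⟨0, 0⟩, 0⟩, 0, 410117⟩ 0 0))) (.pos 33 .pp ⟨⟨0, 0, 0, 0, 0, 0, 0, 0, 0, ⟨0, 0⟩, 0⟩, 0, 1088634⟩ 0 0))) (.cut .d 183509 (.pos 34 .pp ⟨⟨1153551, 0, 0, 0, 0, 0, 0, 0, 0, ⟨0, 0⟩, 0⟩, 0, 0⟩ 0 0) (.cut .s 3407872 (.pos 34 .pp ⟨⟨728637, 0, 0, 0, 0, 0, 0, 0, 0, ⟨0, 0⟩, 0⟩, 0, 438776⟩ 0 0) (.cut .s 3604480 (.pos 34 .pp ⟨⟨649943, 0, 0, 0, 0, 0, 0, 0,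 0, ⟨0, 0⟩, 0⟩, 0, 444980⟩ 0 0) (.pos 34 .pp ⟨⟨604714, 0, 0, 0, 0, 0, 0, 0, 0, ⟨0, 0⟩, 0⟩, 0, 444388⟩ 0 0))))) (.cut .v 17039360 (.pos 33 .pp ⟨⟨0, 0, 0, 0, 0, 0, 0, 0, 0, ⟨0, 0⟩, 0⟩, 0, 0⟩ 0 0) (.pos 34 .pp ⟨⟨748111, 0, 0, 0, 0, 0, 0, 0, 0, ⟨0, 0⟩, 0⟩, 0, 254776⟩ 0 0))) (.pos 32 .pp ⟨⟨1182572, 0, 0, 0, 0, 0, 0, 0, 0, ⟨0, 0⟩, 0⟩, 0, 0⟩ 0 0)) (.cut .l 307582 (.void 29 ⟨⟨1247, 0, 0, 0, 0, 0, 0, 0, 0, ⟨0, 0⟩, 0⟩, 0, 98753⟩ 0 0) (.cut .v 17301504 (.cut .s 3407872 (.pos 31 .pp ⟨⟨722635, 0, 0, 0, 0, 0, 0, 918840, 0, ⟨211889, 15158848⟩, 0⟩, 0, 0⟩ 47 55) (.pos 31 .pp ⟨⟨640808, 0, 0, 0, 0, 0, 0, 899976, 0, ⟨293495, 14771712⟩, 0⟩, 0,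 0⟩ 53 61)) (.cut .d 550529 (.pos 32 .pp ⟨⟨972941, 0, 0, 0, 0, 0, 0, 426032, 0, ⟨241503, 14997543⟩, 0⟩, 0, 6262⟩ 47 60) (.cut .v 17563648 (.pos 37 .pp ⟨⟨946132, 0, 0, 0, 0, 0, 0, 498885, 0, ⟨247614, 14964260⟩, 0⟩, 0, 28460⟩ 47 61) (.pos 38 .pp ⟨⟨1656187, 0, 0, 0, 0, 0, 0, 411101, 0, ⟨247614, 14964260⟩, 0⟩, 0, 112889⟩ 47 61)))))) (.void 30 ⟨⟨100000, 0, 0, 0, 0, 0, 0, 0, 0, ⟨0, 0⟩, 0⟩, 0, 0⟩ 0 0)) (.void 28 ⟨⟨100000, 0, 0, 0, 0, 0, 0, 0, 0, ⟨0, 0⟩, 0⟩, 0, 0⟩ 0 0)) (.void 25 ⟨⟨2736, 0, 0, 0, 0, 0, 0, 0, 0, ⟨0, 0⟩, 0⟩, 0, 97264⟩ 0 0)) (.void 26 ⟨⟨0, 0, 0, 0, 0, 0, 0, 0, 0, ⟨0, 0⟩, 0⟩, 100000, 0⟩ 0 0)) (.void 24 ⟨⟨0, 0, 0, 0,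 0, 0, 0, 0, 0, ⟨0, 0⟩, 0⟩, 100000, 0⟩ 0 0)))),
    by decide +kernel⟩

def covers3 : cell.Covers Vale.Agent.P237.Petty.Cor.Grid.N6.table row3.1 :=
  ⟨(.cut .d 0 (.cut .v 16777216 (.cut .v 8388608 (.void 2 ⟨⟨0, 0, 0, 0, 50000, 50000, 0, 0, 0, ⟨0, 0⟩, 0⟩, 0, 0⟩ 0 0) (.cut .v 12582912 (.void 8 ⟨⟨0, 0, 0, 0, 50000, 50000, 0, 0, 0, ⟨0, 0⟩, 0⟩, 0, 0⟩ 0 0) (.cut .v 14680064 (.pos 14 .mm ⟨⟨0, 0, 0, 0, 0, 2526260, 0, 0, 0, ⟨0, 0⟩, 0⟩, 0, 0⟩ 0 0) (.pos 15 .mm ⟨⟨0, 0, 0, 0, 0, 1276278, 0, 0, 0, ⟨0, 0⟩, 0⟩, 0, 0⟩ 0 0)))) (.cut .v 25165824 (.cut .v 20971520 (.pos 25 .mp ⟨⟨748951, 0, 0, 0, 0, 0, 0, 0, 0, ⟨0, 0⟩, 0⟩, 0, 0⟩ 0 0) (.void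 26 ⟨⟨100000, 0, 0, 0, 0, 0, 0, 0, 0, ⟨0, 0⟩, 0⟩, 0, 0⟩ 0 0)) (.void 24 ⟨⟨100000, 0, 0, 0, 0, 0, 0, 0, 0, ⟨0, 0⟩, 0⟩, 0, 0⟩ 0 0))) (.cut .v 16777216 (.cut .v 8388608 (.void 2 ⟨⟨0, 0, 0, 0, 100000, 0, 0, 0, 0, ⟨0, 0⟩, 0⟩, 0, 0⟩ 0 0) (.cut .v 12582912 (.void 8 ⟨⟨0, 0, 0, 0, 100000, 0, 0, 0, 0, ⟨0, 0⟩, 0⟩, 0, 0⟩ 0 0) (.pos 9 .pm ⟨⟨0, 0, 0, 0, 0, 0, 0, 0, 0, ⟨0, 0⟩, 0⟩, 0, 513994⟩ 0 0))) (.cut .v 25165824 (.cut .v 20971520 (.cut .d 904329 (.cut .v 18874368 (.cut .v 17825792 (.cut .d 452164 (.cut .v 17301504 (.cut .l 307582 (.cut .d 226082 (.cut .v 17039360 (.cut .l 153791 (.cut .d 113041 (.cut .v 16908288 (.cut .l 76895 (.cut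 .s 4161536 (.cut .d 56520 (.cut .s 3981312 (.cut .v 16842752 (.cut .l 38447 (.cut .d 28260 (.cut .s 3891200 (.cut .v 16809984 (.cut .l 19223 (.cut .d 14130 (.cut .s 3846144 (.cut .d 7065 (.cut .s 3823616 (.pos 45 .pp ⟨⟨492217, 0, 0, 0, 0, 0, 0, 0, 0, ⟨0, 0⟩, 0⟩, 0, 477242⟩ 0 0) (.pos 45 .pp ⟨⟨487717, 0, 0, 0, 0, 0, 0, 0, 0, ⟨0, 0⟩, 0⟩, 0, 476949⟩ 0 0)) (.pos 45 .pp ⟨⟨489132, 0, 0, 0, 0, 0, 0, 0, 0, ⟨0, 0⟩, 0⟩, 0, 477712⟩ 0 0)) (.cut .l 9611 (.cut .d 7065 (.cut .s 3868672 (.pos 45 .pp ⟨⟨483216, 0, 0, 0, 0, 0, 0, 0, 0, ⟨0, 0⟩, 0⟩, 0, 476638⟩ 0 0) (.cut .s 3879936 (.pos 45 .pp ⟨⟨478967, 0, 0, 0, 0, 0, 0, 0, 0, ⟨0, 0⟩, 0⟩, 0,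 477512⟩ 0 0) (.pos 45 .pp ⟨⟨476709, 0, 0, 0, 0, 0, 0, 0, 0, ⟨0, 0⟩, 0⟩, 0, 477385⟩ 0 0))) (.pos 45 .pp ⟨⟨476830, 0, 0, 0, 0, 0, 0, 0, 0, ⟨0, 0⟩, 0⟩, 0, 486149⟩ 0 0)) (.pos 45 .pp ⟨⟨477602, 0, 0, 0, 0, 0, 0, 0, 0, ⟨0, 0⟩, 0⟩, 0, 468796⟩ 0 0))) (.cut .s 3846144 (.pos 45 .pp ⟨⟨487335, 0, 0, 0, 0, 0, 0, 0, 0, ⟨0, 0⟩, 0⟩, 0, 482621⟩ 0 0) (.pos 45 .pp ⟨⟨478182, 0, 0, 0, 0, 0, 0, 0, 0, ⟨0, 0⟩, 0⟩, 0, 481967⟩ 0 0))) (.pos 45 .pp ⟨⟨476812, 0, 0, 0, 0, 0, 0, 0, 0, ⟨0, 0⟩, 0⟩, 0, 457549⟩ 0 0)) (.pos 46 .pp ⟨⟨507099, 0, 0, 0, 0, 0, 0, 0, 0, ⟨0, 0⟩, 0⟩, 0, 464422⟩ 0 0)) (.cut .l 19223 (.cut .v 16809984 (.cut .d 14130 (.cut .s 3936256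 (.cut .l 9611 (.cut .v 16793600 (.cut .d 7065 (.cut .l 4805 (.cut .v 16785408 (.cut .s 3913728 (.pos 51 .pp ⟨⟨472474, 0, 0, 0, 0, 0, 0, 0, 0, ⟨0, 0⟩, 0⟩, 0, 476904⟩ 0 0) (.cut .s 3924992 (.pos 51 .pp ⟨⟨468764, 0, 0, 0, 0, 0, 0, 0, 0, ⟨0, 0⟩, 0⟩, 0, 477321⟩ 0 0) (.pos 51 .pp ⟨⟨466328, 0, 0, 0, 0, 0, 0, 0, 0, ⟨0, 0⟩, 0⟩, 0, 477319⟩ 0 0))) (.void 52 ⟨⟨80993, 0, 0, 0, 0, 0, 0, 0, 0, ⟨0, 0⟩, 0⟩, 0, 19007⟩ 0 0)) (.pos 47 .pp ⟨⟨469053, 0, 0, 0, 0, 0, 0, 0, 0, ⟨0, 0⟩, 0⟩, 0, 468924⟩ 0 0)) (.pos 47 .pp ⟨⟨467295, 0, 0, 0, 0, 0, 0, 0, 0, ⟨0, 0⟩, 0⟩, 0, 483414⟩ 0 0)) (.void 48 ⟨⟨80990, 0, 0, 0, 0, 0, 0, 0, 0, ⟨0, 0⟩, 0⟩, 0, 19010⟩ 0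 0)) (.pos 45 .pp ⟨⟨468449, 0, 0, 0, 0, 0, 0, 0, 0, ⟨0, 0⟩, 0⟩, 0, 469542⟩ 0 0)) (.cut .l 9611 (.cut .v 16793600 (.cut .d 7065 (.cut .l 4805 (.cut .v 16785408 (.cut .s 3958784 (.cut .s 3947520 (.pos 51 .pp ⟨⟨463904, 0, 0, 0, 0, 0, 0, 0, 0, ⟨0, 0⟩, 0⟩, 0, 477300⟩ 0 0) (.pos 51 .pp ⟨⟨461493, 0, 0, 0, 0, 0, 0, 0, 0, ⟨0, 0⟩, 0⟩, 0, 477266⟩ 0 0)) (.cut .s 3970048 (.pos 51 .pp ⟨⟨459094, 0, 0, 0, 0, 0, 0, 0, 0, ⟨0, 0⟩, 0⟩, 0, 477216⟩ 0 0) (.pos 51 .pp ⟨⟨456767, 0, 0, 0, 0, 0, 0, 0, 0, ⟨0, 0⟩, 0⟩, 0, 477116⟩ 0 0))) (.void 52 ⟨⟨80818, 0, 0, 0, 0, 0, 0, 0, 0, ⟨0, 0⟩, 0⟩, 0, 19182⟩ 0 0)) (.pos 47 .pp ⟨⟨460078, 0, 0, 0, 0, 0, 0, 0, 0,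 ⟨0, 0⟩, 0⟩, 0, 469062⟩ 0 0)) (.pos 47 .pp ⟨⟨458185, 0, 0, 0, 0, 0, 0, 0, 0, ⟨0, 0⟩, 0⟩, 0, 482711⟩ 0 0)) (.void 48 ⟨⟨80814, 0, 0, 0, 0, 0, 0, 0, 0, ⟨0, 0⟩, 0⟩, 0, 19186⟩ 0 0)) (.pos 45 .pp ⟨⟨459289, 0, 0, 0, 0, 0, 0, 0, 0, ⟨0, 0⟩, 0⟩, 0, 469985⟩ 0 0))) (.cut .s 3936256 (.pos 45 .pp ⟨⟨469023, 0, 0, 0, 0, 0, 0, 0, 0, ⟨0, 0⟩, 0⟩, 0, 481304⟩ 0 0) (.pos 45 .pp ⟨⟨459859, 0, 0, 0, 0, 0, 0, 0, 0, ⟨0, 0⟩, 0⟩, 0, 480635⟩ 0 0))) (.void 46 ⟨⟨80808, 0, 0, 0, 0, 0, 0, 0, 0, ⟨0, 0⟩, 0⟩, 0, 19192⟩ 0 0)) (.cut .s 3936256 (.pos 41 .pp ⟨⟨472532, 0, 0, 0, 0, 0, 0, 0, 0, ⟨0, 0⟩, 0⟩, 0, 461066⟩ 0 0) (.pos 41 .pp ⟨⟨463294, 0, 0, 0, 0, 0, 0, 0,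 0, ⟨0, 0⟩, 0⟩, 0, 461376⟩ 0 0)))) (.cut .s 3891200 (.pos 41 .pp ⟨⟨485465, 0, 0, 0, 0, 0, 0, 0, 0, ⟨0, 0⟩, 0⟩, 0, 481782⟩ 0 0) (.cut .s 3936256 (.pos 41 .pp ⟨⟨467994, 0, 0, 0, 0, 0, 0, 0, 0, ⟨0, 0⟩, 0⟩, 0, 484665⟩ 0 0) (.pos 41 .pp ⟨⟨458598, 0, 0, 0, 0, 0, 0, 0, 0, ⟨0, 0⟩, 0⟩, 0, 484116⟩ 0 0)))) (.pos 41 .pp ⟨⟨465867, 0, 0, 0, 0, 0, 0, 0, 0, ⟨0, 0⟩, 0⟩, 0, 441711⟩ 0 0)) (.pos 42 .pp ⟨⟨516364, 0, 0, 0, 0, 0, 0, 0, 0, ⟨0, 0⟩, 0⟩, 0, 453190⟩ 0 0)) (.cut .v 16842752 (.cut .l 38447 (.cut .d 28260 (.cut .s 4071424 (.cut .l 19223 (.cut .v 16809984 (.cut .d 14130 (.cut .s 4026368 (.cut .l 9611 (.cut .v 16793600 (.cut .d 7065 (.cut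 .l 4805 (.cut .v 16785408 (.cut .s 4003840 (.cut .s 3992576 (.pos 51 .pp ⟨⟨454505, 0, 0, 0, 0, 0, 0, 0, 0, ⟨0, 0⟩, 0⟩, 0, 476971⟩ 0 0) (.pos 51 .pp ⟨⟨452243, 0, 0, 0, 0, 0, 0, 0, 0, ⟨0, 0⟩, 0⟩, 0, 476819⟩ 0 0)) (.cut .s 4015104 (.pos 51 .pp ⟨⟨449980, 0, 0, 0, 0, 0, 0, 0, 0, ⟨0, 0⟩, 0⟩, 0, 476659⟩ 0 0) (.pos 51 .pp ⟨⟨447717, 0, 0, 0, 0, 0, 0, 0, 0, ⟨0, 0⟩, 0⟩, 0, 476492⟩ 0 0))) (.void 52 ⟨⟨80643, 0, 0, 0, 0, 0, 0, 0, 0, ⟨0, 0⟩, 0⟩, 0, 19357⟩ 0 0)) (.pos 47 .pp ⟨⟨451098, 0, 0, 0, 0, 0, 0, 0, 0, ⟨0, 0⟩, 0⟩, 0, 468913⟩ 0 0)) (.cut .s 4003840 (.pos 47 .pp ⟨⟨452104, 0, 0, 0, 0, 0, 0, 0, 0, ⟨0, 0⟩, 0⟩, 0, 479825⟩ 0 0) (.pos 47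 .pp ⟨⟨447561, 0, 0, 0, 0, 0, 0, 0, 0, ⟨0, 0⟩, 0⟩, 0, 479426⟩ 0 0))) (.void 48 ⟨⟨80639, 0, 0, 0, 0, 0, 0, 0, 0, ⟨0, 0⟩, 0⟩, 0, 19361⟩ 0 0)) (.pos 45 .pp ⟨⟨450124, 0, 0, 0, 0, 0, 0, 0, 0, ⟨0, 0⟩, 0⟩, 0, 470133⟩ 0 0)) (.cut .l 9611 (.cut .v 16793600 (.cut .d 7065 (.cut .s 4048896 (.cut .l 4805 (.cut .d 3532 (.cut .s 4037632 (.pos 47 .pp ⟨⟨445884, 0, 0, 0, 0, 0, 0, 0, 0, ⟨0, 0⟩, 0⟩, 0, 475979⟩ 0 0) (.pos 47 .pp ⟨⟨443631, 0, 0, 0, 0, 0, 0, 0, 0, ⟨0, 0⟩, 0⟩, 0, 475780⟩ 0 0)) (.pos 47 .pp ⟨⟨442683, 0, 0, 0, 0, 0, 0, 0, 0, ⟨0, 0⟩, 0⟩, 0, 480527⟩ 0 0)) (.pos 47 .pp ⟨⟨442737, 0, 0, 0, 0, 0, 0, 0, 0, ⟨0, 0⟩, 0⟩, 0, 472592⟩ 0 0)) (.cut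 .l 4805 (.cut .d 3532 (.cut .s 4060160 (.pos 47 .pp ⟨⟨441377, 0, 0, 0, 0, 0, 0, 0, 0, ⟨0, 0⟩, 0⟩, 0, 475576⟩ 0 0) (.pos 47 .pp ⟨⟨439122, 0, 0, 0, 0, 0, 0, 0, 0, ⟨0, 0⟩, 0⟩, 0, 475369⟩ 0 0)) (.pos 47 .pp ⟨⟨438175, 0, 0, 0, 0, 0, 0, 0, 0, ⟨0, 0⟩, 0⟩, 0, 480058⟩ 0 0)) (.pos 47 .pp ⟨⟨438194, 0, 0, 0, 0, 0, 0, 0, 0, ⟨0, 0⟩, 0⟩, 0, 472367⟩ 0 0))) (.cut .s 4048896 (.pos 47 .pp ⟨⟨443017, 0, 0, 0, 0, 0, 0, 0, 0, ⟨0, 0⟩, 0⟩, 0, 479026⟩ 0 0) (.pos 47 .pp ⟨⟨438470, 0, 0, 0, 0, 0, 0, 0, 0, ⟨0, 0⟩, 0⟩, 0, 478625⟩ 0 0))) (.void 48 ⟨⟨80465, 0, 0, 0, 0, 0, 0, 0, 0, ⟨0, 0⟩, 0⟩, 0, 19535⟩ 0 0)) (.pos 45 .pp ⟨⟨440952, 0, 0, 0, 0, 0, 0, 0, 0,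 ⟨0, 0⟩, 0⟩, 0, 469995⟩ 0 0))) (.cut .s 4026368 (.pos 45 .pp ⟨⟨450688, 0, 0, 0, 0, 0, 0, 0, 0, ⟨0, 0⟩, 0⟩, 0, 479959⟩ 0 0) (.pos 45 .pp ⟨⟨441511, 0, 0, 0, 0, 0, 0, 0, 0, ⟨0, 0⟩, 0⟩, 0, 479277⟩ 0 0))) (.void 46 ⟨⟨80458, 0, 0, 0, 0, 0, 0, 0, 0, ⟨0, 0⟩, 0⟩, 0, 19542⟩ 0 0)) (.cut .s 4026368 (.pos 41 .pp ⟨⟨454048, 0, 0, 0, 0, 0, 0, 0, 0, ⟨0, 0⟩, 0⟩, 0, 461400⟩ 0 0) (.pos 41 .pp ⟨⟨444793, 0, 0, 0, 0, 0, 0, 0, 0, ⟨0, 0⟩, 0⟩, 0, 461146⟩ 0 0))) (.cut .l 19223 (.cut .v 16809984 (.cut .d 14130 (.cut .s 4116480 (.cut .l 9611 (.cut .v 16793600 (.cut .d 7065 (.cut .s 4093952 (.cut .l 4805 (.cut .d 3532 (.cut .v 16785408 (.cut .s 4082688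 (.pos 51 .pp ⟨⟨436593, 0, 0, 0, 0, 0, 0, 0, 0, ⟨0, 0⟩, 0⟩, 0, 475283⟩ 0 0) (.pos 51 .pp ⟨⟨434344, 0, 0, 0, 0, 0, 0, 0, 0, ⟨0, 0⟩, 0⟩, 0, 475064⟩ 0 0)) (.void 52 ⟨⟨100000, 0, 0, 0, 0, 0, 0, 0, 0, ⟨0, 0⟩, 0⟩, 0, 0⟩ 0 0)) (.pos 47 .pp ⟨⟨433666, 0, 0, 0, 0, 0, 0, 0, 0, ⟨0, 0⟩, 0⟩, 0, 479590⟩ 0 0)) (.pos 47 .pp ⟨⟨433684, 0, 0, 0, 0, 0, 0, 0, 0, ⟨0, 0⟩, 0⟩, 0, 471997⟩ 0 0)) (.cut .l 4805 (.cut .d 3532 (.cut .s 4105216 (.cut .s 4099584 (.pos 47 .pp ⟨⟨432425, 0, 0, 0, 0, 0, 0, 0, 0, ⟨0, 0⟩, 0⟩, 0, 475316⟩ 0 0) (.pos 47 .pp ⟨⟨431296, 0, 0, 0, 0, 0, 0, 0, 0, ⟨0, 0⟩, 0⟩, 0, 475205⟩ 0 0)) (.pos 47 .pp ⟨⟨430101, 0, 0, 0, 0, 0, 0, 0,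 0, ⟨0, 0⟩, 0⟩, 0, 474496⟩ 0 0)) (.pos 47 .pp ⟨⟨429155, 0, 0, 0, 0, 0, 0, 0, 0, ⟨0, 0⟩, 0⟩, 0, 479121⟩ 0 0)) (.pos 47 .pp ⟨⟨429173, 0, 0, 0, 0, 0, 0, 0, 0, ⟨0, 0⟩, 0⟩, 0, 471559⟩ 0 0))) (.cut .s 4093952 (.pos 47 .pp ⟨⟨433922, 0, 0, 0, 0, 0, 0, 0, 0, ⟨0, 0⟩, 0⟩, 0, 478224⟩ 0 0) (.pos 47 .pp ⟨⟨429373, 0, 0, 0, 0, 0, 0, 0, 0, ⟨0, 0⟩, 0⟩, 0, 477822⟩ 0 0))) (.void 48 ⟨⟨80291, 0, 0, 0, 0, 0, 0, 0, 0, ⟨0, 0⟩, 0⟩, 0, 19709⟩ 0 0)) (.pos 45 .pp ⟨⟨431796, 0, 0, 0, 0, 0, 0, 0, 0, ⟨0, 0⟩, 0⟩, 0, 469529⟩ 0 0)) (.cut .l 9611 (.cut .v 16793600 (.cut .d 7065 (.cut .l 4805 (.cut .v 16785408 (.cut .s 4139008 (.cut .d 3532 (.cut .s 4127744 (.pos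 51 .pp ⟨⟨427596, 0, 0, 0, 0, 0, 0, 0, 0, ⟨0, 0⟩, 0⟩, 0, 474380⟩ 0 0) (.pos 51 .pp ⟨⟨425346, 0, 0, 0, 0, 0, 0, 0, 0, ⟨0, 0⟩, 0⟩, 0, 474144⟩ 0 0)) (.pos 51 .pp ⟨⟨424161, 0, 0, 0, 0, 0, 0, 0, 0, ⟨0, 0⟩, 0⟩, 0, 478316⟩ 0 0)) (.cut .s 4150272 (.cut .s 4144640 (.pos 51 .pp ⟨⟨423044, 0, 0, 0, 0, 0, 0, 0, 0, ⟨0, 0⟩, 0⟩, 0, 474600⟩ 0 0) (.pos 51 .pp ⟨⟨421947, 0, 0, 0, 0, 0, 0, 0, 0, ⟨0, 0⟩, 0⟩, 0, 474456⟩ 0 0)) (.pos 51 .pp ⟨⟨420526, 0, 0, 0, 0, 0, 0, 0, 0, ⟨0, 0⟩, 0⟩, 0, 473959⟩ 0 0))) (.void 52 ⟨⟨80122, 0, 0, 0, 0, 0, 0, 0, 0, ⟨0, 0⟩, 0⟩, 0, 19878⟩ 0 0)) (.pos 47 .pp ⟨⟨424122, 0, 0, 0, 0, 0, 0, 0, 0, ⟨0, 0⟩, 0⟩, 0, 466818⟩ 0 0))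 (.cut .s 4139008 (.pos 47 .pp ⟨⟨424821, 0, 0, 0, 0, 0, 0, 0, 0, ⟨0, 0⟩, 0⟩, 0, 477419⟩ 0 0) (.pos 47 .pp ⟨⟨420268, 0, 0, 0, 0, 0, 0, 0, 0, ⟨0, 0⟩, 0⟩, 0, 477016⟩ 0 0))) (.void 48 ⟨⟨80118, 0, 0, 0, 0, 0, 0, 0, 0, ⟨0, 0⟩, 0⟩, 0, 19882⟩ 0 0)) (.pos 45 .pp ⟨⟨422760, 0, 0, 0, 0, 0, 0, 0, 0, ⟨0, 0⟩, 0⟩, 0, 468523⟩ 0 0))) (.cut .s 4116480 (.pos 45 .pp ⟨⟨432327, 0, 0, 0, 0, 0, 0, 0, 0, ⟨0, 0⟩, 0⟩, 0, 478589⟩ 0 0) (.pos 45 .pp ⟨⟨423136, 0, 0, 0, 0, 0, 0, 0, 0, ⟨0, 0⟩, 0⟩, 0, 477895⟩ 0 0))) (.void 46 ⟨⟨80112, 0, 0, 0, 0, 0, 0, 0, 0, ⟨0, 0⟩, 0⟩, 0, 19888⟩ 0 0)) (.cut .s 4116480 (.pos 41 .pp ⟨⟨435529, 0, 0, 0, 0, 0, 0, 0, 0, ⟨0, 0⟩,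 0⟩, 0, 460620⟩ 0 0) (.pos 41 .pp ⟨⟨426255, 0, 0, 0, 0, 0, 0, 0, 0, ⟨0, 0⟩, 0⟩, 0, 459830⟩ 0 0)))) (.cut .d 42390 (.cut .v 16809984 (.pos 45 .pp ⟨⟨0, 0, 0, 0, 0, 0, 0, 0, 0, ⟨0, 0⟩, 0⟩, 0, 791066⟩ 0 0) (.cut .v 16826368 (.cut .l 19223 (.void 55 ⟨⟨81, 0, 0, 0, 0, 0, 0, 0, 0, ⟨0, 0⟩, 0⟩, 0, 99919⟩ 0 0) (.cut .s 4071424 (.pos 55 .pp ⟨⟨458981, 0, 0, 0, 0, 0, 0, 0, 0, ⟨0, 0⟩, 0⟩, 0, 466557⟩ 0 0) (.pos 55 .pp ⟨⟨441982, 0, 0, 0, 0, 0, 0, 0, 0, ⟨0, 0⟩, 0⟩, 0, 464901⟩ 0 0))) (.pos 56 .pp ⟨⟨475197, 0, 0, 0, 0, 0, 0, 0, 0, ⟨0, 0⟩, 0⟩, 0, 465461⟩ 0 0))) (.pos 41 .pp ⟨⟨436545, 0, 0, 0, 0, 0, 0, 0, 0, ⟨0, 0⟩, 0⟩, 0, 494475⟩ 0 0))) (.pos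 41 .pp ⟨⟨431074, 0, 0, 0, 0, 0, 0, 0, 0, ⟨0, 0⟩, 0⟩, 0, 442924⟩ 0 0)) (.cut .s 4071424 (.pos 42 .pp ⟨⟨483933, 0, 0, 0, 0, 0, 0, 0, 0, ⟨0, 0⟩, 0⟩, 0, 455510⟩ 0 0) (.pos 42 .pp ⟨⟨466159, 0, 0, 0, 0, 0, 0, 0, 0, ⟨0, 0⟩, 0⟩, 0, 454690⟩ 0 0)))) (.cut .d 84780 (.cut .l 38447 (.void 35 ⟨⟨153, 0, 0, 0, 0, 0, 0, 0, 0, ⟨0, 0⟩, 0⟩, 0, 99847⟩ 0 0) (.cut .v 16842752 (.pos 41 .pp ⟨⟨0, 0, 0, 0, 0, 0, 0, 0, 0, ⟨0, 0⟩, 0⟩, 0, 800548⟩ 0 0) (.cut .s 3981312 (.pos 42 .pp ⟨⟨499607, 0, 0, 0, 0, 0, 0, 0, 0, ⟨0, 0⟩, 0⟩, 0, 459242⟩ 0 0) (.pos 42 .pp ⟨⟨465167, 0, 0, 0, 0, 0, 0, 0, 0, ⟨0, 0⟩, 0⟩, 0, 457039⟩ 0 0)))) (.pos 35 .pp ⟨⟨457424, 0, 0, 0,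 0, 0, 0, 0, 0, ⟨0, 0⟩, 0⟩, 0, 513392⟩ 0 0))) (.cut .d 56520 (.cut .v 16842752 (.cut .l 38447 (.cut .s 4341760 (.cut .d 28260 (.cut .s 4251648 (.cut .l 19223 (.cut .v 16809984 (.cut .d 14130 (.cut .s 4206592 (.cut .l 9611 (.cut .v 16793600 (.cut .d 7065 (.cut .l 4805 (.cut .v 16785408 (.cut .s 4184064 (.cut .s 4172800 (.pos 51 .pp ⟨⟨418257, 0, 0, 0, 0, 0, 0, 0, 0, ⟨0, 0⟩, 0⟩, 0, 473705⟩ 0 0) (.pos 51 .pp ⟨⟨415988, 0, 0, 0, 0, 0, 0, 0, 0, ⟨0, 0⟩, 0⟩, 0, 473445⟩ 0 0)) (.cut .s 4195328 (.pos 51 .pp ⟨⟨413719, 0, 0, 0, 0, 0, 0, 0, 0, ⟨0, 0⟩, 0⟩, 0, 473178⟩ 0 0) (.pos 51 .pp ⟨⟨411547, 0, 0, 0, 0, 0, 0, 0, 0, ⟨0, 0⟩, 0⟩, 0, 472853⟩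 0 0))) (.void 52 ⟨⟨79950, 0, 0, 0, 0, 0, 0, 0, 0, ⟨0, 0⟩, 0⟩, 0, 20050⟩ 0 0)) (.pos 47 .pp ⟨⟨415117, 0, 0, 0, 0, 0, 0, 0, 0, ⟨0, 0⟩, 0⟩, 0, 465595⟩ 0 0)) (.pos 47 .pp ⟨⟨412522, 0, 0, 0, 0, 0, 0, 0, 0, ⟨0, 0⟩, 0⟩, 0, 479137⟩ 0 0)) (.void 48 ⟨⟨79946, 0, 0, 0, 0, 0, 0, 0, 0, ⟨0, 0⟩, 0⟩, 0, 20054⟩ 0 0)) (.pos 45 .pp ⟨⟨413719, 0, 0, 0, 0, 0, 0, 0, 0, ⟨0, 0⟩, 0⟩, 0, 467258⟩ 0 0)) (.cut .l 9611 (.cut .v 16793600 (.cut .d 7065 (.cut .l 4805 (.cut .v 16785408 (.cut .s 4229120 (.cut .s 4217856 (.pos 51 .pp ⟨⟨409419, 0, 0, 0, 0, 0, 0, 0, 0, ⟨0, 0⟩, 0⟩, 0, 472499⟩ 0 0) (.pos 51 .pp ⟨⟨407303, 0, 0, 0, 0, 0, 0, 0, 0, ⟨0, 0⟩, 0⟩, 0, 472133⟩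 0 0)) (.cut .s 4240384 (.pos 51 .pp ⟨⟨405199, 0, 0, 0, 0, 0, 0, 0, 0, ⟨0, 0⟩, 0⟩, 0, 471754⟩ 0 0) (.pos 51 .pp ⟨⟨403108, 0, 0, 0, 0, 0, 0, 0, 0, ⟨0, 0⟩, 0⟩, 0, 471364⟩ 0 0))) (.void 52 ⟨⟨79778, 0, 0, 0, 0, 0, 0, 0, 0, ⟨0, 0⟩, 0⟩, 0, 20222⟩ 0 0)) (.pos 47 .pp ⟨⟨406104, 0, 0, 0, 0, 0, 0, 0, 0, ⟨0, 0⟩, 0⟩, 0, 464119⟩ 0 0)) (.pos 47 .pp ⟨⟨403364, 0, 0, 0, 0, 0, 0, 0, 0, ⟨0, 0⟩, 0⟩, 0, 478413⟩ 0 0)) (.void 48 ⟨⟨79775, 0, 0, 0, 0, 0, 0, 0, 0, ⟨0, 0⟩, 0⟩, 0, 20225⟩ 0 0)) (.pos 45 .pp ⟨⟨404671, 0, 0, 0, 0, 0, 0, 0, 0, ⟨0, 0⟩, 0⟩, 0, 465740⟩ 0 0))) (.cut .s 4206592 (.pos 45 .pp ⟨⟨413936, 0, 0, 0, 0, 0, 0, 0, 0, ⟨0, 0⟩, 0⟩, 0, 477197⟩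 0 0) (.pos 45 .pp ⟨⟨404728, 0, 0, 0, 0, 0, 0, 0, 0, ⟨0, 0⟩, 0⟩, 0, 476494⟩ 0 0))) (.void 46 ⟨⟨79768, 0, 0, 0, 0, 0, 0, 0, 0, ⟨0, 0⟩, 0⟩, 0, 20232⟩ 0 0)) (.cut .s 4206592 (.pos 41 .pp ⟨⟨416971, 0, 0, 0, 0, 0, 0, 0, 0, ⟨0, 0⟩, 0⟩, 0, 458784⟩ 0 0) (.pos 41 .pp ⟨⟨407676, 0, 0, 0, 0, 0, 0, 0, 0, ⟨0, 0⟩, 0⟩, 0, 457486⟩ 0 0))) (.cut .v 16809984 (.cut .l 19223 (.cut .d 14130 (.cut .s 4296704 (.cut .l 9611 (.cut .d 7065 (.cut .v 16793600 (.cut .l 4805 (.cut .v 16785408 (.cut .s 4274176 (.cut .s 4262912 (.pos 51 .pp ⟨⟨401029, 0, 0, 0, 0, 0, 0, 0, 0, ⟨0, 0⟩, 0⟩, 0, 470961⟩ 0 0) (.pos 51 .pp ⟨⟨398963, 0, 0, 0, 0, 0, 0, 0, 0, ⟨0, 0⟩,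 0⟩, 0, 470547⟩ 0 0)) (.pos 51 .pp ⟨⟨395584, 0, 0, 0, 0, 0, 0, 0, 0, ⟨0, 0⟩, 0⟩, 0, 469783⟩ 0 0)) (.void 52 ⟨⟨79608, 0, 0, 0, 0, 0, 0, 0, 0, ⟨0, 0⟩, 0⟩, 0, 20392⟩ 0 0)) (.pos 47 .pp ⟨⟨397084, 0, 0, 0, 0, 0, 0, 0, 0, ⟨0, 0⟩, 0⟩, 0, 462398⟩ 0 0)) (.void 48 ⟨⟨100000, 0, 0, 0, 0, 0, 0, 0, 0, ⟨0, 0⟩, 0⟩, 0, 0⟩ 0 0)) (.pos 45 .pp ⟨⟨395544, 0, 0, 0, 0, 0, 0, 0, 0, ⟨0, 0⟩, 0⟩, 0, 477528⟩ 0 0)) (.pos 45 .pp ⟨⟨395616, 0, 0, 0, 0, 0, 0, 0, 0, ⟨0, 0⟩, 0⟩, 0, 463977⟩ 0 0)) (.cut .l 9611 (.cut .d 7065 (.cut .s 4319232 (.pos 45 .pp ⟨⟨392887, 0, 0, 0, 0, 0, 0, 0, 0, ⟨0, 0⟩, 0⟩, 0, 468328⟩ 0 0) (.pos 45 .pp ⟨⟨388351, 0, 0, 0, 0, 0, 0, 0,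 0, ⟨0, 0⟩, 0⟩, 0, 467746⟩ 0 0)) (.pos 45 .pp ⟨⟨386476, 0, 0, 0, 0, 0, 0, 0, 0, ⟨0, 0⟩, 0⟩, 0, 476575⟩ 0 0)) (.pos 45 .pp ⟨⟨386553, 0, 0, 0, 0, 0, 0, 0, 0, ⟨0, 0⟩, 0⟩, 0, 461973⟩ 0 0))) (.cut .s 4296704 (.pos 45 .pp ⟨⟨395512, 0, 0, 0, 0, 0, 0, 0, 0, ⟨0, 0⟩, 0⟩, 0, 475786⟩ 0 0) (.pos 45 .pp ⟨⟨386286, 0, 0, 0, 0, 0, 0, 0, 0, ⟨0, 0⟩, 0⟩, 0, 475075⟩ 0 0))) (.pos 45 .pp ⟨⟨388288, 0, 0, 0, 0, 0, 0, 0, 0, ⟨0, 0⟩, 0⟩, 0, 452949⟩ 0 0)) (.pos 46 .pp ⟨⟨417011, 0, 0, 0, 0, 0, 0, 0, 0, ⟨0, 0⟩, 0⟩, 0, 460240⟩ 0 0))) (.cut .s 4251648 (.cut .s 4206592 (.pos 41 .pp ⟨⟨411470, 0, 0, 0, 0, 0, 0, 0, 0, ⟨0, 0⟩, 0⟩, 0, 481260⟩ 0 0) (.pos 41 .pp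 ⟨⟨402011, 0, 0, 0, 0, 0, 0, 0, 0, ⟨0, 0⟩, 0⟩, 0, 480670⟩ 0 0)) (.pos 41 .pp ⟨⟨391835, 0, 0, 0, 0, 0, 0, 0, 0, ⟨0, 0⟩, 0⟩, 0, 477263⟩ 0 0))) (.cut .d 28260 (.cut .v 16809984 (.cut .l 19223 (.cut .s 4431872 (.cut .d 14130 (.cut .l 9611 (.cut .v 16793600 (.cut .d 7065 (.cut .s 4386816 (.cut .s 4364288 (.pos 47 .pp ⟨⟨383579, 0, 0, 0, 0, 0, 0, 0, 0, ⟨0, 0⟩, 0⟩, 0, 467248⟩ 0 0) (.pos 47 .pp ⟨⟨379034, 0, 0, 0, 0, 0, 0, 0, 0, ⟨0, 0⟩, 0⟩, 0, 466647⟩ 0 0)) (.pos 47 .pp ⟨⟨374469, 0, 0, 0, 0, 0, 0, 0, 0, ⟨0, 0⟩, 0⟩, 0, 463602⟩ 0 0)) (.pos 47 .pp ⟨⟨369521, 0, 0, 0, 0, 0, 0, 0, 0, ⟨0, 0⟩, 0⟩, 0, 480429⟩ 0 0)) (.void 48 ⟨⟨79097, 0, 0,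 0, 0, 0, 0, 0, 0, ⟨0, 0⟩, 0⟩, 0, 20903⟩ 0 0)) (.pos 45 .pp ⟨⟨376518, 0, 0, 0, 0, 0, 0, 0, 0, ⟨0, 0⟩, 0⟩, 0, 451795⟩ 0 0)) (.pos 45 .pp ⟨⟨369973, 0, 0, 0, 0, 0, 0, 0, 0, ⟨0, 0⟩, 0⟩, 0, 480622⟩ 0 0)) (.cut .s 4476928 (.cut .s 4454400 (.pos 45 .pp ⟨⟨365824, 0, 0, 0, 0, 0, 0, 0, 0, ⟨0, 0⟩, 0⟩, 0, 465006⟩ 0 0) (.pos 45 .pp ⟨⟨362154, 0, 0, 0, 0, 0, 0, 0, 0, ⟨0, 0⟩, 0⟩, 0, 463761⟩ 0 0)) (.pos 45 .pp ⟨⟨355933, 0, 0, 0, 0, 0, 0, 0, 0, ⟨0, 0⟩, 0⟩, 0, 461784⟩ 0 0))) (.pos 45 .pp ⟨⟨359032, 0, 0, 0, 0, 0, 0, 0, 0, ⟨0, 0⟩, 0⟩, 0, 446006⟩ 0 0)) (.pos 46 .pp ⟨⟨399989, 0, 0, 0, 0, 0, 0, 0, 0, ⟨0, 0⟩, 0⟩, 0, 455966⟩ 0 0)) (.cut .s 4431872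 (.pos 41 .pp ⟨⟨372996, 0, 0, 0, 0, 0, 0, 0, 0, ⟨0, 0⟩, 0⟩, 0, 476242⟩ 0 0) (.pos 41 .pp ⟨⟨354111, 0, 0, 0, 0, 0, 0, 0, 0, ⟨0, 0⟩, 0⟩, 0, 475190⟩ 0 0)))) (.cut .s 4341760 (.pos 41 .pp ⟨⟨396152, 0, 0, 0, 0, 0, 0, 0, 0, ⟨0, 0⟩, 0⟩, 0, 439863⟩ 0 0) (.pos 41 .pp ⟨⟨360253, 0, 0, 0, 0, 0, 0, 0, 0, ⟨0, 0⟩, 0⟩, 0, 432738⟩ 0 0))) (.cut .s 4341760 (.pos 42 .pp ⟨⟨445579, 0, 0, 0, 0, 0, 0, 0, 0, ⟨0, 0⟩, 0⟩, 0, 452164⟩ 0 0) (.pos 42 .pp ⟨⟨416697, 0, 0, 0, 0, 0, 0, 0, 0, ⟨0, 0⟩, 0⟩, 0, 447121⟩ 0 0))) (.cut .s 4341760 (.cut .s 4251648 (.pos 35 .pp ⟨⟨405021, 0, 0, 0, 0, 0, 0, 0, 0, ⟨0, 0⟩, 0⟩, 0, 487123⟩ 0 0) (.pos 35 .pp ⟨⟨385469, 0, 0,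 0, 0, 0, 0, 0, 0, ⟨0, 0⟩, 0⟩, 0, 486295⟩ 0 0)) (.pos 35 .pp ⟨⟨365864, 0, 0, 0, 0, 0, 0, 0, 0, ⟨0, 0⟩, 0⟩, 0, 479530⟩ 0 0)))) (.cut .s 4161536 (.cut .s 3981312 (.pos 35 .pp ⟨⟨468270, 0, 0, 0, 0, 0, 0, 0, 0, ⟨0, 0⟩, 0⟩, 0, 415458⟩ 0 0) (.pos 35 .pp ⟨⟨432132, 0, 0, 0, 0, 0, 0, 0, 0, ⟨0, 0⟩, 0⟩, 0, 415922⟩ 0 0)) (.pos 35 .pp ⟨⟨378460, 0, 0, 0, 0, 0, 0, 0, 0, ⟨0, 0⟩, 0⟩, 0, 408053⟩ 0 0))) (.cut .s 4161536 (.pos 36 .pp ⟨⟨539675, 0, 0, 0, 0, 0, 0, 264389, 0, ⟨358260, 14494634⟩, 0⟩, 0, 317535⟩ 58 64) (.pos 36 .pp ⟨⟨474580, 0, 0, 0, 0, 0, 0, 0, 0, ⟨0, 0⟩, 0⟩, 0, 432055⟩ 0 0))) (.cut .d 169561 (.cut .l 76895 (.void 33 ⟨⟨307, 0, 0,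 0, 0, 0, 0, 0, 0, ⟨0, 0⟩, 0⟩, 0, 99693⟩ 0 0) (.cut .s 4161536 (.cut .s 3981312 (.pos 33 .pp ⟨⟨503923, 0, 0, 0, 0, 0, 0, 0, 0, ⟨0, 0⟩, 0⟩, 0, 451109⟩ 0 0) (.pos 33 .pp ⟨⟨467725, 0, 0, 0, 0, 0, 0, 0, 0, ⟨0, 0⟩, 0⟩, 0, 448312⟩ 0 0)) (.pos 33 .pp ⟨⟨394211, 0, 0, 0, 0, 0, 0, 0, 0, ⟨0, 0⟩, 0⟩, 0, 472701⟩ 0 0))) (.pos 33 .pp ⟨⟨436470, 0, 0, 0, 0, 0, 0, 0, 0, ⟨0, 0⟩, 0⟩, 0, 534736⟩ 0 0))) (.cut .v 16908288 (.pos 35 .pp ⟨⟨0, 0, 0, 0, 0, 0, 0, 0, 0, ⟨0, 0⟩, 0⟩, 0, 193074⟩ 0 0) (.pos 36 .pp ⟨⟨468614, 0, 0, 0, 0, 0, 0, 0, 0, ⟨0, 0⟩, 0⟩, 0, 361421⟩ 0 0))) (.pos 34 .pp ⟨⟨970525, 0, 0, 0, 0, 0, 0, 0, 0, ⟨0, 0⟩, 0⟩, 0, 122165⟩ 0 0)) (.cut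 .v 17039360 (.pos 33 .pp ⟨⟨352640, 0, 0, 0, 0, 0, 0, 0, 0, ⟨0, 0⟩, 0⟩, 0, 569938⟩ 0 0) (.pos 34 .pp ⟨⟨585967, 0, 0, 0, 0, 0, 0, 0, 0, ⟨0, 0⟩, 0⟩, 0, 412665⟩ 0 0))) (.cut .d 226082 (.pos 31 .pp ⟨⟨471839, 0, 0, 0, 0, 0, 0, 0, 0, ⟨0, 0⟩, 0⟩, 0, 0⟩ 0 0) (.pos 31 .pp ⟨⟨511045, 0, 0, 0, 0, 0, 0, 0, 0, ⟨0, 0⟩, 0⟩, 0, 262011⟩ 0 0))) (.pos 32 .pp ⟨⟨742824, 0, 0, 0, 0, 0, 0, 0, 0, ⟨0, 0⟩, 0⟩, 0, 315939⟩ 0 0)) (.cut .v 17301504 (.pos 31 .pp ⟨⟨324865, 0, 0, 0, 0, 0, 0, 0, 0, ⟨0, 0⟩, 0⟩, 0, 619879⟩ 0 0) (.pos 32 .pp ⟨⟨719531, 0, 0, 0, 0, 0, 0, 0, 0, ⟨0, 0⟩, 0⟩, 0, 354903⟩ 0 0))) (.void 30 ⟨⟨78321, 0, 0, 0, 0, 0, 0, 0, 0, ⟨0, 0⟩, 0⟩,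 0, 21679⟩ 0 0)) (.void 28 ⟨⟨100000, 0, 0, 0, 0, 0, 0, 0, 0, ⟨0, 0⟩, 0⟩, 0, 0⟩ 0 0)) (.void 25 ⟨⟨3232, 0, 0, 0, 0, 0, 0, 0, 0, ⟨0, 0⟩, 0⟩, 0, 96768⟩ 0 0)) (.void 26 ⟨⟨100000, 0, 0, 0, 0, 0, 0, 0, 0, ⟨0, 0⟩, 0⟩, 0, 0⟩ 0 0)) (.void 24 ⟨⟨0, 0, 0, 0, 0, 0, 0, 0, 0, ⟨0, 0⟩, 0⟩, 100000, 0⟩ 0 0)))),
    by decide +kernel⟩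

def covers4 : cell.Covers Vale.Agent.P237.Petty.Cor.Grid.N6.table row4.1 :=
  ⟨(.cut .d 0 (.cut .v 16777216 (.cut .v 8388608 (.void 2 ⟨⟨0, 0, 0, 0, 50000, 50000, 0, 0, 0, ⟨0, 0⟩, 0⟩, 0, 0⟩ 0 0) (.cut .v 12582912 (.void 8 ⟨⟨0, 0, 0, 0, 50000, 50000, 0, 0, 0, ⟨0, 0⟩, 0⟩, 0, 0⟩ 0 0) (.pos 9 .mm ⟨⟨0, 0, 0, 0, 0, 864500, 0, 0, 0, ⟨0, 0⟩, 0⟩, 0, 0⟩ 0 0))) (.cut .v 25165824 (.cut .v 20971520 (.pos 25 .mp ⟨⟨600297, 0, 0, 0, 0, 0, 0, 0, 0, ⟨0, 0⟩, 0⟩, 0, 0⟩ 0 0) (.void 26 ⟨⟨100000, 0, 0, 0, 0, 0, 0, 0, 0, ⟨0, 0⟩, 0⟩, 0, 0⟩ 0 0)) (.void 24 ⟨⟨100000, 0, 0, 0, 0, 0, 0, 0, 0, ⟨0, 0⟩, 0⟩, 0, 0⟩ 0 0))) (.cut .v 16777216 (.cut .v 8388608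 (.void 2 ⟨⟨0, 0, 0, 0, 100000, 0, 0, 0, 0, ⟨0, 0⟩, 0⟩, 0, 0⟩ 0 0) (.cut .v 12582912 (.void 8 ⟨⟨0, 0, 0, 0, 0, 0, 0, 0, 100000, ⟨0, 0⟩, 13128881⟩, 0, 0⟩ 0 0) (.pos 9 .pm ⟨⟨0, 0, 0, 0, 0, 0, 0, 0, 0, ⟨0, 0⟩, 0⟩, 0, 415882⟩ 0 0))) (.cut .v 25165824 (.cut .v 20971520 (.cut .v 18874368 (.cut .d 1126217 (.cut .v 17825792 (.cut .d 563108 (.cut .v 17301504 (.cut .l 307582 (.cut .d 281554 (.cut .v 17039360 (.cut .l 153791 (.cut .d 140777 (.cut .s 4882432 (.cut .l 76895 (.cut .v 16908288 (.cut .d 70388 (.cut .s 4702208 (.cut .l 38447 (.cut .v 16842752 (.cut .d 35194 (.cut .s 4612096 (.cut .v 16809984 (.cut .l 19223 (.cut .d 17597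 (.cut .l 9611 (.cut .d 8798 (.cut .v 16793600 (.cut .s 4567040 (.pos 47 .pp ⟨⟨345501, 0, 0, 0, 0, 0, 0, 0, 0, ⟨0, 0⟩, 0⟩, 0, 456685⟩ 0 0) (.cut .s 4589568 (.pos 47 .pp ⟨⟨338662, 0, 0, 0, 0, 0, 0, 0, 0, ⟨0, 0⟩, 0⟩, 0, 454259⟩ 0 0) (.pos 47 .pp ⟨⟨333427, 0, 0, 0, 0, 0, 0, 0, 0, ⟨0, 0⟩, 0⟩, 0, 451915⟩ 0 0))) (.void 48 ⟨⟨100000, 0, 0, 0, 0, 0, 0, 0, 0, ⟨0, 0⟩, 0⟩, 0, 0⟩ 0 0)) (.pos 45 .pp ⟨⟨332303, 0, 0, 0, 0, 0, 0, 0, 0, ⟨0, 0⟩, 0⟩, 0, 477304⟩ 0 0)) (.pos 45 .pp ⟨⟨332483, 0, 0, 0, 0, 0, 0, 0, 0, ⟨0, 0⟩, 0⟩, 0, 447118⟩ 0 0)) (.pos 45 .pp ⟨⟨328062, 0, 0, 0, 0, 0, 0, 0, 0, ⟨0, 0⟩, 0⟩, 0, 474854⟩ 0 0)) (.pos 45 .pp ⟨⟨322052, 0,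 0, 0, 0, 0, 0, 0, 0, ⟨0, 0⟩, 0⟩, 0, 427875⟩ 0 0)) (.pos 46 .pp ⟨⟨371855, 0, 0, 0, 0, 0, 0, 0, 0, ⟨0, 0⟩, 0⟩, 0, 441354⟩ 0 0)) (.cut .l 19223 (.cut .d 17597 (.cut .v 16809984 (.cut .l 9611 (.cut .v 16793600 (.cut .d 8798 (.cut .s 4657152 (.cut .s 4634624 (.pos 47 .pp ⟨⟨328066, 0, 0, 0, 0, 0, 0, 0, 0, ⟨0, 0⟩, 0⟩, 0, 449732⟩ 0 0) (.pos 47 .pp ⟨⟨322840, 0, 0, 0, 0, 0, 0, 0, 0, ⟨0, 0⟩, 0⟩, 0, 447474⟩ 0 0)) (.cut .l 4805 (.cut .d 4399 (.cut .s 4679680 (.pos 47 .pp ⟨⟨319201, 0, 0, 0, 0, 0, 0, 0, 0, ⟨0, 0⟩, 0⟩, 0, 444111⟩ 0 0) (.cut .s 4690944 (.pos 47 .pp ⟨⟨314763, 0, 0, 0, 0, 0, 0, 0, 0, ⟨0, 0⟩, 0⟩, 0, 443367⟩ 0 0) (.pos 47 .pp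 ⟨⟨312474, 0, 0, 0, 0, 0, 0, 0, 0, ⟨0, 0⟩, 0⟩, 0, 442045⟩ 0 0))) (.pos 47 .pp ⟨⟨312063, 0, 0, 0, 0, 0, 0, 0, 0, ⟨0, 0⟩, 0⟩, 0, 454150⟩ 0 0)) (.pos 47 .pp ⟨⟨312110, 0, 0, 0, 0, 0, 0, 0, 0, ⟨0, 0⟩, 0⟩, 0, 439688⟩ 0 0))) (.pos 47 .pp ⟨⟨309385, 0, 0, 0, 0, 0, 0, 0, 0, ⟨0, 0⟩, 0⟩, 0, 464466⟩ 0 0)) (.void 48 ⟨⟨78099, 0, 0, 0, 0, 0, 0, 0, 0, ⟨0, 0⟩, 0⟩, 0, 21901⟩ 0 0)) (.pos 45 .pp ⟨⟨315033, 0, 0, 0, 0, 0, 0, 0, 0, ⟨0, 0⟩, 0⟩, 0, 439948⟩ 0 0)) (.void 46 ⟨⟨100000, 0, 0, 0, 0, 0, 0, 0, 0, ⟨0, 0⟩, 0⟩, 0, 0⟩ 0 0)) (.pos 41 .pp ⟨⟨315987, 0, 0, 0, 0, 0, 0, 0, 0, ⟨0, 0⟩, 0⟩, 0, 460708⟩ 0 0)) (.pos 41 .pp ⟨⟨315957, 0, 0, 0, 0, 0, 0, 0,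 0, ⟨0, 0⟩, 0⟩, 0, 427797⟩ 0 0))) (.pos 41 .pp ⟨⟨310033, 0, 0, 0, 0, 0, 0, 0, 0, ⟨0, 0⟩, 0⟩, 0, 484072⟩ 0 0)) (.void 42 ⟨⟨78072, 0, 0, 0, 0, 0, 0, 0, 0, ⟨0, 0⟩, 0⟩, 0, 21928⟩ 0 0)) (.cut .s 4612096 (.pos 35 .pp ⟨⟨331033, 0, 0, 0, 0, 0, 0, 0, 0, ⟨0, 0⟩, 0⟩, 0, 414110⟩ 0 0) (.pos 35 .pp ⟨⟨310882, 0, 0, 0, 0, 0, 0, 0, 0, ⟨0, 0⟩, 0⟩, 0, 409764⟩ 0 0))) (.cut .l 38447 (.cut .v 16842752 (.cut .d 35194 (.cut .s 4792320 (.cut .l 19223 (.cut .v 16809984 (.cut .d 17597 (.cut .l 9611 (.cut .v 16793600 (.cut .d 8798 (.cut .s 4747264 (.cut .l 4805 (.cut .d 4399 (.cut .v 16785408 (.cut .l 2402 (.cut .v 16781312 (.cut .d 2199 (.cut .l 1201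 (.cut .v 16779264 (.cut .d 1099 (.cut .l 600 (.cut .v 16778240 (.cut .d 549 (.cut .l 300 (.cut .s 4724736 (.cut .s 4713472 (.pos 63 .pp ⟨⟨310328, 0, 0, 0, 0, 0, 0, 0, 0, ⟨0, 0⟩, 0⟩, 0, 440418⟩ 0 0) (.pos 63 .pp ⟨⟨308026, 0, 0, 0, 0, 0, 0, 0, 0, ⟨0, 0⟩, 0⟩, 0, 439124⟩ 0 0)) (.cut .s 4736000 (.pos 63 .pp ⟨⟨305741, 0, 0, 0, 0, 0, 0, 0, 0, ⟨0, 0⟩, 0⟩, 0, 437822⟩ 0 0) (.pos 63 .pp ⟨⟨303476, 0, 0, 0, 0, 0, 0, 0, 0, ⟨0, 0⟩, 0⟩, 0, 436511⟩ 0 0))) (.pos 63 .pp ⟨⟨305532, 0, 0, 0, 0, 0, 0, 0, 0, ⟨0, 0⟩, 0⟩, 0, 435684⟩ 0 0)) (.pos 63 .pp ⟨⟨300324, 0, 0, 0, 0, 0, 0, 0, 0, ⟨0, 0⟩, 0⟩, 0, 449241⟩ 0 0)) (.void 64 ⟨⟨77944, 0, 0, 0, 0, 0,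 0, 0, 0, ⟨0, 0⟩, 0⟩, 0, 22056⟩ 0 0)) (.pos 61 .pp ⟨⟨305389, 0, 0, 0, 0, 0, 0, 0, 0, ⟨0, 0⟩, 0⟩, 0, 435644⟩ 0 0)) (.pos 61 .pp ⟨⟨300327, 0, 0, 0, 0, 0, 0, 0, 0, ⟨0, 0⟩, 0⟩, 0, 449206⟩ 0 0)) (.void 62 ⟨⟨77944, 0, 0, 0, 0, 0, 0, 0, 0, ⟨0, 0⟩, 0⟩, 0, 22056⟩ 0 0)) (.pos 53 .pp ⟨⟨305097, 0, 0, 0, 0, 0, 0, 0, 0, ⟨0, 0⟩, 0⟩, 0, 435561⟩ 0 0)) (.pos 53 .pp ⟨⟨300333, 0, 0, 0, 0, 0, 0, 0, 0, ⟨0, 0⟩, 0⟩, 0, 449153⟩ 0 0)) (.void 54 ⟨⟨77943, 0, 0, 0, 0, 0, 0, 0, 0, ⟨0, 0⟩, 0⟩, 0, 22057⟩ 0 0)) (.pos 51 .pp ⟨⟨304522, 0, 0, 0, 0, 0, 0, 0, 0, ⟨0, 0⟩, 0⟩, 0, 435399⟩ 0 0)) (.void 52 ⟨⟨100000, 0, 0, 0, 0, 0, 0, 0, 0, ⟨0, 0⟩, 0⟩, 0, 0⟩ 0 0)) (.pos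 47 .pp ⟨⟨303317, 0, 0, 0, 0, 0, 0, 0, 0, ⟨0, 0⟩, 0⟩, 0, 448226⟩ 0 0)) (.pos 47 .pp ⟨⟨303373, 0, 0, 0, 0, 0, 0, 0, 0, ⟨0, 0⟩, 0⟩, 0, 435074⟩ 0 0)) (.cut .l 4805 (.cut .d 4399 (.cut .v 16785408 (.cut .l 2402 (.cut .v 16781312 (.cut .d 2199 (.cut .l 1201 (.cut .v 16779264 (.cut .d 1099 (.cut .s 4769792 (.cut .s 4758528 (.pos 61 .pp ⟨⟨301379, 0, 0, 0, 0, 0, 0, 0, 0, ⟨0, 0⟩, 0⟩, 0, 435346⟩ 0 0) (.pos 61 .pp ⟨⟨299147, 0, 0, 0, 0, 0, 0, 0, 0, ⟨0, 0⟩, 0⟩, 0, 434015⟩ 0 0)) (.cut .s 4781056 (.pos 61 .pp ⟨⟨296937, 0, 0, 0, 0, 0, 0, 0, 0, ⟨0, 0⟩, 0⟩, 0, 432679⟩ 0 0) (.pos 61 .pp ⟨⟨294747, 0, 0, 0, 0, 0, 0, 0, 0, ⟨0, 0⟩, 0⟩, 0, 431337⟩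 0 0))) (.pos 61 .pp ⟨⟨291630, 0, 0, 0, 0, 0, 0, 0, 0, ⟨0, 0⟩, 0⟩, 0, 443763⟩ 0 0)) (.void 62 ⟨⟨77781, 0, 0, 0, 0, 0, 0, 0, 0, ⟨0, 0⟩, 0⟩, 0, 22219⟩ 0 0)) (.pos 53 .pp ⟨⟨296616, 0, 0, 0, 0, 0, 0, 0, 0, ⟨0, 0⟩, 0⟩, 0, 430312⟩ 0 0)) (.pos 53 .pp ⟨⟨291490, 0, 0, 0, 0, 0, 0, 0, 0, ⟨0, 0⟩, 0⟩, 0, 443872⟩ 0 0)) (.void 54 ⟨⟨77780, 0, 0, 0, 0, 0, 0, 0, 0, ⟨0, 0⟩, 0⟩, 0, 22220⟩ 0 0)) (.pos 51 .pp ⟨⟨296015, 0, 0, 0, 0, 0, 0, 0, 0, ⟨0, 0⟩, 0⟩, 0, 430140⟩ 0 0)) (.void 52 ⟨⟨100000, 0, 0, 0, 0, 0, 0, 0, 0, ⟨0, 0⟩, 0⟩, 0, 0⟩ 0 0)) (.pos 47 .pp ⟨⟨294626, 0, 0, 0, 0, 0, 0, 0, 0, ⟨0, 0⟩, 0⟩, 0, 442477⟩ 0 0)) (.pos 47 .pp ⟨⟨294814, 0, 0, 0,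 0, 0, 0, 0, 0, ⟨0, 0⟩, 0⟩, 0, 429797⟩ 0 0))) (.pos 47 .pp ⟨⟨291417, 0, 0, 0, 0, 0, 0, 0, 0, ⟨0, 0⟩, 0⟩, 0, 454138⟩ 0 0)) (.void 48 ⟨⟨77773, 0, 0, 0, 0, 0, 0, 0, 0, ⟨0, 0⟩, 0⟩, 0, 22227⟩ 0 0)) (.cut .s 4747264 (.pos 45 .pp ⟨⟨303530, 0, 0, 0, 0, 0, 0, 0, 0, ⟨0, 0⟩, 0⟩, 0, 429172⟩ 0 0) (.pos 45 .pp ⟨⟨294542, 0, 0, 0, 0, 0, 0, 0, 0, ⟨0, 0⟩, 0⟩, 0, 424624⟩ 0 0))) (.pos 45 .pp ⟨⟨291316, 0, 0, 0, 0, 0, 0, 0, 0, ⟨0, 0⟩, 0⟩, 0, 453911⟩ 0 0)) (.void 46 ⟨⟨77764, 0, 0, 0, 0, 0, 0, 0, 0, ⟨0, 0⟩, 0⟩, 0, 22236⟩ 0 0)) (.pos 41 .pp ⟨⟨297570, 0, 0, 0, 0, 0, 0, 0, 0, ⟨0, 0⟩, 0⟩, 0, 420720⟩ 0 0)) (.cut .l 19223 (.cut .d 17597 (.cut .v 16809984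 (.cut .l 9611 (.cut .v 16793600 (.cut .d 8798 (.cut .s 4837376 (.cut .l 4805 (.cut .d 4399 (.cut .v 16785408 (.cut .l 2402 (.cut .v 16781312 (.cut .d 2199 (.cut .l 1201 (.cut .v 16779264 (.cut .d 1099 (.cut .l 600 (.cut .v 16778240 (.cut .d 549 (.cut .l 300 (.cut .s 4814848 (.cut .s 4803584 (.pos 63 .pp ⟨⟨292428, 0, 0, 0, 0, 0, 0, 0, 0, ⟨0, 0⟩, 0⟩, 0, 429836⟩ 0 0) (.pos 63 .pp ⟨⟨290274, 0, 0, 0, 0, 0, 0, 0, 0, ⟨0, 0⟩, 0⟩, 0, 428478⟩ 0 0)) (.cut .s 4826112 (.pos 63 .pp ⟨⟨288139, 0, 0, 0, 0, 0, 0, 0, 0, ⟨0, 0⟩, 0⟩, 0, 427113⟩ 0 0) (.pos 63 .pp ⟨⟨286023, 0, 0, 0, 0, 0, 0, 0, 0, ⟨0, 0⟩, 0⟩, 0, 425740⟩ 0 0))) (.pos 63 .pp ⟨⟨288663,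 0, 0, 0, 0, 0, 0, 0, 0, ⟨0, 0⟩, 0⟩, 0, 424815⟩ 0 0)) (.pos 63 .pp ⟨⟨283374, 0, 0, 0, 0, 0, 0, 0, 0, ⟨0, 0⟩, 0⟩, 0, 437935⟩ 0 0)) (.void 64 ⟨⟨77619, 0, 0, 0, 0, 0, 0, 0, 0, ⟨0, 0⟩, 0⟩, 0, 22381⟩ 0 0)) (.pos 61 .pp ⟨⟨288509, 0, 0, 0, 0, 0, 0, 0, 0, ⟨0, 0⟩, 0⟩, 0, 424770⟩ 0 0)) (.pos 61 .pp ⟨⟨283357, 0, 0, 0, 0, 0, 0, 0, 0, ⟨0, 0⟩, 0⟩, 0, 437971⟩ 0 0)) (.void 62 ⟨⟨77619, 0, 0, 0, 0, 0, 0, 0, 0, ⟨0, 0⟩, 0⟩, 0, 22381⟩ 0 0)) (.pos 53 .pp ⟨⟨288191, 0, 0, 0, 0, 0, 0, 0, 0, ⟨0, 0⟩, 0⟩, 0, 424679⟩ 0 0)) (.pos 53 .pp ⟨⟨283289, 0, 0, 0, 0, 0, 0, 0, 0, ⟨0, 0⟩, 0⟩, 0, 438062⟩ 0 0)) (.void 54 ⟨⟨77618, 0, 0, 0, 0, 0, 0, 0, 0, ⟨0, 0⟩, 0⟩,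 0, 22382⟩ 0 0)) (.pos 51 .pp ⟨⟨287564, 0, 0, 0, 0, 0, 0, 0, 0, ⟨0, 0⟩, 0⟩, 0, 424498⟩ 0 0)) (.void 52 ⟨⟨100000, 0, 0, 0, 0, 0, 0, 0, 0, ⟨0, 0⟩, 0⟩, 0, 0⟩ 0 0)) (.pos 47 .pp ⟨⟨285989, 0, 0, 0, 0, 0, 0, 0, 0, ⟨0, 0⟩, 0⟩, 0, 436898⟩ 0 0)) (.pos 47 .pp ⟨⟨286311, 0, 0, 0, 0, 0, 0, 0, 0, ⟨0, 0⟩, 0⟩, 0, 424137⟩ 0 0)) (.cut .l 4805 (.cut .d 4399 (.cut .v 16785408 (.cut .l 2402 (.cut .d 2199 (.cut .s 4859904 (.cut .s 4848640 (.pos 51 .pp ⟨⟨283678, 0, 0, 0, 0, 0, 0, 0, 0, ⟨0, 0⟩, 0⟩, 0, 424690⟩ 0 0) (.pos 51 .pp ⟨⟨281572, 0, 0, 0, 0, 0, 0, 0, 0, ⟨0, 0⟩, 0⟩, 0, 423331⟩ 0 0)) (.pos 51 .pp ⟨⟨278849, 0, 0, 0, 0, 0, 0, 0, 0, ⟨0, 0⟩, 0⟩,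 0, 420419⟩ 0 0)) (.pos 51 .pp ⟨⟨278165, 0, 0, 0, 0, 0, 0, 0, 0, ⟨0, 0⟩, 0⟩, 0, 430864⟩ 0 0)) (.pos 51 .pp ⟨⟨279168, 0, 0, 0, 0, 0, 0, 0, 0, ⟨0, 0⟩, 0⟩, 0, 418481⟩ 0 0)) (.void 52 ⟨⟨100000, 0, 0, 0, 0, 0, 0, 0, 0, ⟨0, 0⟩, 0⟩, 0, 0⟩ 0 0)) (.pos 47 .pp ⟨⟨277406, 0, 0, 0, 0, 0, 0, 0, 0, ⟨0, 0⟩, 0⟩, 0, 431484⟩ 0 0)) (.pos 47 .pp ⟨⟨277864, 0, 0, 0, 0, 0, 0, 0, 0, ⟨0, 0⟩, 0⟩, 0, 418102⟩ 0 0))) (.pos 47 .pp ⟨⟨274889, 0, 0, 0, 0, 0, 0, 0, 0, ⟨0, 0⟩, 0⟩, 0, 442998⟩ 0 0)) (.void 48 ⟨⟨77449, 0, 0, 0, 0, 0, 0, 0, 0, ⟨0, 0⟩, 0⟩, 0, 22551⟩ 0 0)) (.cut .s 4837376 (.pos 45 .pp ⟨⟨285606, 0, 0, 0, 0, 0, 0, 0, 0, ⟨0, 0⟩, 0⟩, 0, 419681⟩ 0 0)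 (.pos 45 .pp ⟨⟨276975, 0, 0, 0, 0, 0, 0, 0, 0, ⟨0, 0⟩, 0⟩, 0, 413844⟩ 0 0))) (.void 46 ⟨⟨100000, 0, 0, 0, 0, 0, 0, 0, 0, ⟨0, 0⟩, 0⟩, 0, 0⟩ 0 0)) (.pos 41 .pp ⟨⟨279543, 0, 0, 0, 0, 0, 0, 0, 0, ⟨0, 0⟩, 0⟩, 0, 441147⟩ 0 0)) (.pos 41 .pp ⟨⟨279941, 0, 0, 0, 0, 0, 0, 0, 0, ⟨0, 0⟩, 0⟩, 0, 410851⟩ 0 0))) (.pos 41 .pp ⟨⟨272466, 0, 0, 0, 0, 0, 0, 0, 0, ⟨0, 0⟩, 0⟩, 0, 466153⟩ 0 0)) (.void 42 ⟨⟨77422, 0, 0, 0, 0, 0, 0, 0, 0, ⟨0, 0⟩, 0⟩, 0, 22578⟩ 0 0)) (.cut .s 4792320 (.pos 35 .pp ⟨⟨291749, 0, 0, 0, 0, 0, 0, 0, 0, ⟨0, 0⟩, 0⟩, 0, 403235⟩ 0 0) (.pos 35 .pp ⟨⟨275648, 0, 0, 0, 0, 0, 0, 0, 0, ⟨0, 0⟩, 0⟩, 0, 393640⟩ 0 0)))) (.cut .s 4702208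 (.pos 35 .pp ⟨⟨310874, 0, 0, 0, 0, 0, 0, 0, 0, ⟨0, 0⟩, 0⟩, 0, 483640⟩ 0 0) (.pos 35 .pp ⟨⟨270836, 0, 0, 0, 0, 0, 0, 0, 0, ⟨0, 0⟩, 0⟩, 0, 467114⟩ 0 0))) (.void 36 ⟨⟨77385, 0, 0, 0, 0, 0, 0, 0, 0, ⟨0, 0⟩, 0⟩, 0, 22615⟩ 0 0)) (.cut .s 4702208 (.pos 33 .pp ⟨⟨321953, 0, 0, 0, 0, 0, 0, 0, 0, ⟨0, 0⟩, 0⟩, 0, 375518⟩ 0 0) (.pos 33 .pp ⟨⟨280615, 0, 0, 0, 0, 0, 0, 0, 0, ⟨0, 0⟩, 0⟩, 0, 368873⟩ 0 0))) (.cut .v 16908288 (.cut .l 76895 (.cut .d 70388 (.cut .l 38447 (.cut .v 16842752 (.cut .d 35194 (.cut .s 5062656 (.cut .l 19223 (.cut .v 16809984 (.cut .d 17597 (.cut .s 4972544 (.cut .l 9611 (.cut .d 8798 (.cut .v 16793600 (.cut .l 4805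 (.cut .v 16785408 (.cut .d 4399 (.cut .s 4927488 (.cut .s 4904960 (.pos 51 .pp ⟨⟨274723, 0, 0, 0, 0, 0, 0, 0, 0, ⟨0, 0⟩, 0⟩, 0, 417732⟩ 0 0) (.pos 51 .pp ⟨⟨270846, 0, 0, 0, 0, 0, 0, 0, 0, ⟨0, 0⟩, 0⟩, 0, 414925⟩ 0 0)) (.cut .s 4950016 (.pos 51 .pp ⟨⟨267005, 0, 0, 0, 0, 0, 0, 0, 0, ⟨0, 0⟩, 0⟩, 0, 412142⟩ 0 0) (.pos 51 .pp ⟨⟨263249, 0, 0, 0, 0, 0, 0, 0, 0, ⟨0, 0⟩, 0⟩, 0, 409343⟩ 0 0))) (.pos 51 .pp ⟨⟨259847, 0, 0, 0, 0, 0, 0, 0, 0, ⟨0, 0⟩, 0⟩, 0, 430858⟩ 0 0)) (.void 52 ⟨⟨77133, 0, 0, 0, 0, 0, 0, 0, 0, ⟨0, 0⟩, 0⟩, 0, 22867⟩ 0 0)) (.pos 47 .pp ⟨⟨267993, 0, 0, 0, 0, 0, 0, 0, 0, ⟨0, 0⟩, 0⟩, 0, 406981⟩ 0 0)) (.void 48 ⟨⟨100000,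 0, 0, 0, 0, 0, 0, 0, 0, ⟨0, 0⟩, 0⟩, 0, 0⟩ 0 0)) (.pos 45 .pp ⟨⟨263891, 0, 0, 0, 0, 0, 0, 0, 0, ⟨0, 0⟩, 0⟩, 0, 429297⟩ 0 0)) (.pos 45 .pp ⟨⟨265307, 0, 0, 0, 0, 0, 0, 0, 0, ⟨0, 0⟩, 0⟩, 0, 406185⟩ 0 0)) (.cut .s 5017600 (.cut .s 4995072 (.pos 45 .pp ⟨⟨259706, 0, 0, 0, 0, 0, 0, 0, 0, ⟨0, 0⟩, 0⟩, 0, 406492⟩ 0 0) (.pos 45 .pp ⟨⟨256117, 0, 0, 0, 0, 0, 0, 0, 0, ⟨0, 0⟩, 0⟩, 0, 403664⟩ 0 0)) (.pos 45 .pp ⟨⟨249875, 0, 0, 0, 0, 0, 0, 0, 0, ⟨0, 0⟩, 0⟩, 0, 398639⟩ 0 0))) (.pos 45 .pp ⟨⟨246572, 0, 0, 0, 0, 0, 0, 0, 0, ⟨0, 0⟩, 0⟩, 0, 438546⟩ 0 0)) (.void 46 ⟨⟨76801, 0, 0, 0, 0, 0, 0, 0, 0, ⟨0, 0⟩, 0⟩, 0, 23199⟩ 0 0)) (.pos 41 .pp ⟨⟨258242,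 0, 0, 0, 0, 0, 0, 0, 0, ⟨0, 0⟩, 0⟩, 0, 394520⟩ 0 0)) (.cut .s 5152768 (.cut .s 5107712 (.pos 41 .pp ⟨⟨243199, 0, 0, 0, 0, 0, 0, 0, 0, ⟨0, 0⟩, 0⟩, 0, 393022⟩ 0 0) (.pos 41 .pp ⟨⟨237329, 0, 0, 0, 0, 0, 0, 0, 0, ⟨0, 0⟩, 0⟩, 0, 386913⟩ 0 0)) (.pos 41 .pp ⟨⟨226917, 0, 0, 0, 0, 0, 0, 0, 0, ⟨0, 0⟩, 0⟩, 0, 376614⟩ 0 0))) (.pos 41 .pp ⟨⟨224887, 0, 0, 0, 0, 0, 0, 0, 0, ⟨0, 0⟩, 0⟩, 0, 450892⟩ 0 0)) (.void 42 ⟨⟨76152, 0, 0, 0, 0, 0, 0, 0, 0, ⟨0, 0⟩, 0⟩, 0, 23848⟩ 0 0)) (.cut .s 5062656 (.pos 35 .pp ⟨⟨254145, 0, 0, 0, 0, 0, 0, 0, 0, ⟨0, 0⟩, 0⟩, 0, 380963⟩ 0 0) (.pos 35 .pp ⟨⟨223184, 0, 0, 0, 0, 0, 0, 0, 0, ⟨0, 0⟩, 0⟩, 0, 354865⟩ 0 0)))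 (.pos 35 .pp ⟨⟨221514, 0, 0, 0, 0, 0, 0, 0, 0, ⟨0, 0⟩, 0⟩, 0, 454209⟩ 0 0)) (.pos 35 .pp ⟨⟨230994, 0, 0, 0, 0, 0, 0, 0, 0, ⟨0, 0⟩, 0⟩, 0, 335162⟩ 0 0)) (.pos 36 .pp ⟨⟨344145, 0, 0, 0, 0, 0, 0, 0, 0, ⟨0, 0⟩, 0⟩, 0, 368367⟩ 0 0))) (.cut .s 4882432 (.pos 33 .pp ⟨⟨267899, 0, 0, 0, 0, 0, 0, 0, 0, ⟨0, 0⟩, 0⟩, 0, 517352⟩ 0 0) (.pos 33 .pp ⟨⟨212736, 0, 0, 0, 0, 0, 0, 0, 0, ⟨0, 0⟩, 0⟩, 0, 461857⟩ 0 0))) (.pos 33 .pp ⟨⟨256383, 0, 0, 0, 0, 0, 0, 0, 0, ⟨0, 0⟩, 0⟩, 0, 275211⟩ 0 0)) (.pos 34 .pp ⟨⟨508322, 0, 0, 0, 0, 0, 0, 0, 0, ⟨0, 0⟩, 0⟩, 0, 333812⟩ 0 0)) (.pos 31 .pp ⟨⟨219484, 0, 0, 0, 0, 0, 0, 0, 0, ⟨0, 0⟩, 0⟩, 0, 557828⟩ 0 0)) (.pos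 31 .pp ⟨⟨283019, 0, 0, 0, 0, 0, 0, 0, 0, ⟨0, 0⟩, 0⟩, 0, 124606⟩ 0 0)) (.pos 32 .pp ⟨⟨673841, 0, 0, 0, 0, 0, 0, 0, 0, ⟨0, 0⟩, 0⟩, 0, 264899⟩ 0 0)) (.pos 29 .pp ⟨⟨252832, 0, 0, 0, 0, 0, 0, 0, 0, ⟨0, 0⟩, 0⟩, 0, 552437⟩ 0 0)) (.pos 30 .pp ⟨⟨2635934, 0, 0, 0, 0, 0, 0, 0, 0, ⟨0, 0⟩, 0⟩, 0, 690392⟩ 0 0)) (.void 27 ⟨⟨3197, 0, 0, 0, 0, 0, 0, 0, 0, ⟨0, 0⟩, 0⟩, 0, 96803⟩ 0 0)) (.void 28 ⟨⟨74992, 0, 0, 0, 0, 0, 0, 0, 0, ⟨0, 0⟩, 0⟩, 0, 25008⟩ 0 0)) (.void 26 ⟨⟨0, 0, 0, 0, 0, 0, 100000, 0, 0, ⟨0, 0⟩, 0⟩, 0, 0⟩ 0 0)) (.void 24 ⟨⟨0, 0, 0, 0, 0, 0, 0, 0, 0, ⟨0, 0⟩, 0⟩, 100000, 0⟩ 0 0)))),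
    by decide +kernel⟩

def covers5 : cell.Covers Vale.Agent.P237.Petty.Cor.Grid.N6.table row5.1 :=
  ⟨(.cut .d 0 (.cut .v 16777216 (.cut .v 8388608 (.void 2 ⟨⟨0, 0, 0, 0, 50000, 50000, 0, 0, 0, ⟨0, 0⟩, 0⟩, 0, 0⟩ 0 0) (.cut .v 12582912 (.void 8 ⟨⟨0, 0, 0, 0, 0, 61015, 0, 0, 38985, ⟨0, 0⟩, 13128881⟩, 0, 0⟩ 0 0) (.cut .v 14680064 (.pos 14 .mm ⟨⟨0, 0, 0, 0, 0, 286413, 0, 0, 274574, ⟨0, 0⟩, 15100357⟩, 0, 0⟩ 0 0) (.pos 15 .mm ⟨⟨0, 0, 0, 0, 0, 0, 0, 0, 0, ⟨0, 0⟩, 0⟩, 0, 0⟩ 0 0)))) (.cut .v 25165824 (.cut .v 20971520 (.cut .v 18874368 (.cut .v 17825792 (.pos 29 .mp ⟨⟨408123, 0, 0, 0, 0, 0, 0, 0, 0, ⟨0, 0⟩, 0⟩, 0, 0⟩ 0 0) (.void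 30 ⟨⟨100000, 0, 0, 0, 0, 0, 0, 0, 0, ⟨0, 0⟩, 0⟩, 0, 0⟩ 0 0)) (.void 28 ⟨⟨100000, 0, 0, 0, 0, 0, 0, 0, 0, ⟨0, 0⟩, 0⟩, 0, 0⟩ 0 0)) (.void 26 ⟨⟨100000, 0, 0, 0, 0, 0, 0, 0, 0, ⟨0, 0⟩, 0⟩, 0, 0⟩ 0 0)) (.void 24 ⟨⟨100000, 0, 0, 0, 0, 0, 0, 0, 0, ⟨0, 0⟩, 0⟩, 0, 0⟩ 0 0))) (.cut .v 16777216 (.cut .v 8388608 (.void 2 ⟨⟨0, 0, 0, 0, 100000, 0, 0, 0, 0, ⟨0, 0⟩, 0⟩, 0, 0⟩ 0 0) (.cut .v 12582912 (.void 8 ⟨⟨0, 0, 0, 0, 0, 0, 0, 0, 100000, ⟨0, 0⟩, 13128881⟩, 0, 0⟩ 0 0) (.cut .v 14680064 (.pos 14 .pm ⟨⟨0, 0, 0, 0, 0, 0, 0, 0, 486726, ⟨0, 0⟩, 15100357⟩, 0, 0⟩ 0 0) (.cut .s 5636096 (.pos 15 .pm ⟨⟨0, 0, 0, 0, 0, 0, 0, 0, 0, ⟨0, 0⟩, 0⟩, 0, 302179⟩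 0 0) (.cut .s 5832704 (.pos 15 .pm ⟨⟨0, 0, 0, 0, 0, 0, 0, 0, 0, ⟨0, 0⟩, 0⟩, 0, 226066⟩ 0 0) (.cut .d 1411410 (.pos 15 .pm ⟨⟨0, 0, 0, 0, 0, 0, 0, 0, 0, ⟨0, 0⟩, 0⟩, 0, 181224⟩ 0 0) (.void 15 ⟨⟨0, 0, 0, 0, 0, 0, 0, 0, 0, ⟨0, 0⟩, 0⟩, 0, 100000⟩ 0 0))))))) (.cut .v 25165824 (.cut .v 20971520 (.cut .v 18874368 (.cut .d 1411410 (.cut .d 705705 (.cut .v 17825792 (.cut .l 307582 (.cut .d 352852 (.cut .v 17301504 (.cut .l 153791 (.cut .d 176426 (.cut .v 17039360 (.cut .s 5636096 (.cut .l 76895 (.cut .d 88213 (.cut .v 16908288 (.cut .s 5439488 (.cut .l 38447 (.cut .d 44106 (.cut .v 16842752 (.cut .l 19223 (.cut .d 22053 (.cut .v 16809984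 (.cut .s 5341184 (.cut .s 5292032 (.pos 45 .pp ⟨⟨212100, 0, 0, 0, 0, 0, 0, 0, 0, ⟨0, 0⟩, 0⟩, 0, 361160⟩ 0 0) (.pos 45 .pp ⟨⟨198613, 0, 0, 0, 0, 0, 0, 0, 0, ⟨0, 0⟩, 0⟩, 0, 347531⟩ 0 0)) (.cut .l 9611 (.cut .d 11026 (.cut .v 16793600 (.cut .l 4805 (.cut .d 5513 (.cut .v 16785408 (.cut .s 5390336 (.cut .s 5365760 (.pos 51 .pp ⟨⟨192603, 0, 0, 0, 0, 0, 0, 0, 0, ⟨0, 0⟩, 0⟩, 0, 339212⟩ 0 0) (.pos 51 .pp ⟨⟨186650, 0, 0, 0, 0, 0, 0, 0, 0, ⟨0, 0⟩, 0⟩, 0, 332204⟩ 0 0)) (.cut .s 5414912 (.pos 51 .pp ⟨⟨180920, 0, 0, 0, 0, 0, 0, 0, 0, ⟨0, 0⟩, 0⟩, 0, 325181⟩ 0 0) (.cut .s 5427200 (.pos 51 .pp ⟨⟨178518, 0, 0, 0, 0, 0, 0, 0, 0, ⟨0, 0⟩, 0⟩,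 0, 320854⟩ 0 0) (.pos 51 .pp ⟨⟨175831, 0, 0, 0, 0, 0, 0, 0, 0, ⟨0, 0⟩, 0⟩, 0, 317313⟩ 0 0)))) (.void 52 ⟨⟨100000, 0, 0, 0, 0, 0, 0, 0, 0, ⟨0, 0⟩, 0⟩, 0, 0⟩ 0 0)) (.pos 47 .pp ⟨⟨170986, 0, 0, 0, 0, 0, 0, 0, 0, ⟨0, 0⟩, 0⟩, 0, 360887⟩ 0 0)) (.pos 47 .pp ⟨⟨179791, 0, 0, 0, 0, 0, 0, 0, 0, ⟨0, 0⟩, 0⟩, 0, 315069⟩ 0 0)) (.void 48 ⟨⟨100000, 0, 0, 0, 0, 0, 0, 0, 0, ⟨0, 0⟩, 0⟩, 0, 0⟩ 0 0)) (.pos 45 .pp ⟨⟨167563, 0, 0, 0, 0, 0, 0, 0, 0, ⟨0, 0⟩, 0⟩, 0, 362760⟩ 0 0)) (.pos 45 .pp ⟨⟨175248, 0, 0, 0, 0, 0, 0, 0, 0, ⟨0, 0⟩, 0⟩, 0, 313596⟩ 0 0))) (.void 46 ⟨⟨100000, 0, 0, 0, 0, 0, 0, 0, 0, ⟨0, 0⟩, 0⟩, 0, 0⟩ 0 0)) (.pos 41 .pp ⟨⟨162054, 0,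 0, 0, 0, 0, 0, 0, 0, ⟨0, 0⟩, 0⟩, 0, 408547⟩ 0 0)) (.pos 41 .pp ⟨⟨175721, 0, 0, 0, 0, 0, 0, 0, 0, ⟨0, 0⟩, 0⟩, 0, 313749⟩ 0 0)) (.void 42 ⟨⟨100000, 0, 0, 0, 0, 0, 0, 0, 0, ⟨0, 0⟩, 0⟩, 0, 0⟩ 0 0)) (.pos 35 .pp ⟨⟨152396, 0, 0, 0, 0, 0, 0, 0, 0, ⟨0, 0⟩, 0⟩, 0, 411595⟩ 0 0)) (.pos 35 .pp ⟨⟨152107, 0, 0, 0, 0, 0, 0, 0, 0, ⟨0, 0⟩, 0⟩, 0, 306185⟩ 0 0)) (.cut .l 38447 (.cut .d 44106 (.cut .v 16842752 (.cut .s 5537792 (.cut .l 19223 (.cut .d 22053 (.cut .v 16809984 (.cut .s 5488640 (.cut .l 9611 (.cut .d 11026 (.cut .v 16793600 (.cut .l 4805 (.cut .d 5513 (.cut .v 16785408 (.cut .l 2402 (.cut .d 2756 (.cut .s 5464064 (.cut .s 5451776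 (.pos 51 .pp ⟨⟨172682, 0, 0, 0, 0, 0, 0, 0, 0, ⟨0, 0⟩, 0⟩, 0, 313875⟩ 0 0) (.pos 51 .pp ⟨⟨170270, 0, 0, 0, 0, 0, 0, 0, 0, ⟨0, 0⟩, 0⟩, 0, 310295⟩ 0 0)) (.cut .s 5476352 (.pos 51 .pp ⟨⟨167897, 0, 0, 0, 0, 0, 0, 0, 0, ⟨0, 0⟩, 0⟩, 0, 306716⟩ 0 0) (.pos 51 .pp ⟨⟨165565, 0, 0, 0, 0, 0, 0, 0, 0, ⟨0, 0⟩, 0⟩, 0, 303139⟩ 0 0))) (.pos 51 .pp ⟨⟨163879, 0, 0, 0, 0, 0, 0, 0, 0, ⟨0, 0⟩, 0⟩, 0, 323361⟩ 0 0)) (.pos 51 .pp ⟨⟨168863, 0, 0, 0, 0, 0, 0, 0, 0, ⟨0, 0⟩, 0⟩, 0, 301482⟩ 0 0)) (.void 52 ⟨⟨100000, 0, 0, 0, 0, 0, 0, 0, 0, ⟨0, 0⟩, 0⟩, 0, 0⟩ 0 0)) (.pos 47 .pp ⟨⟨162340, 0, 0, 0, 0, 0, 0, 0, 0, ⟨0, 0⟩, 0⟩, 0, 324184⟩ 0 0)) (.pos 47 .pp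 ⟨⟨166469, 0, 0, 0, 0, 0, 0, 0, 0, ⟨0, 0⟩, 0⟩, 0, 300699⟩ 0 0)) (.void 48 ⟨⟨100000, 0, 0, 0, 0, 0, 0, 0, 0, ⟨0, 0⟩, 0⟩, 0, 0⟩ 0 0)) (.pos 45 .pp ⟨⟨158724, 0, 0, 0, 0, 0, 0, 0, 0, ⟨0, 0⟩, 0⟩, 0, 326071⟩ 0 0)) (.pos 45 .pp ⟨⟨160830, 0, 0, 0, 0, 0, 0, 0, 0, ⟨0, 0⟩, 0⟩, 0, 298929⟩ 0 0)) (.cut .l 9611 (.cut .d 11026 (.cut .v 16793600 (.cut .s 5513216 (.cut .d 5513 (.cut .v 16785408 (.cut .l 4805 (.cut .l 2402 (.cut .d 2756 (.cut .l 1201 (.cut .d 1378 (.cut .v 16781312 (.cut .l 600 (.cut .d 689 (.cut .v 16779264 (.cut .l 300 (.cut .v 16778240 (.cut .s 5500928 (.cut .s 5494784 (.pos 63 .pp ⟨⟨164520, 0, 0, 0, 0, 0, 0, 0, 0, ⟨0, 0⟩,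 0⟩, 0, 300713⟩ 0 0) (.pos 63 .pp ⟨⟨163354, 0, 0, 0, 0, 0, 0, 0, 0, ⟨0, 0⟩, 0⟩, 0, 298951⟩ 0 0)) (.cut .s 5507072 (.pos 63 .pp ⟨⟨162201, 0, 0, 0, 0, 0, 0, 0, 0, ⟨0, 0⟩, 0⟩, 0, 297186⟩ 0 0) (.pos 63 .pp ⟨⟨161061, 0, 0, 0, 0, 0, 0, 0, 0, ⟨0, 0⟩, 0⟩, 0, 295421⟩ 0 0))) (.void 64 ⟨⟨75266, 0, 0, 0, 0, 0, 0, 0, 0, ⟨0, 0⟩, 0⟩, 0, 24734⟩ 0 0)) (.pos 61 .pp ⟨⟨163005, 0, 0, 0, 0, 0, 0, 0, 0, ⟨0, 0⟩, 0⟩, 0, 294560⟩ 0 0)) (.void 62 ⟨⟨100000, 0, 0, 0, 0, 0, 0, 0, 0, ⟨0, 0⟩, 0⟩, 0, 0⟩ 0 0)) (.pos 53 .pp ⟨⟨161202, 0, 0, 0, 0, 0, 0, 0, 0, ⟨0, 0⟩, 0⟩, 0, 305213⟩ 0 0)) (.pos 53 .pp ⟨⟨162701, 0, 0, 0, 0, 0, 0, 0, 0, ⟨0, 0⟩, 0⟩, 0, 294505⟩ 0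 0)) (.void 54 ⟨⟨100000, 0, 0, 0, 0, 0, 0, 0, 0, ⟨0, 0⟩, 0⟩, 0, 0⟩ 0 0)) (.pos 51 .pp ⟨⟨160584, 0, 0, 0, 0, 0, 0, 0, 0, ⟨0, 0⟩, 0⟩, 0, 305549⟩ 0 0)) (.pos 51 .pp ⟨⟨162092, 0, 0, 0, 0, 0, 0, 0, 0, ⟨0, 0⟩, 0⟩, 0, 294391⟩ 0 0)) (.pos 51 .pp ⟨⟨159001, 0, 0, 0, 0, 0, 0, 0, 0, ⟨0, 0⟩, 0⟩, 0, 306253⟩ 0 0)) (.pos 51 .pp ⟨⟨160836, 0, 0, 0, 0, 0, 0, 0, 0, ⟨0, 0⟩, 0⟩, 0, 293815⟩ 0 0)) (.pos 51 .pp ⟨⟨156513, 0, 0, 0, 0, 0, 0, 0, 0, ⟨0, 0⟩, 0⟩, 0, 0⟩ 0 0)) (.pos 52 .pp ⟨⟨836906, 0, 0, 0, 0, 0, 0, 0, 0, ⟨0, 0⟩, 0⟩, 0, 0⟩ 0 0)) (.pos 47 .pp ⟨⟨158986, 0, 0, 0, 0, 0, 0, 0, 0, ⟨0, 0⟩, 0⟩, 0, 300792⟩ 0 0)) (.cut .l 4805 (.cut .d 5513 (.cut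 .v 16785408 (.cut .l 2402 (.cut .d 2756 (.cut .l 1201 (.cut .d 1378 (.cut .v 16781312 (.cut .s 5525504 (.cut .s 5519360 (.pos 53 .pp ⟨⟨159781, 0, 0, 0, 0, 0, 0, 0, 0, ⟨0, 0⟩, 0⟩, 0, 293803⟩ 0 0) (.pos 53 .pp ⟨⟨158688, 0, 0, 0, 0, 0, 0, 0, 0, ⟨0, 0⟩, 0⟩, 0, 292012⟩ 0 0)) (.cut .s 5531648 (.pos 53 .pp ⟨⟨157605, 0, 0, 0, 0, 0, 0, 0, 0, ⟨0, 0⟩, 0⟩, 0, 290222⟩ 0 0) (.pos 53 .pp ⟨⟨156531, 0, 0, 0, 0, 0, 0, 0, 0, ⟨0, 0⟩, 0⟩, 0, 288431⟩ 0 0))) (.void 54 ⟨⟨100000, 0, 0, 0, 0, 0, 0, 0, 0, ⟨0, 0⟩, 0⟩, 0, 0⟩ 0 0)) (.pos 51 .pp ⟨⟨156573, 0, 0, 0, 0, 0, 0, 0, 0, ⟨0, 0⟩, 0⟩, 0, 297929⟩ 0 0)) (.pos 51 .pp ⟨⟨157972, 0, 0, 0, 0, 0, 0, 0,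 0, ⟨0, 0⟩, 0⟩, 0, 287832⟩ 0 0)) (.pos 51 .pp ⟨⟨155123, 0, 0, 0, 0, 0, 0, 0, 0, ⟨0, 0⟩, 0⟩, 0, 298569⟩ 0 0)) (.pos 51 .pp ⟨⟨156689, 0, 0, 0, 0, 0, 0, 0, 0, ⟨0, 0⟩, 0⟩, 0, 287259⟩ 0 0)) (.pos 52 .pp ⟨⟨826242, 0, 0, 0, 0, 0, 0, 0, 0, ⟨0, 0⟩, 0⟩, 0, 0⟩ 0 0)) (.pos 47 .pp ⟨⟨153245, 0, 0, 0, 0, 0, 0, 0, 0, ⟨0, 0⟩, 0⟩, 0, 299516⟩ 0 0)) (.pos 47 .pp ⟨⟨154177, 0, 0, 0, 0, 0, 0, 0, 0, ⟨0, 0⟩, 0⟩, 0, 286212⟩ 0 0))) (.pos 48 .pp ⟨⟨836701, 0, 0, 0, 0, 0, 0, 0, 0, ⟨0, 0⟩, 0⟩, 0, 0⟩ 0 0)) (.pos 45 .pp ⟨⟨151236, 0, 0, 0, 0, 0, 0, 0, 0, ⟨0, 0⟩, 0⟩, 0, 310068⟩ 0 0)) (.pos 45 .pp ⟨⟨153505, 0, 0, 0, 0, 0, 0, 0, 0, ⟨0, 0⟩, 0⟩, 0, 286003⟩ 0 0)))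 (.pos 46 .pp ⟨⟨856396, 0, 0, 0, 0, 0, 0, 0, 0, ⟨0, 0⟩, 0⟩, 0, 0⟩ 0 0)) (.pos 41 .pp ⟨⟨146961, 0, 0, 0, 0, 0, 0, 0, 0, ⟨0, 0⟩, 0⟩, 0, 331873⟩ 0 0)) (.pos 41 .pp ⟨⟨152468, 0, 0, 0, 0, 0, 0, 0, 0, ⟨0, 0⟩, 0⟩, 0, 285182⟩ 0 0)) (.cut .l 19223 (.cut .d 22053 (.cut .v 16809984 (.cut .s 5586944 (.cut .l 9611 (.cut .d 11026 (.cut .v 16793600 (.cut .s 5562368 (.cut .l 4805 (.cut .d 5513 (.cut .v 16785408 (.cut .l 2402 (.cut .d 2756 (.cut .s 5550080 (.cut .s 5543936 (.pos 51 .pp ⟨⟨155484, 0, 0, 0, 0, 0, 0, 0, 0, ⟨0, 0⟩, 0⟩, 0, 286639⟩ 0 0) (.pos 51 .pp ⟨⟨154431, 0, 0, 0, 0, 0, 0, 0, 0, ⟨0, 0⟩, 0⟩, 0, 284849⟩ 0 0)) (.cut .s 5556224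 (.pos 51 .pp ⟨⟨153388, 0, 0, 0, 0, 0, 0, 0, 0, ⟨0, 0⟩, 0⟩, 0, 283060⟩ 0 0) (.pos 51 .pp ⟨⟨152355, 0, 0, 0, 0, 0, 0, 0, 0, ⟨0, 0⟩, 0⟩, 0, 281272⟩ 0 0))) (.pos 51 .pp ⟨⟨151226, 0, 0, 0, 0, 0, 0, 0, 0, ⟨0, 0⟩, 0⟩, 0, 291036⟩ 0 0)) (.pos 51 .pp ⟨⟨152583, 0, 0, 0, 0, 0, 0, 0, 0, ⟨0, 0⟩, 0⟩, 0, 280539⟩ 0 0)) (.pos 52 .pp ⟨⟨810788, 0, 0, 0, 0, 0, 0, 0, 0, ⟨0, 0⟩, 0⟩, 0, 0⟩ 0 0)) (.pos 47 .pp ⟨⟨149401, 0, 0, 0, 0, 0, 0, 0, 0, ⟨0, 0⟩, 0⟩, 0, 291952⟩ 0 0)) (.pos 47 .pp ⟨⟨150016, 0, 0, 0, 0, 0, 0, 0, 0, ⟨0, 0⟩, 0⟩, 0, 279454⟩ 0 0)) (.cut .l 4805 (.cut .d 5513 (.cut .l 2402 (.cut .d 2756 (.cut .v 16785408 (.cut .s 5574656 (.cut .s 5568512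 (.pos 51 .pp ⟨⟨151332, 0, 0, 0, 0, 0, 0, 0, 0, ⟨0, 0⟩, 0⟩, 0, 279484⟩ 0 0) (.pos 51 .pp ⟨⟨150319, 0, 0, 0, 0, 0, 0, 0, 0, ⟨0, 0⟩, 0⟩, 0, 277697⟩ 0 0)) (.cut .s 5580800 (.pos 51 .pp ⟨⟨149317, 0, 0, 0, 0, 0, 0, 0, 0, ⟨0, 0⟩, 0⟩, 0, 275911⟩ 0 0) (.pos 51 .pp ⟨⟨148324, 0, 0, 0, 0, 0, 0, 0, 0, ⟨0, 0⟩, 0⟩, 0, 274124⟩ 0 0))) (.void 52 ⟨⟨100000, 0, 0, 0, 0, 0, 0, 0, 0, ⟨0, 0⟩, 0⟩, 0, 0⟩ 0 0)) (.pos 47 .pp ⟨⟨148022, 0, 0, 0, 0, 0, 0, 0, 0, ⟨0, 0⟩, 0⟩, 0, 283383⟩ 0 0)) (.pos 47 .pp ⟨⟨148551, 0, 0, 0, 0, 0, 0, 0, 0, ⟨0, 0⟩, 0⟩, 0, 273998⟩ 0 0)) (.pos 47 .pp ⟨⟨145598, 0, 0, 0, 0, 0, 0, 0, 0, ⟨0, 0⟩, 0⟩, 0, 284512⟩ 0 0)) (.pos 47 .pp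 ⟨⟨145895, 0, 0, 0, 0, 0, 0, 0, 0, ⟨0, 0⟩, 0⟩, 0, 272533⟩ 0 0))) (.pos 48 .pp ⟨⟨806816, 0, 0, 0, 0, 0, 0, 0, 0, ⟨0, 0⟩, 0⟩, 0, 0⟩ 0 0)) (.pos 45 .pp ⟨⟨143916, 0, 0, 0, 0, 0, 0, 0, 0, ⟨0, 0⟩, 0⟩, 0, 294581⟩ 0 0)) (.pos 45 .pp ⟨⟨144922, 0, 0, 0, 0, 0, 0, 0, 0, ⟨0, 0⟩, 0⟩, 0, 272721⟩ 0 0)) (.cut .l 9611 (.cut .d 11026 (.cut .v 16793600 (.cut .s 5611520 (.cut .l 4805 (.cut .d 5513 (.cut .l 2402 (.cut .d 2756 (.cut .v 16785408 (.cut .s 5599232 (.cut .s 5593088 (.pos 51 .pp ⟨⟨147342, 0, 0, 0, 0, 0, 0, 0, 0, ⟨0, 0⟩, 0⟩, 0, 272339⟩ 0 0) (.pos 51 .pp ⟨⟨146369, 0, 0, 0, 0, 0, 0, 0, 0, ⟨0, 0⟩, 0⟩, 0, 270554⟩ 0 0)) (.cut .s 5605376 (.pos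 51 .pp ⟨⟨145407, 0, 0, 0, 0, 0, 0, 0, 0, ⟨0, 0⟩, 0⟩, 0, 268770⟩ 0 0) (.pos 51 .pp ⟨⟨144455, 0, 0, 0, 0, 0, 0, 0, 0, ⟨0, 0⟩, 0⟩, 0, 266986⟩ 0 0))) (.void 52 ⟨⟨100000, 0, 0, 0, 0, 0, 0, 0, 0, ⟨0, 0⟩, 0⟩, 0, 0⟩ 0 0)) (.pos 47 .pp ⟨⟨144162, 0, 0, 0, 0, 0, 0, 0, 0, ⟨0, 0⟩, 0⟩, 0, 276118⟩ 0 0)) (.pos 47 .pp ⟨⟨144526, 0, 0, 0, 0, 0, 0, 0, 0, ⟨0, 0⟩, 0⟩, 0, 266950⟩ 0 0)) (.pos 47 .pp ⟨⟨141836, 0, 0, 0, 0, 0, 0, 0, 0, ⟨0, 0⟩, 0⟩, 0, 277194⟩ 0 0)) (.pos 47 .pp ⟨⟨141815, 0, 0, 0, 0, 0, 0, 0, 0, ⟨0, 0⟩, 0⟩, 0, 265453⟩ 0 0)) (.cut .l 4805 (.cut .d 5513 (.cut .l 2402 (.cut .d 2756 (.cut .v 16785408 (.cut .s 5623808 (.cut .s 5617664 (.pos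 51 .pp ⟨⟨143513, 0, 0, 0, 0, 0, 0, 0, 0, ⟨0, 0⟩, 0⟩, 0, 265203⟩ 0 0) (.pos 51 .pp ⟨⟨142581, 0, 0, 0, 0, 0, 0, 0, 0, ⟨0, 0⟩, 0⟩, 0, 263420⟩ 0 0)) (.cut .s 5629952 (.pos 51 .pp ⟨⟨141660, 0, 0, 0, 0, 0, 0, 0, 0, ⟨0, 0⟩, 0⟩, 0, 261638⟩ 0 0) (.pos 51 .pp ⟨⟨140748, 0, 0, 0, 0, 0, 0, 0, 0, ⟨0, 0⟩, 0⟩, 0, 259857⟩ 0 0))) (.void 52 ⟨⟨100000, 0, 0, 0, 0, 0, 0, 0, 0, ⟨0, 0⟩, 0⟩, 0, 0⟩ 0 0)) (.pos 47 .pp ⟨⟨140343, 0, 0, 0, 0, 0, 0, 0, 0, ⟨0, 0⟩, 0⟩, 0, 268974⟩ 0 0)) (.pos 47 .pp ⟨⟨140541, 0, 0, 0, 0, 0, 0, 0, 0, ⟨0, 0⟩, 0⟩, 0, 259745⟩ 0 0)) (.pos 47 .pp ⟨⟨138144, 0, 0, 0, 0, 0, 0, 0, 0, ⟨0, 0⟩, 0⟩, 0, 269959⟩ 0 0)) (.pos 47 .pp ⟨⟨137775,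 0, 0, 0, 0, 0, 0, 0, 0, ⟨0, 0⟩, 0⟩, 0, 258214⟩ 0 0))) (.pos 48 .pp ⟨⟨777369, 0, 0, 0, 0, 0, 0, 0, 0, ⟨0, 0⟩, 0⟩, 0, 0⟩ 0 0)) (.pos 45 .pp ⟨⟨136765, 0, 0, 0, 0, 0, 0, 0, 0, ⟨0, 0⟩, 0⟩, 0, 279597⟩ 0 0)) (.pos 45 .pp ⟨⟨136498, 0, 0, 0, 0, 0, 0, 0, 0, ⟨0, 0⟩, 0⟩, 0, 258791⟩ 0 0))) (.pos 46 .pp ⟨⟨800617, 0, 0, 0, 0, 0, 0, 0, 0, ⟨0, 0⟩, 0⟩, 0, 0⟩ 0 0)) (.pos 41 .pp ⟨⟨133788, 0, 0, 0, 0, 0, 0, 0, 0, ⟨0, 0⟩, 0⟩, 0, 299460⟩ 0 0)) (.pos 41 .pp ⟨⟨134905, 0, 0, 0, 0, 0, 0, 0, 0, ⟨0, 0⟩, 0⟩, 0, 259427⟩ 0 0))) (.pos 42 .pp ⟨⟨842084, 0, 0, 0, 0, 0, 0, 0, 0, ⟨0, 0⟩, 0⟩, 0, 0⟩ 0 0)) (.pos 35 .pp ⟨⟨126768, 0, 0, 0, 0, 0, 0, 0, 0, ⟨0, 0⟩,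 0⟩, 0, 341924⟩ 0 0)) (.pos 35 .pp ⟨⟨138859, 0, 0, 0, 0, 0, 0, 0, 0, ⟨0, 0⟩, 0⟩, 0, 258743⟩ 0 0))) (.pos 36 .pp ⟨⟨907434, 0, 0, 0, 0, 0, 0, 0, 0, ⟨0, 0⟩, 0⟩, 0, 0⟩ 0 0)) (.pos 33 .pp ⟨⟨110086, 0, 0, 0, 0, 0, 0, 0, 0, ⟨0, 0⟩, 0⟩, 0, 436364⟩ 0 0)) (.pos 33 .pp ⟨⟨132975, 0, 0, 0, 0, 0, 0, 0, 0, ⟨0, 0⟩, 0⟩, 0, 252551⟩ 0 0)) (.cut .l 76895 (.cut .d 88213 (.cut .v 16908288 (.cut .s 5832704 (.cut .l 38447 (.cut .d 44106 (.cut .v 16842752 (.cut .s 5734400 (.cut .l 19223 (.cut .d 22053 (.cut .v 16809984 (.cut .s 5685248 (.cut .l 9611 (.cut .d 11026 (.cut .v 16793600 (.cut .s 5660672 (.cut .d 5513 (.cut .l 4805 (.cut .l 2402 (.cut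 .d 2756 (.cut .v 16785408 (.cut .l 1201 (.cut .d 1378 (.cut .v 16781312 (.cut .s 5648384 (.cut .s 5642240 (.pos 53 .pp ⟨⟨139833, 0, 0, 0, 0, 0, 0, 0, 0, ⟨0, 0⟩, 0⟩, 0, 258079⟩ 0 0) (.pos 53 .pp ⟨⟨138942, 0, 0, 0, 0, 0, 0, 0, 0, ⟨0, 0⟩, 0⟩, 0, 256300⟩ 0 0)) (.cut .s 5654528 (.pos 53 .pp ⟨⟨138061, 0, 0, 0, 0, 0, 0, 0, 0, ⟨0, 0⟩, 0⟩, 0, 254521⟩ 0 0) (.pos 53 .pp ⟨⟨137190, 0, 0, 0, 0, 0, 0, 0, 0, ⟨0, 0⟩, 0⟩, 0, 252742⟩ 0 0))) (.void 54 ⟨⟨100000, 0, 0, 0, 0, 0, 0, 0, 0, ⟨0, 0⟩, 0⟩, 0, 0⟩ 0 0)) (.pos 51 .pp ⟨⟨137261, 0, 0, 0, 0, 0, 0, 0, 0, ⟨0, 0⟩, 0⟩, 0, 261585⟩ 0 0)) (.pos 51 .pp ⟨⟨137987, 0, 0, 0, 0, 0, 0, 0, 0, ⟨0, 0⟩, 0⟩,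 0, 252614⟩ 0 0)) (.void 52 ⟨⟨100000, 0, 0, 0, 0, 0, 0, 0, 0, ⟨0, 0⟩, 0⟩, 0, 0⟩ 0 0)) (.pos 47 .pp ⟨⟨136565, 0, 0, 0, 0, 0, 0, 0, 0, ⟨0, 0⟩, 0⟩, 0, 261949⟩ 0 0)) (.pos 47 .pp ⟨⟨136598, 0, 0, 0, 0, 0, 0, 0, 0, ⟨0, 0⟩, 0⟩, 0, 252384⟩ 0 0)) (.pos 47 .pp ⟨⟨135415, 0, 0, 0, 0, 0, 0, 0, 0, ⟨0, 0⟩, 0⟩, 0, 0⟩ 0 0)) (.pos 47 .pp ⟨⟨134870, 0, 0, 0, 0, 0, 0, 0, 0, ⟨0, 0⟩, 0⟩, 0, 258345⟩ 0 0)) (.cut .s 5672960 (.cut .s 5666816 (.pos 47 .pp ⟨⟨136749, 0, 0, 0, 0, 0, 0, 0, 0, ⟨0, 0⟩, 0⟩, 0, 250888⟩ 0 0) (.pos 47 .pp ⟨⟨135949, 0, 0, 0, 0, 0, 0, 0, 0, ⟨0, 0⟩, 0⟩, 0, 249101⟩ 0 0)) (.pos 47 .pp ⟨⟨133797, 0, 0, 0, 0, 0, 0, 0, 0, ⟨0, 0⟩, 0⟩,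 0, 246144⟩ 0 0))) (.pos 48 .pp ⟨⟨748361, 0, 0, 0, 0, 0, 0, 0, 0, ⟨0, 0⟩, 0⟩, 0, 0⟩ 0 0)) (.pos 45 .pp ⟨⟨130533, 0, 0, 0, 0, 0, 0, 0, 0, ⟨0, 0⟩, 0⟩, 0, 264649⟩ 0 0)) (.pos 45 .pp ⟨⟨128234, 0, 0, 0, 0, 0, 0, 0, 0, ⟨0, 0⟩, 0⟩, 0, 244232⟩ 0 0)) (.cut .l 9611 (.cut .d 11026 (.cut .v 16793600 (.cut .l 4805 (.cut .d 5513 (.cut .s 5709824 (.cut .s 5697536 (.pos 47 .pp ⟨⟨132120, 0, 0, 0, 0, 0, 0, 0, 0, ⟨0, 0⟩, 0⟩, 0, 242610⟩ 0 0) (.pos 47 .pp ⟨⟨130515, 0, 0, 0, 0, 0, 0, 0, 0, ⟨0, 0⟩, 0⟩, 0, 239074⟩ 0 0)) (.cut .s 5722112 (.pos 47 .pp ⟨⟨128951, 0, 0, 0, 0, 0, 0, 0, 0, ⟨0, 0⟩, 0⟩, 0, 235540⟩ 0 0) (.pos 47 .pp ⟨⟨127427, 0, 0, 0, 0,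 0, 0, 0, 0, ⟨0, 0⟩, 0⟩, 0, 232010⟩ 0 0))) (.pos 47 .pp ⟨⟨125866, 0, 0, 0, 0, 0, 0, 0, 0, ⟨0, 0⟩, 0⟩, 0, 249683⟩ 0 0)) (.pos 47 .pp ⟨⟨125900, 0, 0, 0, 0, 0, 0, 0, 0, ⟨0, 0⟩, 0⟩, 0, 231678⟩ 0 0)) (.pos 48 .pp ⟨⟨719794, 0, 0, 0, 0, 0, 0, 0, 0, ⟨0, 0⟩, 0⟩, 0, 0⟩ 0 0)) (.pos 45 .pp ⟨⟨123729, 0, 0, 0, 0, 0, 0, 0, 0, ⟨0, 0⟩, 0⟩, 0, 250642⟩ 0 0)) (.pos 45 .pp ⟨⟨120130, 0, 0, 0, 0, 0, 0, 0, 0, ⟨0, 0⟩, 0⟩, 0, 229061⟩ 0 0))) (.pos 46 .pp ⟨⟨746631, 0, 0, 0, 0, 0, 0, 0, 0, ⟨0, 0⟩, 0⟩, 0, 0⟩ 0 0)) (.pos 41 .pp ⟨⟨122466, 0, 0, 0, 0, 0, 0, 0, 0, ⟨0, 0⟩, 0⟩, 0, 268343⟩ 0 0)) (.pos 41 .pp ⟨⟨117312, 0, 0, 0, 0, 0, 0, 0, 0, ⟨0, 0⟩, 0⟩, 0, 231226⟩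 0 0)) (.cut .l 19223 (.cut .d 22053 (.cut .v 16809984 (.cut .l 9611 (.cut .d 11026 (.cut .v 16793600 (.cut .s 5783552 (.cut .s 5758976 (.cut .s 5746688 (.pos 47 .pp ⟨⟨126752, 0, 0, 0, 0, 0, 0, 0, 0, ⟨0, 0⟩, 0⟩, 0, 228341⟩ 0 0) (.pos 47 .pp ⟨⟨125509, 0, 0, 0, 0, 0, 0, 0, 0, ⟨0, 0⟩, 0⟩, 0, 224783⟩ 0 0)) (.pos 47 .pp ⟨⟨121730, 0, 0, 0, 0, 0, 0, 0, 0, ⟨0, 0⟩, 0⟩, 0, 219020⟩ 0 0)) (.cut .s 5808128 (.pos 47 .pp ⟨⟨119557, 0, 0, 0, 0, 0, 0, 0, 0, ⟨0, 0⟩, 0⟩, 0, 211948⟩ 0 0) (.pos 47 .pp ⟨⟨117605, 0, 0, 0, 0, 0, 0, 0, 0, ⟨0, 0⟩, 0⟩, 0, 204885⟩ 0 0))) (.pos 48 .pp ⟨⟨690701, 0, 0, 0, 0, 0, 0, 0, 0, ⟨0, 0⟩, 0⟩, 0, 0⟩ 0 0)) (.pos 45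 .pp ⟨⟨114790, 0, 0, 0, 0, 0, 0, 0, 0, ⟨0, 0⟩, 0⟩, 0, 238050⟩ 0 0)) (.pos 45 .pp ⟨⟨112181, 0, 0, 0, 0, 0, 0, 0, 0, ⟨0, 0⟩, 0⟩, 0, 206106⟩ 0 0)) (.pos 46 .pp ⟨⟨691752, 0, 0, 0, 0, 0, 0, 0, 0, ⟨0, 0⟩, 0⟩, 0, 0⟩ 0 0)) (.pos 41 .pp ⟨⟨110684, 0, 0, 0, 0, 0, 0, 0, 0, ⟨0, 0⟩, 0⟩, 0, 239981⟩ 0 0)) (.pos 41 .pp ⟨⟨100605, 0, 0, 0, 0, 0, 0, 0, 0, ⟨0, 0⟩, 0⟩, 0, 200605⟩ 0 0))) (.pos 42 .pp ⟨⟨745301, 0, 0, 0, 0, 0, 0, 0, 0, ⟨0, 0⟩, 0⟩, 0, 0⟩ 0 0)) (.pos 35 .pp ⟨⟨108557, 0, 0, 0, 0, 0, 0, 0, 0, ⟨0, 0⟩, 0⟩, 0, 274766⟩ 0 0)) (.pos 35 .pp ⟨⟨96133, 0, 0, 0, 0, 0, 0, 0, 0, ⟨0, 0⟩, 0⟩, 0, 205895⟩ 0 0)) (.cut .s 5931008 (.cut .s 5881856 (.pos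 35 .pp ⟨⟨111188, 0, 0, 0, 0, 0, 0, 0, 0, ⟨0, 0⟩, 0⟩, 0, 193628⟩ 0 0) (.pos 35 .pp ⟨⟨108526, 0, 0, 0, 0, 0, 0, 0, 0, ⟨0, 0⟩, 0⟩, 0, 179690⟩ 0 0)) (.pos 35 .pp ⟨⟨97695, 0, 0, 0, 0, 0, 0, 0, 0, ⟨0, 0⟩, 0⟩, 0, 158184⟩ 0 0))) (.pos 36 .pp ⟨⟨740418, 0, 0, 0, 0, 0, 0, 0, 0, ⟨0, 0⟩, 0⟩, 0, 0⟩ 0 0)) (.pos 33 .pp ⟨⟨78831, 0, 0, 0, 0, 0, 0, 0, 0, ⟨0, 0⟩, 0⟩, 0, 288327⟩ 0 0)) (.pos 33 .pp ⟨⟨56468, 0, 0, 0, 0, 0, 0, 0, 0, ⟨0, 0⟩, 0⟩, 0, 157925⟩ 0 0))) (.pos 34 .pp ⟨⟨871214, 0, 0, 0, 0, 0, 0, 0, 0, ⟨0, 0⟩, 0⟩, 0, 0⟩ 0 0)) (.pos 31 .pp ⟨⟨43800, 0, 0, 0, 0, 0, 0, 0, 0, ⟨0, 0⟩, 0⟩, 0, 473132⟩ 0 0)) (.pos 31 .pp ⟨⟨82918, 0, 0, 0, 0, 0, 0,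 0, 0, ⟨0, 0⟩, 0⟩, 0, 160372⟩ 0 0)) (.pos 32 .pp ⟨⟨908426, 0, 0, 0, 0, 0, 0, 0, 0, ⟨0, 0⟩, 0⟩, 0, 0⟩ 0 0)) (.pos 29 .pp ⟨⟨0, 0, 0, 0, 0, 0, 0, 0, 0, ⟨0, 0⟩, 0⟩, 0, 495533⟩ 0 0)) (.pos 29 .pp ⟨⟨26237, 0, 0, 0, 0, 0, 0, 0, 0, ⟨0, 0⟩, 0⟩, 0, 28230⟩ 0 0)) (.pos 30 .pp ⟨⟨986374, 0, 0, 0, 0, 0, 0, 0, 0, ⟨0, 0⟩, 0⟩, 0, 0⟩ 0 0)) (.pos 27 .pp ⟨⟨0, 0, 0, 0, 0, 0, 0, 0, 0, ⟨0, 0⟩, 0⟩, 0, 502872⟩ 0 0)) (.void 27 ⟨⟨0, 0, 0, 0, 0, 0, 0, 0, 0, ⟨0, 0⟩, 0⟩, 0, 100000⟩ 0 0)) (.void 28 ⟨⟨71963, 0, 0, 0, 0, 0, 0, 0, 0, ⟨0, 0⟩, 0⟩, 0, 28037⟩ 0 0)) (.void 26 ⟨⟨71963, 0, 0, 0, 0, 0, 0, 0, 0, ⟨0, 0⟩, 0⟩, 0, 28037⟩ 0 0)) (.void 24 ⟨⟨0, 0, 0, 0, 0,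 0, 0, 0, 0, ⟨0, 0⟩, 0⟩, 100000, 0⟩ 0 0)))),
    by decide +kernel⟩

def covers6 : cell.Covers Vale.Agent.P237.Petty.Cor.Grid.N6.table row6.1 :=
  ⟨(.cut .d 0 (.cut .v 16777216 (.cut .v 8388608 (.void 2 ⟨⟨0, 0, 0, 0, 50000, 50000, 0, 0, 0, ⟨0, 0⟩, 0⟩, 0, 0⟩ 0 0) (.cut .v 12582912 (.void 8 ⟨⟨0, 0, 0, 0, 0, 61015, 0, 0, 38985, ⟨0, 0⟩, 13128881⟩, 0, 0⟩ 0 0) (.cut .d (-8388608) (.void 9 ⟨⟨0, 0, 0, 0, 0, 100000, 0, 0, 0, ⟨0, 0⟩, 0⟩, 0, 0⟩ 0 0) (.cut .d (-4194304) (.void 9 ⟨⟨0, 0, 0, 0, 0, 100000, 0, 0, 0, ⟨0, 0⟩, 0⟩, 0, 0⟩ 0 0) (.cut .d (-2097152) (.void 9 ⟨⟨0, 0, 0, 0, 0, 100000, 0, 0, 0, ⟨0, 0⟩, 0⟩, 0, 0⟩ 0 0) (.cut .v 14680064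 (.pos 14 .mm ⟨⟨0, 0, 0, 0, 0, 13671, 0, 0, 0, ⟨0, 0⟩, 0⟩, 0, 0⟩ 0 0) (.cut .d (-1048576) (.void 15 ⟨⟨0, 0, 0, 0, 0, 100000, 0, 0, 0, ⟨0, 0⟩, 0⟩, 0, 0⟩ 0 0) (.cut .d (-524288) (.void 15 ⟨⟨0, 0, 0, 0, 0, 100000, 0, 0, 0, ⟨0, 0⟩, 0⟩, 0, 0⟩ 0 0) (.cut .d (-262144) (.pos 15 .mm ⟨⟨0, 0, 0, 0, 0, 1029574, 0, 0, 0, ⟨0, 0⟩, 0⟩, 0, 0⟩ 0 0) (.pos 15 .mm ⟨⟨0, 0, 0, 0, 0, 746654, 0, 0, 0, ⟨0, 0⟩, 0⟩, 0, 0⟩ 0 0)))))))))) (.cut .v 25165824 (.cut .v 20971520 (.cut .d (-8388608) (.void 25 ⟨⟨0, 0, 0, 0, 0, 100000, 0, 0, 0, ⟨0, 0⟩, 0⟩, 0, 0⟩ 0 0) (.cut .v 18874368 (.cut .d (-4194304) (.void 27 ⟨⟨0, 0, 0, 0, 0, 100000, 0, 0, 0, ⟨0, 0⟩, 0⟩,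 0, 0⟩ 0 0) (.cut .d (-2097152) (.void 27 ⟨⟨0, 0, 0, 0, 0, 100000, 0, 0, 0, ⟨0, 0⟩, 0⟩, 0, 0⟩ 0 0) (.cut .d (-1048576) (.void 27 ⟨⟨0, 0, 0, 0, 0, 100000, 0, 0, 0, ⟨0, 0⟩, 0⟩, 0, 0⟩ 0 0) (.cut .d (-524288) (.void 27 ⟨⟨0, 0, 0, 0, 0, 100000, 0, 0, 0, ⟨0, 0⟩, 0⟩, 0, 0⟩ 0 0) (.cut .v 17825792 (.cut .s 6422528 (.pos 29 .mp ⟨⟨358071, 0, 0, 0, 0, 95842, 0, 0, 0, ⟨0, 0⟩, 0⟩, 0, 0⟩ 0 0) (.cut .v 17301504 (.cut .d (-262144) (.cut .d (-393216) (.void 31 ⟨⟨0, 0, 0, 0, 0, 100000, 0, 0, 0, ⟨0, 0⟩, 0⟩, 0, 0⟩ 0 0) (.pos 31 .mp ⟨⟨230391, 0, 0, 0, 0, 1108585, 0, 0, 0, ⟨0, 0⟩, 0⟩, 0, 0⟩ 0 0)) (.cut .d (-131072) (.pos 31 .mp ⟨⟨236638, 0, 0,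 0, 0, 649680, 0, 0, 0, ⟨0, 0⟩, 0⟩, 0, 0⟩ 0 0) (.pos 31 .mp ⟨⟨138494, 0, 0, 0, 0, 614489, 0, 0, 0, ⟨0, 0⟩, 0⟩, 0, 0⟩ 0 0))) (.pos 32 .mp ⟨⟨1444440, 0, 0, 0, 0, 0, 0, 0, 0, ⟨0, 0⟩, 0⟩, 0, 0⟩ 0 0))) (.void 30 ⟨⟨100000, 0, 0, 0, 0, 0, 0, 0, 0, ⟨0, 0⟩, 0⟩, 0, 0⟩ 0 0)))))) (.void 28 ⟨⟨100000, 0, 0, 0, 0, 0, 0, 0, 0, ⟨0, 0⟩, 0⟩, 0, 0⟩ 0 0))) (.void 26 ⟨⟨100000, 0, 0, 0, 0, 0, 0, 0, 0, ⟨0, 0⟩, 0⟩, 0, 0⟩ 0 0)) (.void 24 ⟨⟨100000, 0, 0, 0, 0, 0, 0, 0, 0, ⟨0, 0⟩, 0⟩, 0, 0⟩ 0 0))) (.cut .v 16777216 (.cut .v 8388608 (.void 2 ⟨⟨0, 0, 0, 0, 100000, 0, 0, 0, 0, ⟨0, 0⟩, 0⟩, 0, 0⟩ 0 0) (.cut .v 12582912 (.void 8 ⟨⟨0, 0, 0, 0, 0, 0, 0, 0,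 100000, ⟨0, 0⟩, 13128881⟩, 0, 0⟩ 0 0) (.cut .d 1746012 (.cut .v 14680064 (.pos 14 .pm ⟨⟨0, 0, 0, 0, 0, 0, 0, 0, 565039, ⟨0, 0⟩, 15100357⟩, 0, 0⟩ 0 0) (.cut .d 873006 (.cut .v 15728640 (.pos 20 .pm ⟨⟨0, 0, 0, 0, 0, 0, 0, 0, 0, ⟨0, 0⟩, 0⟩, 0, 235097⟩ 0 0) (.pos 21 .pm ⟨⟨0, 0, 0, 0, 0, 0, 0, 0, 0, ⟨0, 0⟩, 0⟩, 0, 153235⟩ 0 0)) (.void 15 ⟨⟨0, 0, 0, 0, 0, 0, 0, 0, 0, ⟨0, 0⟩, 0⟩, 0, 100000⟩ 0 0))) (.void 9 ⟨⟨0, 0, 0, 0, 0, 0, 0, 0, 0, ⟨0, 0⟩, 0⟩, 0, 100000⟩ 0 0)))) (.cut .v 25165824 (.cut .v 20971520 (.cut .v 18874368 (.cut .d 1746012 (.cut .s 6422528 (.pos 27 .pp ⟨⟨111155, 0, 0, 0, 0, 0, 0, 0, 0, ⟨0, 0⟩, 0⟩, 0, 137982⟩ 0 0) (.pos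 27 .pp ⟨⟨146824, 0, 0, 0, 0, 0, 0, 0, 0, ⟨0, 0⟩, 0⟩, 0, 128690⟩ 0 0)) (.void 27 ⟨⟨0, 0, 0, 0, 0, 0, 0, 0, 0, ⟨0, 0⟩, 0⟩, 0, 100000⟩ 0 0)) (.void 28 ⟨⟨69036, 0, 0, 0, 0, 0, 0, 0, 0, ⟨0, 0⟩, 0⟩, 0, 30964⟩ 0 0)) (.void 26 ⟨⟨69036, 0, 0, 0, 0, 0, 0, 0, 0, ⟨0, 0⟩, 0⟩, 0, 30964⟩ 0 0)) (.void 24 ⟨⟨0, 0, 0, 0, 0, 0, 0, 0, 0, ⟨0, 0⟩, 0⟩, 27377, 72623⟩ 0 0)))),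
    by decide +kernel⟩

def covers7 : cell.Covers Vale.Agent.P237.Petty.Cor.Grid.N6.table row7.1 :=
  ⟨(.cut .d 0 (.cut .v 16777216 (.cut .v 8388608 (.void 2 ⟨⟨0, 0, 0, 0, 50000, 50000, 0, 0, 0, ⟨0, 0⟩, 0⟩, 0, 0⟩ 0 0) (.cut .v 12582912 (.pos 8 .mm ⟨⟨0, 0, 0, 0, 0, 6650275, 0, 0, 0, ⟨0, 0⟩, 0⟩, 0, 0⟩ 0 0) (.cut .d (-8388608) (.void 9 ⟨⟨0, 0, 0, 0, 0, 100000, 0, 0, 0, ⟨0, 0⟩, 0⟩, 0, 0⟩ 0 0) (.cut .d (-4194304) (.void 9 ⟨⟨0, 0, 0, 0, 0, 100000, 0, 0, 0, ⟨0, 0⟩, 0⟩, 0, 0⟩ 0 0) (.cut .d (-2097152) (.void 9 ⟨⟨0, 0, 0, 0, 0, 100000, 0, 0, 0, ⟨0, 0⟩, 0⟩, 0, 0⟩ 0 0) (.cut .d (-1048576) (.void 9 ⟨⟨0, 0, 0, 0, 0, 100000, 0, 0, 0, ⟨0,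 0⟩, 0⟩, 0, 0⟩ 0 0) (.cut .v 14680064 (.pos 14 .mm ⟨⟨0, 0, 0, 0, 0, 710768, 0, 0, 0, ⟨0, 0⟩, 0⟩, 0, 0⟩ 0 0) (.cut .d (-524288) (.void 15 ⟨⟨0, 0, 0, 0, 0, 100000, 0, 0, 0, ⟨0, 0⟩, 0⟩, 0, 0⟩ 0 0) (.cut .v 15728640 (.pos 20 .mm ⟨⟨0, 0, 0, 0, 0, 1187319, 0, 0, 0, ⟨0, 0⟩, 0⟩, 0, 0⟩ 0 0) (.cut .d (-262144) (.cut .s 7176192 (.pos 21 .mm ⟨⟨0, 0, 0, 0, 0, 1594145, 0, 0, 0, ⟨0, 0⟩, 0⟩, 0, 0⟩ 0 0) (.pos 21 .mm ⟨⟨0, 0, 0, 0, 0, 2462810, 0, 0, 0, ⟨0, 0⟩, 0⟩, 0, 0⟩ 0 0)) (.cut .s 7176192 (.cut .l 307582 (.cut .d (-131072) (.pos 21 .mm ⟨⟨0, 0, 0, 0, 0, 1487490, 0, 0, 0, ⟨0, 0⟩, 0⟩, 0, 0⟩ 0 0) (.cut .s 6995968 (.pos 21 .mm ⟨⟨0, 0, 0, 0,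 0, 998898, 0, 0, 0, ⟨0, 0⟩, 0⟩, 0, 0⟩ 0 0) (.pos 21 .mm ⟨⟨0, 0, 0, 0, 0, 1305961, 0, 0, 0, ⟨0, 0⟩, 0⟩, 0, 0⟩ 0 0))) (.pos 21 .mm ⟨⟨0, 0, 0, 0, 0, 990158, 0, 0, 0, ⟨0, 0⟩, 0⟩, 0, 0⟩ 0 0)) (.cut .v 16252928 (.pos 65 .mm ⟨⟨0, 0, 0, 0, 0, 1550229, 0, 0, 0, ⟨0, 0⟩, 0⟩, 0, 0⟩ 0 0) (.cut .s 7356416 (.cut .s 7266304 (.pos 66 .mm ⟨⟨0, 0, 0, 0, 0, 1552038, 0, 0, 0, ⟨0, 0⟩, 0⟩, 0, 0⟩ 0 0) (.pos 66 .mm ⟨⟨0, 0, 0, 0, 0, 1743502, 0, 0, 0, ⟨0, 0⟩, 0⟩, 0, 0⟩ 0 0)) (.cut .s 7446528 (.pos 66 .mm ⟨⟨0, 0, 0, 0, 0, 1944709, 0, 0, 0, ⟨0, 0⟩, 0⟩, 0, 0⟩ 0 0) (.pos 66 .mm ⟨⟨0, 0, 0, 0, 0, 2155312, 0, 0, 0, ⟨0, 0⟩, 0⟩, 0, 0⟩ 0 0))))))))))))))) (.cut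 .v 25165824 (.cut .v 20971520 (.cut .d (-8388608) (.void 25 ⟨⟨0, 0, 0, 0, 0, 100000, 0, 0, 0, ⟨0, 0⟩, 0⟩, 0, 0⟩ 0 0) (.cut .v 18874368 (.cut .d (-4194304) (.void 27 ⟨⟨0, 0, 0, 0, 0, 100000, 0, 0, 0, ⟨0, 0⟩, 0⟩, 0, 0⟩ 0 0) (.cut .d (-2097152) (.void 27 ⟨⟨0, 0, 0, 0, 0, 100000, 0, 0, 0, ⟨0, 0⟩, 0⟩, 0, 0⟩ 0 0) (.cut .d (-1048576) (.void 27 ⟨⟨0, 0, 0, 0, 0, 100000, 0, 0, 0, ⟨0, 0⟩, 0⟩, 0, 0⟩ 0 0) (.cut .d (-524288) (.void 27 ⟨⟨0, 0, 0, 0, 0, 100000, 0, 0, 0, ⟨0, 0⟩, 0⟩, 0, 0⟩ 0 0) (.cut .v 17825792 (.cut .v 17301504 (.cut .d (-262144) (.cut .d (-393216) (.void 31 ⟨⟨0, 0, 0, 0, 0, 100000, 0, 0, 0, ⟨0, 0⟩, 0⟩, 0, 0⟩ 0 0) (.cut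 .d (-327680) (.pos 31 .mp ⟨⟨283431, 0, 0, 0, 0, 3260016, 0, 0, 0, ⟨0, 0⟩, 0⟩, 0, 0⟩ 0 0) (.cut .l 307582 (.void 31 ⟨⟨0, 0, 0, 0, 0, 100000, 0, 0, 0, ⟨0, 0⟩, 0⟩, 0, 0⟩ 0 0) (.cut .l 461373 (.void 31 ⟨⟨0, 0, 0, 0, 0, 100000, 0, 0, 0, ⟨0, 0⟩, 0⟩, 0, 0⟩ 0 0) (.cut .s 7176192 (.cut .v 17039360 (.cut .s 6995968 (.pos 33 .mp ⟨⟨0, 0, 0, 0, 0, 1268064, 0, 0, 0, ⟨0, 0⟩, 0⟩, 0, 0⟩ 0 0) (.pos 33 .mp ⟨⟨0, 0, 0, 0, 0, 1650702, 0, 0, 0, ⟨0, 0⟩, 0⟩, 0, 0⟩ 0 0)) (.cut .s 6995968 (.pos 34 .mp ⟨⟨333477, 0, 0, 0, 0, 903297, 0, 0, 0, ⟨0, 0⟩, 0⟩, 0, 0⟩ 0 0) (.pos 34 .mp ⟨⟨402473, 0, 0, 0, 0, 1247842, 0, 0, 0, ⟨0, 0⟩, 0⟩, 0, 0⟩ 0 0))) (.cut .d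 (-294912) (.pos 31 .mp ⟨⟨360541, 0, 0, 0, 0, 2991696, 0, 0, 0, ⟨0, 0⟩, 0⟩, 0, 0⟩ 0 0) (.cut .l 538269 (.void 31 ⟨⟨0, 0, 0, 0, 0, 100000, 0, 0, 0, ⟨0, 0⟩, 0⟩, 0, 0⟩ 0 0) (.cut .v 17039360 (.pos 33 .mp ⟨⟨0, 0, 0, 0, 0, 2238944, 0, 0, 0, ⟨0, 0⟩, 0⟩, 0, 0⟩ 0 0) (.cut .s 7356416 (.pos 34 .mp ⟨⟨433411, 0, 0, 0, 0, 1475331, 0, 0, 0, ⟨0, 0⟩, 0⟩, 0, 0⟩ 0 0) (.pos 34 .mp ⟨⟨520747, 0, 0, 0, 0, 1858671, 0, 0, 0, ⟨0, 0⟩, 0⟩, 0, 0⟩ 0 0)))))))))) (.cut .s 7176192 (.cut .v 17039360 (.cut .s 6995968 (.cut .d (-131072) (.cut .s 6905856 (.pos 33 .mp ⟨⟨95576, 0, 0, 0, 0, 990048, 0, 0, 0, ⟨0, 0⟩, 0⟩, 0, 0⟩ 0 0) (.pos 33 .mp ⟨⟨102779, 0, 0, 0,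 0, 1139260, 0, 0, 0, ⟨0, 0⟩, 0⟩, 0, 0⟩ 0 0)) (.cut .s 6905856 (.pos 33 .mp ⟨⟨148095, 0, 0, 0, 0, 773715, 0, 0, 0, ⟨0, 0⟩, 0⟩, 0, 0⟩ 0 0) (.pos 33 .mp ⟨⟨154042, 0, 0, 0, 0, 906191, 0, 0, 0, ⟨0, 0⟩, 0⟩, 0, 0⟩ 0 0))) (.cut .d (-131072) (.cut .s 7086080 (.pos 33 .mp ⟨⟨112564, 0, 0, 0, 0, 1296437, 0, 0, 0, ⟨0, 0⟩, 0⟩, 0, 0⟩ 0 0) (.pos 33 .mp ⟨⟨124900, 0, 0, 0, 0, 1461730, 0, 0, 0, ⟨0, 0⟩, 0⟩, 0, 0⟩ 0 0)) (.cut .s 7086080 (.pos 33 .mp ⟨⟨162357, 0, 0, 0, 0, 1048641, 0, 0, 0, ⟨0, 0⟩, 0⟩, 0, 0⟩ 0 0) (.pos 33 .mp ⟨⟨180996, 0, 0, 0, 0, 1187301, 0, 0, 0, ⟨0, 0⟩, 0⟩, 0, 0⟩ 0 0)))) (.pos 34 .mp ⟨⟨1040910, 0, 0, 0, 0, 0, 0, 0, 0, ⟨0, 0⟩,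 0⟩, 0, 0⟩ 0 0)) (.cut .v 17039360 (.cut .s 7356416 (.cut .d (-131072) (.cut .s 7266304 (.pos 33 .mp ⟨⟨139291, 0, 0, 0, 0, 1636060, 0, 0, 0, ⟨0, 0⟩, 0⟩, 0, 0⟩ 0 0) (.pos 33 .mp ⟨⟨155424, 0, 0, 0, 0, 1819946, 0, 0, 0, ⟨0, 0⟩, 0⟩, 0, 0⟩ 0 0)) (.cut .s 7266304 (.pos 33 .mp ⟨⟨201617, 0, 0, 0, 0, 1334674, 0, 0, 0, ⟨0, 0⟩, 0⟩, 0, 0⟩ 0 0) (.pos 33 .mp ⟨⟨223687, 0, 0, 0, 0, 1491852, 0, 0, 0, ⟨0, 0⟩, 0⟩, 0, 0⟩ 0 0))) (.cut .d (-131072) (.cut .s 7446528 (.pos 33 .mp ⟨⟨172704, 0, 0, 0, 0, 2014302, 0, 0, 0, ⟨0, 0⟩, 0⟩, 0, 0⟩ 0 0) (.pos 33 .mp ⟨⟨192107, 0, 0, 0, 0, 2217898, 0, 0, 0, ⟨0, 0⟩, 0⟩, 0, 0⟩ 0 0)) (.cut .s 7446528 (.pos 33 .mp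 ⟨⟨248169, 0, 0, 0, 0, 1657188, 0, 0, 0, ⟨0, 0⟩, 0⟩, 0, 0⟩ 0 0) (.pos 33 .mp ⟨⟨275113, 0, 0, 0, 0, 1830699, 0, 0, 0, ⟨0, 0⟩, 0⟩, 0, 0⟩ 0 0)))) (.pos 34 .mp ⟨⟨1569197, 0, 0, 0, 0, 0, 0, 0, 0, ⟨0, 0⟩, 0⟩, 0, 0⟩ 0 0)))) (.pos 32 .mp ⟨⟨2581620, 0, 0, 0, 0, 0, 0, 0, 0, ⟨0, 0⟩, 0⟩, 0, 0⟩ 0 0)) (.void 30 ⟨⟨100000, 0, 0, 0, 0, 0, 0, 0, 0, ⟨0, 0⟩, 0⟩, 0, 0⟩ 0 0)))))) (.void 28 ⟨⟨100000, 0, 0, 0, 0, 0, 0, 0, 0, ⟨0, 0⟩, 0⟩, 0, 0⟩ 0 0))) (.void 26 ⟨⟨100000, 0, 0, 0, 0, 0, 0, 0, 0, ⟨0, 0⟩, 0⟩, 0, 0⟩ 0 0)) (.void 24 ⟨⟨100000, 0, 0, 0, 0, 0, 0, 0, 0, ⟨0, 0⟩, 0⟩, 0, 0⟩ 0 0))) (.cut .v 16777216 (.cut .v 8388608 (.void 2 ⟨⟨0, 0, 0, 0, 100000,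 0, 0, 0, 0, ⟨0, 0⟩, 0⟩, 0, 0⟩ 0 0) (.cut .v 12582912 (.void 8 ⟨⟨0, 0, 0, 0, 0, 0, 0, 0, 100000, ⟨0, 0⟩, 13128881⟩, 0, 0⟩ 0 0) (.cut .d 2101412 (.cut .d 1050706 (.cut .v 14680064 (.cut .s 7176192 (.pos 14 .pm ⟨⟨0, 0, 0, 0, 0, 0, 0, 0, 50538, ⟨0, 0⟩, 15100357⟩, 0, 388983⟩ 0 0) (.pos 14 .pm ⟨⟨0, 0, 0, 0, 0, 0, 0, 0, 145399, ⟨0, 0⟩, 15100357⟩, 0, 290668⟩ 0 0)) (.cut .v 15728640 (.cut .d 525353 (.pos 20 .pm ⟨⟨0, 0, 0, 0, 0, 0, 0, 0, 0, ⟨0, 0⟩, 0⟩, 0, 136660⟩ 0 0) (.pos 20 .pm ⟨⟨0, 0, 0, 0, 0, 0, 0, 0, 0, ⟨0, 0⟩, 0⟩, 0, 459129⟩ 0 0)) (.pos 21 .pm ⟨⟨0, 0, 0, 0, 0, 0, 0, 0, 0, ⟨0, 0⟩, 0⟩, 0, 150473⟩ 0 0))) (.void 9 ⟨⟨0, 0, 0, 0,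 0, 0, 0, 0, 0, ⟨0, 0⟩, 0⟩, 0, 100000⟩ 0 0)) (.void 9 ⟨⟨0, 0, 0, 0, 0, 0, 0, 0, 0, ⟨0, 0⟩, 0⟩, 0, 100000⟩ 0 0)))) (.cut .v 25165824 (.cut .v 20971520 (.cut .d 2101412 (.cut .v 18874368 (.cut .d 1050706 (.pos 27 .pp ⟨⟨375081, 0, 0, 0, 0, 0, 0, 0, 0, ⟨0, 0⟩, 0⟩, 0, 70541⟩ 0 0) (.void 27 ⟨⟨0, 0, 0, 0, 0, 0, 0, 0, 0, ⟨0, 0⟩, 0⟩, 0, 100000⟩ 0 0)) (.void 28 ⟨⟨67689, 0, 0, 0, 0, 0, 0, 0, 0, ⟨0, 0⟩, 0⟩, 0, 32311⟩ 0 0)) (.void 25 ⟨⟨0, 0, 0, 0, 0, 0, 0, 0, 0, ⟨0, 0⟩, 0⟩, 0, 100000⟩ 0 0)) (.void 26 ⟨⟨66424, 0, 0, 0, 0, 0, 0, 0, 0, ⟨0, 0⟩, 0⟩, 0, 33576⟩ 0 0)) (.void 24 ⟨⟨0, 0, 0, 0, 0, 0, 0, 0, 0, ⟨0, 0⟩, 0⟩, 27135, 72865⟩ 0 0)))),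
    by decide +kernel⟩

def covers8 : cell.Covers Vale.Agent.P237.Petty.Cor.Grid.N6.table row8.1 :=
  ⟨(.cut .d 0 (.cut .v 16777216 (.cut .v 8388608 (.void 2 ⟨⟨0, 0, 0, 0, 49950, 50083, 0, 0, 0, ⟨0, 0⟩, 0⟩, 0, 0⟩ 0 0) (.cut .d (-8388608) (.void 3 ⟨⟨0, 0, 0, 0, 0, 100000, 0, 0, 0, ⟨0, 0⟩, 0⟩, 0, 0⟩ 0 0) (.cut .v 12582912 (.pos 8 .mm ⟨⟨0, 0, 0, 0, 0, 5269439, 0, 0, 0, ⟨0, 0⟩, 0⟩, 0, 0⟩ 0 0) (.cut .d (-4194304) (.void 9 ⟨⟨0, 0, 0, 0, 0, 100000, 0, 0, 0, ⟨0, 0⟩, 0⟩, 0, 0⟩ 0 0) (.cut .d (-2097152) (.void 9 ⟨⟨0, 0, 0, 0, 0, 100000, 0, 0, 0, ⟨0, 0⟩, 0⟩, 0, 0⟩ 0 0) (.cut .v 14680064 (.pos 14 .mm ⟨⟨0, 0, 0, 0, 0, 2789613, 0, 0, 0,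 ⟨0, 0⟩, 0⟩, 0, 0⟩ 0 0) (.cut .d (-1048576) (.void 15 ⟨⟨0, 0, 0, 0, 0, 100000, 0, 0, 0, ⟨0, 0⟩, 0⟩, 0, 0⟩ 0 0) (.cut .d (-524288) (.void 15 ⟨⟨0, 0, 0, 0, 0, 100000, 0, 0, 0, ⟨0, 0⟩, 0⟩, 0, 0⟩ 0 0) (.cut .d (-262144) (.pos 15 .mm ⟨⟨0, 0, 0, 0, 0, 4084378, 0, 0, 0, ⟨0, 0⟩, 0⟩, 0, 0⟩ 0 0) (.cut .v 15728640 (.pos 20 .mm ⟨⟨0, 0, 0, 0, 0, 2096168, 0, 0, 0, ⟨0, 0⟩, 0⟩, 0, 0⟩ 0 0) (.cut .s 7798784 (.cut .s 7667712 (.pos 21 .mm ⟨⟨0, 0, 0, 0, 0, 2478029, 0, 0, 0, ⟨0, 0⟩, 0⟩, 0, 0⟩ 0 0) (.pos 21 .mm ⟨⟨0, 0, 0, 0, 0, 2824994, 0, 0, 0, ⟨0, 0⟩, 0⟩, 0, 0⟩ 0 0)) (.cut .s 7929856 (.pos 21 .mm ⟨⟨0, 0, 0, 0, 0, 3209321, 0, 0, 0, ⟨0, 0⟩, 0⟩,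 0, 0⟩ 0 0) (.pos 21 .mm ⟨⟨0, 0, 0, 0, 0, 3623818, 0, 0, 0, ⟨0, 0⟩, 0⟩, 0, 0⟩ 0 0))))))))))))) (.cut .v 25165824 (.cut .v 20971520 (.cut .d (-8388608) (.void 25 ⟨⟨0, 0, 0, 0, 0, 100000, 0, 0, 0, ⟨0, 0⟩, 0⟩, 0, 0⟩ 0 0) (.cut .d (-4194304) (.void 25 ⟨⟨0, 0, 0, 0, 0, 100000, 0, 0, 0, ⟨0, 0⟩, 0⟩, 0, 0⟩ 0 0) (.cut .v 18874368 (.cut .d (-2097152) (.void 27 ⟨⟨0, 0, 0, 0, 0, 100000, 0, 0, 0, ⟨0, 0⟩, 0⟩, 0, 0⟩ 0 0) (.cut .d (-1048576) (.void 27 ⟨⟨0, 0, 0, 0, 0, 100000, 0, 0, 0, ⟨0, 0⟩, 0⟩, 0, 0⟩ 0 0) (.cut .d (-524288) (.void 27 ⟨⟨0, 0, 0, 0, 0, 100000, 0, 0, 0, ⟨0, 0⟩, 0⟩, 0, 0⟩ 0 0) (.cut .v 17825792 (.cut .v 17301504 (.cut .d (-262144)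 (.cut .s 7798784 (.cut .s 7667712 (.pos 31 .mp ⟨⟨472852, 0, 0, 0, 0, 3223384, 0, 0, 0, ⟨0, 0⟩, 0⟩, 0, 0⟩ 0 0) (.void 31 ⟨⟨0, 0, 0, 0, 0, 100000, 0, 0, 0, ⟨0, 0⟩, 0⟩, 0, 0⟩ 0 0)) (.void 31 ⟨⟨0, 0, 0, 0, 0, 100000, 0, 0, 0, ⟨0, 0⟩, 0⟩, 0, 0⟩ 0 0)) (.cut .s 7798784 (.cut .v 17039360 (.cut .d (-131072) (.cut .s 7667712 (.pos 33 .mp ⟨⟨213446, 0, 0, 0, 0, 2510405, 0, 0, 0, ⟨0, 0⟩, 0⟩, 0, 0⟩ 0 0) (.cut .s 7733248 (.pos 33 .mp ⟨⟨232184, 0, 0, 0, 0, 2718923, 0, 0, 0, ⟨0, 0⟩, 0⟩, 0, 0⟩ 0 0) (.pos 33 .mp ⟨⟨234437, 0, 0, 0, 0, 2906743, 0, 0, 0, ⟨0, 0⟩, 0⟩, 0, 0⟩ 0 0))) (.cut .l 307582 (.cut .v 16908288 (.cut .d (-65536) (.pos 35 .mp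 ⟨⟨132977, 0, 0, 0, 0, 2725494, 0, 0, 0, ⟨0, 0⟩, 0⟩, 0, 0⟩ 0 0) (.cut .s 7667712 (.pos 35 .mp ⟨⟨229433, 0, 0, 0, 0, 2132116, 0, 0, 0, ⟨0, 0⟩, 0⟩, 0, 0⟩ 0 0) (.pos 35 .mp ⟨⟨244829, 0, 0, 0, 0, 2437531, 0, 0, 0, ⟨0, 0⟩, 0⟩, 0, 0⟩ 0 0))) (.pos 36 .mp ⟨⟨1434599, 0, 0, 0, 0, 897554, 0, 0, 0, ⟨0, 0⟩, 0⟩, 0, 0⟩ 0 0)) (.pos 33 .mp ⟨⟨323017, 0, 0, 0, 0, 1728126, 0, 0, 0, ⟨0, 0⟩, 0⟩, 0, 0⟩ 0 0))) (.pos 34 .mp ⟨⟨1067232, 0, 0, 0, 0, 1535210, 0, 0, 0, ⟨0, 0⟩, 0⟩, 0, 0⟩ 0 0)) (.cut .d (-131072) (.cut .l 307582 (.void 31 ⟨⟨0, 0, 0, 0, 0, 100000, 0, 0, 0, ⟨0, 0⟩, 0⟩, 0, 0⟩ 0 0) (.cut .v 17039360 (.cut .v 16908288 (.pos 35 .mp ⟨⟨0, 0, 0,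 0, 0, 3626685, 0, 0, 0, ⟨0, 0⟩, 0⟩, 0, 0⟩ 0 0) (.cut .s 7929856 (.cut .s 7864320 (.pos 36 .mp ⟨⟨241241, 0, 0, 0, 0, 3097331, 0, 0, 0, ⟨0, 0⟩, 0⟩, 0, 0⟩ 0 0) (.pos 36 .mp ⟨⟨253178, 0, 0, 0, 0, 3289876, 0, 0, 0, ⟨0, 0⟩, 0⟩, 0, 0⟩ 0 0)) (.cut .s 7995392 (.pos 36 .mp ⟨⟨270858, 0, 0, 0, 0, 3483518, 0, 0, 0, ⟨0, 0⟩, 0⟩, 0, 0⟩ 0 0) (.pos 36 .mp ⟨⟨294884, 0, 0, 0, 0, 3677391, 0, 0, 0, ⟨0, 0⟩, 0⟩, 0, 0⟩ 0 0)))) (.cut .s 7929856 (.pos 34 .mp ⟨⟨691805, 0, 0, 0, 0, 2711007, 0, 0, 0, ⟨0, 0⟩, 0⟩, 0, 0⟩ 0 0) (.pos 34 .mp ⟨⟨785445, 0, 0, 0, 0, 3033149, 0, 0, 0, ⟨0, 0⟩, 0⟩, 0, 0⟩ 0 0)))) (.cut .v 17039360 (.cut .l 307582 (.cut .v 16908288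 (.cut .d (-65536) (.pos 35 .mp ⟨⟨196365, 0, 0, 0, 0, 3436510, 0, 0, 0, ⟨0, 0⟩, 0⟩, 0, 0⟩ 0 0) (.cut .s 7929856 (.pos 35 .mp ⟨⟨279421, 0, 0, 0, 0, 2752471, 0, 0, 0, ⟨0, 0⟩, 0⟩, 0, 0⟩ 0 0) (.pos 35 .mp ⟨⟨331421, 0, 0, 0, 0, 3077552, 0, 0, 0, ⟨0, 0⟩, 0⟩, 0, 0⟩ 0 0))) (.pos 36 .mp ⟨⟨1672480, 0, 0, 0, 0, 1325466, 0, 0, 0, ⟨0, 0⟩, 0⟩, 0, 0⟩ 0 0)) (.pos 33 .mp ⟨⟨445526, 0, 0, 0, 0, 2258248, 0, 0, 0, ⟨0, 0⟩, 0⟩, 0, 0⟩ 0 0)) (.pos 34 .mp ⟨⟨2298694, 0, 0, 0, 0, 0, 0, 0, 0, ⟨0, 0⟩, 0⟩, 0, 0⟩ 0 0))))) (.pos 32 .mp ⟨⟨4396520, 0, 0, 0, 0, 0, 0, 0, 0, ⟨0, 0⟩, 0⟩, 0, 0⟩ 0 0)) (.void 30 ⟨⟨100000, 0, 0, 0, 0, 0, 0, 0, 0, ⟨0, 0⟩, 0⟩, 0, 0⟩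 0 0))))) (.void 28 ⟨⟨100000, 0, 0, 0, 0, 0, 0, 0, 0, ⟨0, 0⟩, 0⟩, 0, 0⟩ 0 0)))) (.void 26 ⟨⟨100000, 0, 0, 0, 0, 0, 0, 0, 0, ⟨0, 0⟩, 0⟩, 0, 0⟩ 0 0)) (.void 24 ⟨⟨100000, 0, 0, 0, 0, 0, 0, 0, 0, ⟨0, 0⟩, 0⟩, 0, 0⟩ 0 0))) (.cut .v 16777216 (.cut .v 8388608 (.void 2 ⟨⟨0, 0, 0, 0, 100000, 0, 0, 0, 0, ⟨0, 0⟩, 0⟩, 0, 0⟩ 0 0) (.cut .v 12582912 (.pos 8 .pm ⟨⟨0, 0, 0, 0, 0, 0, 0, 0, 2604557, ⟨0, 0⟩, 13128881⟩, 0, 0⟩ 0 0) (.cut .d 2398830 (.cut .d 1199415 (.cut .v 14680064 (.cut .d 599707 (.pos 14 .pm ⟨⟨0, 0, 0, 0, 0, 0, 0, 0, 0, ⟨0, 0⟩, 0⟩, 0, 247512⟩ 0 0) (.pos 14 .pm ⟨⟨0, 0, 0, 0, 0, 0, 0, 0, 260672, ⟨0, 0⟩, 15100357⟩, 0, 465924⟩ 0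 0)) (.cut .v 15728640 (.pos 20 .pm ⟨⟨0, 0, 0, 0, 0, 0, 0, 0, 0, ⟨0, 0⟩, 0⟩, 0, 315781⟩ 0 0) (.pos 21 .pm ⟨⟨0, 0, 0, 0, 0, 0, 0, 0, 0, ⟨0, 0⟩, 0⟩, 0, 17496⟩ 0 0))) (.void 9 ⟨⟨0, 0, 0, 0, 0, 0, 0, 0, 0, ⟨0, 0⟩, 0⟩, 0, 100000⟩ 0 0)) (.void 9 ⟨⟨0, 0, 0, 0, 0, 0, 0, 0, 0, ⟨0, 0⟩, 0⟩, 0, 100000⟩ 0 0)))) (.cut .v 25165824 (.cut .v 20971520 (.cut .d 2398830 (.cut .v 18874368 (.cut .d 1199415 (.pos 27 .pp ⟨⟨821976, 0, 0, 0, 0, 0, 0, 0, 0, ⟨0, 0⟩, 0⟩, 0, 52706⟩ 0 0) (.void 27 ⟨⟨0, 0, 0, 0, 0, 0, 0, 0, 0, ⟨0, 0⟩, 0⟩, 0, 100000⟩ 0 0)) (.pos 28 .pp ⟨⟨2338928, 0, 0, 0, 0, 0, 0, 0, 0, ⟨0, 0⟩, 0⟩, 0, 94665⟩ 0 0)) (.void 25 ⟨⟨0, 0, 0, 0,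 0, 0, 0, 0, 0, ⟨0, 0⟩, 0⟩, 0, 100000⟩ 0 0)) (.void 26 ⟨⟨64551, 0, 0, 0, 0, 0, 0, 0, 0, ⟨0, 0⟩, 0⟩, 0, 35449⟩ 0 0)) (.void 24 ⟨⟨0, 0, 0, 0, 0, 0, 0, 0, 0, ⟨0, 0⟩, 0⟩, 26865, 73135⟩ 0 0)))),
    by decide +kernel⟩

def covers9 : cell.Covers Vale.Agent.P237.Petty.Cor.Grid.N6.table row9.1 :=
  ⟨(.cut .d 0 (.cut .v 16777216 (.cut .v 8388608 (.void 2 ⟨⟨0, 0, 0, 0, 50000, 50000, 0, 0, 0, ⟨0, 0⟩, 0⟩, 0, 0⟩ 0 0) (.cut .d (-8388608) (.void 3 ⟨⟨0, 0, 0, 0, 0, 100000, 0, 0, 0, ⟨0, 0⟩, 0⟩, 0, 0⟩ 0 0) (.cut .d (-4194304) (.void 3 ⟨⟨0, 0, 0, 0, 0, 100000, 0, 0, 0, ⟨0, 0⟩, 0⟩, 0, 0⟩ 0 0) (.cut .v 12582912 (.pos 8 .mm ⟨⟨0, 0, 0, 0, 0, 4074727,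 0, 0, 0, ⟨0, 0⟩, 0⟩, 0, 0⟩ 0 0) (.cut .d (-2097152) (.void 9 ⟨⟨0, 0, 0, 0, 0, 100000, 0, 0, 0, ⟨0, 0⟩, 0⟩, 0, 0⟩ 0 0) (.cut .d (-1048576) (.void 9 ⟨⟨0, 0, 0, 0, 0, 100000, 0, 0, 0, ⟨0, 0⟩, 0⟩, 0, 0⟩ 0 0) (.cut .v 14680064 (.pos 14 .mm ⟨⟨0, 0, 0, 0, 0, 3321918, 0, 0, 0, ⟨0, 0⟩, 0⟩, 0, 0⟩ 0 0) (.cut .d (-524288) (.void 15 ⟨⟨0, 0, 0, 0, 0, 100000, 0, 0, 0, ⟨0, 0⟩, 0⟩, 0, 0⟩ 0 0) (.cut .d (-262144) (.void 15 ⟨⟨0, 0, 0, 0, 0, 100000, 0, 0, 0, ⟨0, 0⟩, 0⟩, 0, 0⟩ 0 0) (.cut .v 15728640 (.pos 20 .mm ⟨⟨0, 0, 0, 0, 0, 3531914, 0, 0, 0, ⟨0, 0⟩, 0⟩, 0, 0⟩ 0 0) (.cut .s 8323072 (.cut .s 8192000 (.pos 21 .mm ⟨⟨0, 0, 0, 0, 0, 4069573, 0,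 0, 0, ⟨0, 0⟩, 0⟩, 0, 0⟩ 0 0) (.pos 21 .mm ⟨⟨0, 0, 0, 0, 0, 4536884, 0, 0, 0, ⟨0, 0⟩, 0⟩, 0, 0⟩ 0 0)) (.cut .s 8454144 (.pos 21 .mm ⟨⟨0, 0, 0, 0, 0, 5049079, 0, 0, 0, ⟨0, 0⟩, 0⟩, 0, 0⟩ 0 0) (.pos 21 .mm ⟨⟨0, 0, 0, 0, 0, 5606071, 0, 0, 0, ⟨0, 0⟩, 0⟩, 0, 0⟩ 0 0))))))))))))) (.cut .v 25165824 (.cut .v 20971520 (.cut .d (-8388608) (.void 25 ⟨⟨0, 0, 0, 0, 0, 100000, 0, 0, 0, ⟨0, 0⟩, 0⟩, 0, 0⟩ 0 0) (.cut .d (-4194304) (.void 25 ⟨⟨0, 0, 0, 0, 0, 100000, 0, 0, 0, ⟨0, 0⟩, 0⟩, 0, 0⟩ 0 0) (.cut .v 18874368 (.cut .d (-2097152) (.void 27 ⟨⟨0, 0, 0, 0, 0, 100000, 0, 0, 0, ⟨0, 0⟩, 0⟩, 0, 0⟩ 0 0) (.cut .d (-1048576) (.void 27 ⟨⟨0, 0, 0,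 0, 0, 100000, 0, 0, 0, ⟨0, 0⟩, 0⟩, 0, 0⟩ 0 0) (.cut .d (-524288) (.void 27 ⟨⟨0, 0, 0, 0, 0, 100000, 0, 0, 0, ⟨0, 0⟩, 0⟩, 0, 0⟩ 0 0) (.cut .d (-262144) (.void 27 ⟨⟨0, 0, 0, 0, 0, 100000, 0, 0, 0, ⟨0, 0⟩, 0⟩, 0, 0⟩ 0 0) (.cut .v 17825792 (.cut .v 17301504 (.cut .s 8323072 (.cut .d (-131072) (.cut .l 307582 (.void 31 ⟨⟨0, 0, 0, 0, 0, 100000, 0, 0, 0, ⟨0, 0⟩, 0⟩, 0, 0⟩ 0 0) (.cut .v 17039360 (.cut .v 16908288 (.pos 35 .mp ⟨⟨0, 0, 0, 0, 0, 4612627, 0, 0, 0, ⟨0, 0⟩, 0⟩, 0, 0⟩ 0 0) (.cut .s 8192000 (.cut .s 8126464 (.pos 36 .mp ⟨⟨237796, 0, 0, 0, 0, 3996521, 0, 0, 0, ⟨0, 0⟩, 0⟩, 0, 0⟩ 0 0) (.pos 36 .mp ⟨⟨240919, 0, 0, 0, 0, 4228277,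 0, 0, 0, ⟨0, 0⟩, 0⟩, 0, 0⟩ 0 0)) (.cut .d (-196608) (.pos 36 .mp ⟨⟨155597, 0, 0, 0, 0, 4889768, 0, 0, 0, ⟨0, 0⟩, 0⟩, 0, 0⟩ 0 0) (.pos 36 .mp ⟨⟨798768, 0, 0, 0, 0, 3588019, 0, 0, 0, ⟨0, 0⟩, 0⟩, 0, 0⟩ 0 0)))) (.cut .d (-196608) (.cut .s 8192000 (.pos 34 .mp ⟨⟨890233, 0, 0, 0, 0, 3657891, 0, 0, 0, ⟨0, 0⟩, 0⟩, 0, 0⟩ 0 0) (.pos 34 .mp ⟨⟨1006570, 0, 0, 0, 0, 4044423, 0, 0, 0, ⟨0, 0⟩, 0⟩, 0, 0⟩ 0 0)) (.pos 34 .mp ⟨⟨3006132, 0, 0, 0, 0, 0, 0, 0, 0, ⟨0, 0⟩, 0⟩, 0, 0⟩ 0 0)))) (.cut .v 17039360 (.cut .l 307582 (.cut .v 16908288 (.cut .d (-65536) (.pos 35 .mp ⟨⟨284188, 0, 0, 0, 0, 4275103, 0, 0, 0, ⟨0, 0⟩, 0⟩, 0, 0⟩ 0 0) (.cut .s 8192000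 (.pos 35 .mp ⟨⟨391135, 0, 0, 0, 0, 3428979, 0, 0, 0, ⟨0, 0⟩, 0⟩, 0, 0⟩ 0 0) (.cut .s 8257536 (.pos 35 .mp ⟨⟨512168, 0, 0, 0, 0, 3628624, 0, 0, 0, ⟨0, 0⟩, 0⟩, 0, 0⟩ 0 0) (.pos 35 .mp ⟨⟨539357, 0, 0, 0, 0, 3826580, 0, 0, 0, ⟨0, 0⟩, 0⟩, 0, 0⟩ 0 0)))) (.pos 36 .mp ⟨⟨3898335, 0, 0, 0, 0, 0, 0, 0, 0, ⟨0, 0⟩, 0⟩, 0, 0⟩ 0 0)) (.pos 33 .mp ⟨⟨599025, 0, 0, 0, 0, 2948143, 0, 0, 0, ⟨0, 0⟩, 0⟩, 0, 0⟩ 0 0)) (.pos 34 .mp ⟨⟨2856246, 0, 0, 0, 0, 0, 0, 0, 0, ⟨0, 0⟩, 0⟩, 0, 0⟩ 0 0))) (.cut .d (-131072) (.cut .l 307582 (.void 31 ⟨⟨0, 0, 0, 0, 0, 100000, 0, 0, 0, ⟨0, 0⟩, 0⟩, 0, 0⟩ 0 0) (.cut .v 17039360 (.cut .v 16908288 (.pos 35 .mp ⟨⟨0, 0,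 0, 0, 0, 5694695, 0, 0, 0, ⟨0, 0⟩, 0⟩, 0, 0⟩ 0 0) (.cut .l 461373 (.pos 36 .mp ⟨⟨588445, 0, 0, 0, 0, 5408911, 0, 0, 0, ⟨0, 0⟩, 0⟩, 0, 0⟩ 0 0) (.cut .d (-196608) (.cut .s 8454144 (.pos 36 .mp ⟨⟨193549, 0, 0, 0, 0, 5399462, 0, 0, 0, ⟨0, 0⟩, 0⟩, 0, 0⟩ 0 0) (.pos 36 .mp ⟨⟨839906, 0, 0, 0, 0, 5316953, 0, 0, 0, ⟨0, 0⟩, 0⟩, 0, 0⟩ 0 0)) (.cut .s 8454144 (.pos 36 .mp ⟨⟨839761, 0, 0, 0, 0, 3993420, 0, 0, 0, ⟨0, 0⟩, 0⟩, 0, 0⟩ 0 0) (.pos 36 .mp ⟨⟨645733, 0, 0, 0, 0, 4991173, 0, 0, 0, ⟨0, 0⟩, 0⟩, 0, 0⟩ 0 0))))) (.cut .s 8454144 (.cut .d (-196608) (.pos 34 .mp ⟨⟨1134965, 0, 0, 0, 0, 4449244, 0, 0, 0, ⟨0, 0⟩, 0⟩, 0, 0⟩ 0 0) (.pos 34 .mp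 ⟨⟨3325422, 0, 0, 0, 0, 0, 0, 0, 0, ⟨0, 0⟩, 0⟩, 0, 0⟩ 0 0)) (.pos 34 .mp ⟨⟨5823798, 0, 0, 0, 0, 0, 0, 0, 0, ⟨0, 0⟩, 0⟩, 0, 0⟩ 0 0)))) (.cut .v 17039360 (.cut .l 307582 (.cut .v 16908288 (.cut .d (-65536) (.cut .s 8454144 (.pos 35 .mp ⟨⟨401836, 0, 0, 0, 0, 4771492, 0, 0, 0, ⟨0, 0⟩, 0⟩, 0, 0⟩ 0 0) (.pos 35 .mp ⟨⟨473359, 0, 0, 0, 0, 5252977, 0, 0, 0, ⟨0, 0⟩, 0⟩, 0, 0⟩ 0 0)) (.cut .l 153791 (.cut .d (-32768) (.pos 35 .mp ⟨⟨408494, 0, 0, 0, 0, 5133407, 0, 0, 0, ⟨0, 0⟩, 0⟩, 0, 0⟩ 0 0) (.cut .s 8454144 (.pos 35 .mp ⟨⟨443413, 0, 0, 0, 0, 4285582, 0, 0, 0, ⟨0, 0⟩, 0⟩, 0, 0⟩ 0 0) (.pos 35 .mp ⟨⟨522812, 0, 0, 0, 0, 4715318, 0, 0, 0,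 ⟨0, 0⟩, 0⟩, 0, 0⟩ 0 0))) (.pos 35 .mp ⟨⟨588944, 0, 0, 0, 0, 3754528, 0, 0, 0, ⟨0, 0⟩, 0⟩, 0, 0⟩ 0 0))) (.pos 36 .mp ⟨⟨4723758, 0, 0, 0, 0, 0, 0, 0, 0, ⟨0, 0⟩, 0⟩, 0, 0⟩ 0 0)) (.pos 33 .mp ⟨⟨788108, 0, 0, 0, 0, 3653264, 0, 0, 0, ⟨0, 0⟩, 0⟩, 0, 0⟩ 0 0)) (.pos 34 .mp ⟨⟨3471863, 0, 0, 0, 0, 0, 0, 0, 0, ⟨0, 0⟩, 0⟩, 0, 0⟩ 0 0)))) (.pos 32 .mp ⟨⟨5242248, 0, 0, 0, 0, 0, 0, 0, 0, ⟨0, 0⟩, 0⟩, 0, 0⟩ 0 0)) (.void 30 ⟨⟨100000, 0, 0, 0, 0, 0, 0, 0, 0, ⟨0, 0⟩, 0⟩, 0, 0⟩ 0 0)))))) (.void 28 ⟨⟨100000, 0, 0, 0, 0, 0, 0, 0, 0, ⟨0, 0⟩, 0⟩, 0, 0⟩ 0 0)))) (.void 26 ⟨⟨100000, 0, 0, 0, 0, 0, 0, 0, 0, ⟨0, 0⟩, 0⟩, 0, 0⟩ 0 0)) (.void 24 ⟨⟨100000,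 0, 0, 0, 0, 0, 0, 0, 0, ⟨0, 0⟩, 0⟩, 0, 0⟩ 0 0))) (.cut .v 16777216 (.cut .v 8388608 (.void 2 ⟨⟨0, 0, 0, 0, 100000, 0, 0, 0, 0, ⟨0, 0⟩, 0⟩, 0, 0⟩ 0 0) (.cut .d 2723850 (.cut .d 1361925 (.cut .v 12582912 (.pos 8 .pm ⟨⟨0, 0, 0, 0, 0, 0, 0, 0, 401662, ⟨0, 0⟩, 13128881⟩, 0, 402700⟩ 0 0) (.cut .v 14680064 (.cut .d 680962 (.pos 14 .pm ⟨⟨0, 0, 0, 0, 0, 0, 0, 0, 0, ⟨0, 0⟩, 0⟩, 0, 262155⟩ 0 0) (.pos 14 .pm ⟨⟨0, 0, 0, 0, 0, 0, 0, 0, 221747, ⟨0, 0⟩, 15100357⟩, 0, 783870⟩ 0 0)) (.pos 15 .pm ⟨⟨0, 0, 0, 0, 0, 0, 0, 0, 0, ⟨0, 0⟩, 0⟩, 0, 178915⟩ 0 0))) (.void 3 ⟨⟨0, 0, 0, 0, 0, 0, 0, 0, 0, ⟨0, 0⟩, 0⟩, 0, 100000⟩ 0 0)) (.void 3 ⟨⟨0, 0, 0,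 0, 0, 0, 0, 0, 0, ⟨0, 0⟩, 0⟩, 0, 100000⟩ 0 0))) (.cut .v 25165824 (.cut .v 20971520 (.cut .d 2723850 (.cut .v 18874368 (.cut .d 1361925 (.pos 27 .pp ⟨⟨1400256, 0, 0, 0, 0, 0, 0, 0, 0, ⟨0, 0⟩, 0⟩, 0, 28910⟩ 0 0) (.void 27 ⟨⟨0, 0, 0, 0, 0, 0, 0, 0, 0, ⟨0, 0⟩, 0⟩, 0, 100000⟩ 0 0)) (.pos 28 .pp ⟨⟨2987827, 0, 0, 0, 0, 0, 0, 0, 0, ⟨0, 0⟩, 0⟩, 0, 184208⟩ 0 0)) (.void 25 ⟨⟨0, 0, 0, 0, 0, 0, 0, 0, 0, ⟨0, 0⟩, 0⟩, 0, 100000⟩ 0 0)) (.void 26 ⟨⟨62704, 0, 0, 0, 0, 0, 0, 0, 0, ⟨0, 0⟩, 0⟩, 0, 37296⟩ 0 0)) (.void 24 ⟨⟨0, 0, 0, 0, 0, 0, 0, 0, 0, ⟨0, 0⟩, 0⟩, 26538, 73462⟩ 0 0)))),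
    by decide +kernel⟩

def covers10 : cell.Covers Vale.Agent.P237.Petty.Cor.Grid.N6.table row10.1 :=
  ⟨(.cut .d 0 (.cut .v 16777216 (.cut .v 8388608 (.void 2 ⟨⟨0, 0, 50000, 0, 50000, 0, 0, 0, 0, ⟨0, 0⟩, 0⟩, 0, 0⟩ 0 0) (.cut .d (-8388608) (.void 3 ⟨⟨0, 0, 0, 0, 0, 100000, 0, 0, 0, ⟨0, 0⟩, 0⟩, 0, 0⟩ 0 0) (.cut .d (-4194304) (.void 3 ⟨⟨0, 0, 0, 0, 0, 100000, 0, 0, 0, ⟨0, 0⟩, 0⟩, 0, 0⟩ 0 0) (.cut .v 12582912 (.pos 8 .mm ⟨⟨0, 0, 0, 0, 0, 5916587, 0, 0, 0, ⟨0, 0⟩, 0⟩, 0, 0⟩ 0 0) (.cut .d (-2097152) (.void 9 ⟨⟨0, 0, 0, 0, 0, 100000, 0, 0, 0, ⟨0, 0⟩, 0⟩, 0, 0⟩ 0 0) (.cut .v 14680064 (.pos 14 .mm ⟨⟨0, 0, 0, 0, 0, 6587141, 0, 0,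 0, ⟨0, 0⟩, 0⟩, 0, 0⟩ 0 0) (.cut .d (-1048576) (.void 15 ⟨⟨0, 0, 0, 0, 0, 100000, 0, 0, 0, ⟨0, 0⟩, 0⟩, 0, 0⟩ 0 0) (.cut .d (-524288) (.void 15 ⟨⟨0, 0, 0, 0, 0, 100000, 0, 0, 0, ⟨0, 0⟩, 0⟩, 0, 0⟩ 0 0) (.cut .d (-262144) (.void 15 ⟨⟨0, 0, 0, 0, 0, 100000, 0, 0, 0, ⟨0, 0⟩, 0⟩, 0, 0⟩ 0 0) (.cut .d (-131072) (.pos 15 .mm ⟨⟨0, 0, 0, 0, 0, 7862444, 0, 0, 0, ⟨0, 0⟩, 0⟩, 0, 0⟩ 0 0) (.cut .l 307582 (.cut .d (-65536) (.pos 15 .mm ⟨⟨0, 0, 0, 0, 0, 7707121, 0, 0, 0, ⟨0, 0⟩, 0⟩, 0, 0⟩ 0 0) (.cut .v 15728640 (.pos 20 .mm ⟨⟨0, 0, 0, 0, 0, 3618124, 0, 0, 0, ⟨0, 0⟩, 0⟩, 0, 0⟩ 0 0) (.cut .v 16252928 (.pos 65 .mm ⟨⟨0, 0, 0, 0, 0, 5324055, 0,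 0, 0, ⟨0, 0⟩, 0⟩, 0, 0⟩ 0 0) (.cut .v 16515072 (.pos 67 .mm ⟨⟨0, 0, 0, 0, 0, 6245707, 0, 0, 0, ⟨0, 0⟩, 0⟩, 0, 0⟩ 0 0) (.cut .v 16646144 (.pos 71 .mm ⟨⟨0, 0, 0, 0, 0, 6498520, 0, 0, 0, ⟨0, 0⟩, 0⟩, 0, 0⟩ 0 0) (.cut .l 153791 (.cut .d (-32768) (.pos 72 .mm ⟨⟨0, 0, 0, 0, 0, 7683527, 0, 0, 0, ⟨0, 0⟩, 0⟩, 0, 0⟩ 0 0) (.cut .s 8814592 (.pos 72 .mm ⟨⟨0, 0, 0, 0, 0, 6262825, 0, 0, 0, ⟨0, 0⟩, 0⟩, 0, 0⟩ 0 0) (.cut .s 8929280 (.pos 72 .mm ⟨⟨0, 0, 0, 0, 0, 7240205, 0, 0, 0, ⟨0, 0⟩, 0⟩, 0, 0⟩ 0 0) (.pos 72 .mm ⟨⟨0, 0, 0, 0, 0, 7877727, 0, 0, 0, ⟨0, 0⟩, 0⟩, 0, 0⟩ 0 0)))) (.pos 72 .mm ⟨⟨0, 0, 0, 0, 0, 5783755, 0, 0, 0, ⟨0, 0⟩, 0⟩, 0, 0⟩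 0 0))))))) (.pos 15 .mm ⟨⟨0, 0, 0, 0, 0, 5900618, 0, 0, 0, ⟨0, 0⟩, 0⟩, 0, 0⟩ 0 0)))))))))))) (.cut .v 25165824 (.cut .v 20971520 (.cut .d (-8388608) (.void 25 ⟨⟨0, 0, 0, 0, 0, 100000, 0, 0, 0, ⟨0, 0⟩, 0⟩, 0, 0⟩ 0 0) (.cut .d (-4194304) (.void 25 ⟨⟨0, 0, 0, 0, 0, 100000, 0, 0, 0, ⟨0, 0⟩, 0⟩, 0, 0⟩ 0 0) (.cut .v 18874368 (.cut .d (-2097152) (.void 27 ⟨⟨0, 0, 0, 0, 0, 100000, 0, 0, 0, ⟨0, 0⟩, 0⟩, 0, 0⟩ 0 0) (.cut .d (-1048576) (.void 27 ⟨⟨0, 0, 0, 0, 0, 100000, 0, 0, 0, ⟨0, 0⟩, 0⟩, 0, 0⟩ 0 0) (.cut .d (-524288) (.void 27 ⟨⟨0, 0, 0, 0, 0, 100000, 0, 0, 0, ⟨0, 0⟩, 0⟩, 0, 0⟩ 0 0) (.cut .d (-262144) (.void 27 ⟨⟨0, 0, 0, 0, 0, 100000,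 0, 0, 0, ⟨0, 0⟩, 0⟩, 0, 0⟩ 0 0) (.cut .v 17825792 (.cut .v 17301504 (.cut .d (-131072) (.cut .l 307582 (.void 31 ⟨⟨0, 0, 0, 0, 0, 100000, 0, 0, 0, ⟨0, 0⟩, 0⟩, 0, 0⟩ 0 0) (.cut .v 17039360 (.cut .d (-196608) (.pos 33 .mp ⟨⟨923381, 0, 0, 0, 0, 7640830, 0, 0, 0, ⟨0, 0⟩, 0⟩, 0, 0⟩ 0 0) (.cut .s 8814592 (.cut .s 8699904 (.pos 33 .mp ⟨⟨716379, 0, 0, 0, 0, 5600908, 0, 0, 0, ⟨0, 0⟩, 0⟩, 0, 0⟩ 0 0) (.pos 33 .mp ⟨⟨807892, 0, 0, 0, 0, 6038007, 0, 0, 0, ⟨0, 0⟩, 0⟩, 0, 0⟩ 0 0)) (.cut .v 16908288 (.pos 35 .mp ⟨⟨0, 0, 0, 0, 0, 8044002, 0, 0, 0, ⟨0, 0⟩, 0⟩, 0, 0⟩ 0 0) (.cut .s 8929280 (.pos 36 .mp ⟨⟨941632, 0, 0, 0, 0, 6460688, 0, 0, 0,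 ⟨0, 0⟩, 0⟩, 0, 0⟩ 0 0) (.pos 36 .mp ⟨⟨1056153, 0, 0, 0, 0, 6959283, 0, 0, 0, ⟨0, 0⟩, 0⟩, 0, 0⟩ 0 0))))) (.cut .d (-196608) (.pos 34 .mp ⟨⟨7831395, 0, 0, 0, 0, 0, 0, 0, 0, ⟨0, 0⟩, 0⟩, 0, 0⟩ 0 0) (.pos 34 .mp ⟨⟨6281648, 0, 0, 0, 0, 0, 0, 0, 0, ⟨0, 0⟩, 0⟩, 0, 0⟩ 0 0)))) (.cut .v 17039360 (.cut .s 8814592 (.cut .s 8699904 (.cut .v 16908288 (.cut .s 8642560 (.pos 35 .mp ⟨⟨630886, 0, 0, 0, 0, 5145773, 0, 0, 0, ⟨0, 0⟩, 0⟩, 0, 0⟩ 0 0) (.pos 35 .mp ⟨⟨607644, 0, 0, 0, 0, 5451322, 0, 0, 0, ⟨0, 0⟩, 0⟩, 0, 0⟩ 0 0)) (.pos 36 .mp ⟨⟨1478172, 0, 0, 0, 0, 4095381, 0, 0, 0, ⟨0, 0⟩, 0⟩, 0, 0⟩ 0 0)) (.cut .v 16908288 (.cut .s 8757248 (.pos 35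 .mp ⟨⟨593429, 0, 0, 0, 0, 5754338, 0, 0, 0, ⟨0, 0⟩, 0⟩, 0, 0⟩ 0 0) (.pos 35 .mp ⟨⟨589099, 0, 0, 0, 0, 6053345, 0, 0, 0, ⟨0, 0⟩, 0⟩, 0, 0⟩ 0 0)) (.pos 36 .mp ⟨⟨1567791, 0, 0, 0, 0, 4498033, 0, 0, 0, ⟨0, 0⟩, 0⟩, 0, 0⟩ 0 0))) (.cut .s 8929280 (.cut .l 307582 (.cut .d (-65536) (.pos 33 .mp ⟨⟨756085, 0, 0, 0, 0, 6777125, 0, 0, 0, ⟨0, 0⟩, 0⟩, 0, 0⟩ 0 0) (.cut .s 8871936 (.pos 33 .mp ⟨⟨892146, 0, 0, 0, 0, 5748368, 0, 0, 0, ⟨0, 0⟩, 0⟩, 0, 0⟩ 0 0) (.pos 33 .mp ⟨⟨947345, 0, 0, 0, 0, 5967523, 0, 0, 0, ⟨0, 0⟩, 0⟩, 0, 0⟩ 0 0))) (.pos 33 .mp ⟨⟨1110373, 0, 0, 0, 0, 5363275, 0, 0, 0, ⟨0, 0⟩, 0⟩, 0, 0⟩ 0 0)) (.cut .l 307582 (.cut .d (-65536)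 (.pos 33 .mp ⟨⟨857002, 0, 0, 0, 0, 7304020, 0, 0, 0, ⟨0, 0⟩, 0⟩, 0, 0⟩ 0 0) (.cut .s 8986624 (.pos 33 .mp ⟨⟨1005097, 0, 0, 0, 0, 6194800, 0, 0, 0, ⟨0, 0⟩, 0⟩, 0, 0⟩ 0 0) (.pos 33 .mp ⟨⟨1065447, 0, 0, 0, 0, 6430177, 0, 0, 0, ⟨0, 0⟩, 0⟩, 0, 0⟩ 0 0))) (.pos 33 .mp ⟨⟨1238745, 0, 0, 0, 0, 5795688, 0, 0, 0, ⟨0, 0⟩, 0⟩, 0, 0⟩ 0 0)))) (.pos 34 .mp ⟨⟨4701516, 0, 0, 0, 0, 0, 0, 0, 0, ⟨0, 0⟩, 0⟩, 0, 0⟩ 0 0))) (.pos 32 .mp ⟨⟨7357358, 0, 0, 0, 0, 0, 0, 0, 0, ⟨0, 0⟩, 0⟩, 0, 0⟩ 0 0)) (.void 30 ⟨⟨100000, 0, 0, 0, 0, 0, 0, 0, 0, ⟨0, 0⟩, 0⟩, 0, 0⟩ 0 0)))))) (.void 28 ⟨⟨100000, 0, 0, 0, 0, 0, 0, 0, 0, ⟨0, 0⟩, 0⟩, 0, 0⟩ 0 0)))) (.void 26 ⟨⟨100000,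 0, 0, 0, 0, 0, 0, 0, 0, ⟨0, 0⟩, 0⟩, 0, 0⟩ 0 0)) (.void 24 ⟨⟨100000, 0, 0, 0, 0, 0, 0, 0, 0, ⟨0, 0⟩, 0⟩, 0, 0⟩ 0 0))) (.cut .v 16777216 (.cut .v 8388608 (.void 2 ⟨⟨0, 0, 0, 0, 100000, 0, 0, 0, 0, ⟨0, 0⟩, 0⟩, 0, 0⟩ 0 0) (.cut .d 3077416 (.cut .d 1538708 (.cut .v 12582912 (.pos 8 .pm ⟨⟨0, 0, 0, 0, 0, 0, 0, 0, 209819, ⟨0, 0⟩, 13128881⟩, 0, 530689⟩ 0 0) (.cut .v 14680064 (.pos 14 .pm ⟨⟨0, 0, 0, 0, 0, 0, 0, 0, 0, ⟨0, 0⟩, 0⟩, 0, 564753⟩ 0 0) (.pos 15 .pm ⟨⟨0, 0, 0, 0, 0, 0, 0, 0, 0, ⟨0, 0⟩, 0⟩, 0, 0⟩ 0 0))) (.void 3 ⟨⟨0, 0, 0, 0, 0, 0, 0, 0, 0, ⟨0, 0⟩, 0⟩, 0, 100000⟩ 0 0)) (.void 3 ⟨⟨0, 0, 0, 0, 0, 0, 0, 0, 0, ⟨0, 0⟩, 0⟩, 0, 100000⟩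 0 0))) (.cut .v 25165824 (.cut .d 3077416 (.cut .v 20971520 (.cut .v 18874368 (.cut .d 1538708 (.pos 27 .pp ⟨⟨2097619, 0, 0, 0, 0, 0, 0, 0, 0, ⟨0, 0⟩, 0⟩, 28547, 0⟩ 0 0) (.void 27 ⟨⟨0, 0, 0, 0, 0, 0, 0, 0, 0, ⟨0, 0⟩, 0⟩, 0, 100000⟩ 0 0)) (.pos 28 .pp ⟨⟨3781206, 0, 0, 0, 0, 0, 0, 0, 0, ⟨0, 0⟩, 0⟩, 0, 270646⟩ 0 0)) (.void 26 ⟨⟨62952, 0, 0, 0, 0, 0, 0, 0, 0, ⟨0, 0⟩, 0⟩, 0, 37048⟩ 0 0)) (.void 23 ⟨⟨0, 0, 0, 0, 0, 0, 0, 0, 0, ⟨0, 0⟩, 0⟩, 0, 100000⟩ 0 0)) (.void 24 ⟨⟨0, 0, 0, 0, 0, 0, 100000, 0, 0, ⟨0, 0⟩, 0⟩, 0, 0⟩ 0 0)))),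
    by decide +kernel⟩

def covers11 : cell.Covers Vale.Agent.P237.Petty.Cor.Grid.N6.table row11.1 :=
  ⟨(.cut .d 0 (.cut .v 16777216 (.cut .v 8388608 (.pos 2 .mm ⟨⟨0, 0, 52153313, 0, 5490222, 0, 0, 0, 0, ⟨0, 0⟩, 0⟩, 0, 387589⟩ 0 0) (.cut .d (-8388608) (.void 3 ⟨⟨0, 0, 0, 0, 0, 100000, 0, 0, 0, ⟨0, 0⟩, 0⟩, 0, 0⟩ 0 0) (.cut .d (-4194304) (.void 3 ⟨⟨0, 0, 0, 0, 0, 100000, 0, 0, 0, ⟨0, 0⟩, 0⟩, 0, 0⟩ 0 0) (.cut .v 12582912 (.pos 8 .mm ⟨⟨0, 0, 0, 0, 0, 8680770, 0, 0, 139872, ⟨0, 0⟩, 13128881⟩, 0, 0⟩ 0 0) (.cut .d (-2097152) (.void 9 ⟨⟨0, 0, 0, 0, 0, 100000, 0, 0, 0, ⟨0, 0⟩, 0⟩, 0, 0⟩ 0 0) (.cut .d (-1048576) (.void 9 ⟨⟨0, 0,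 0, 0, 0, 100000, 0, 0, 0, ⟨0, 0⟩, 0⟩, 0, 0⟩ 0 0) (.cut .v 14680064 (.pos 14 .mm ⟨⟨0, 0, 0, 0, 0, 7493635, 0, 0, 0, ⟨0, 0⟩, 0⟩, 0, 0⟩ 0 0) (.cut .d (-524288) (.void 15 ⟨⟨0, 0, 0, 0, 0, 100000, 0, 0, 0, ⟨0, 0⟩, 0⟩, 0, 0⟩ 0 0) (.cut .d (-262144) (.void 15 ⟨⟨0, 0, 0, 0, 0, 100000, 0, 0, 0, ⟨0, 0⟩, 0⟩, 0, 0⟩ 0 0) (.cut .d (-131072) (.pos 15 .mm ⟨⟨0, 0, 0, 0, 0, 11373125, 0, 0, 0, ⟨0, 0⟩, 0⟩, 0, 0⟩ 0 0) (.cut .l 307582 (.cut .d (-65536) (.pos 15 .mm ⟨⟨0, 0, 0, 0, 0, 11204479, 0, 0, 0, ⟨0, 0⟩, 0⟩, 0, 0⟩ 0 0) (.cut .v 15728640 (.pos 20 .mm ⟨⟨0, 0, 0, 0, 0, 5429586, 0, 0, 0, ⟨0, 0⟩, 0⟩, 0, 0⟩ 0 0) (.cut .v 16252928 (.pos 65 .mm ⟨⟨0,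 0, 0, 0, 0, 7782547, 0, 0, 0, ⟨0, 0⟩, 0⟩, 0, 0⟩ 0 0) (.cut .v 16515072 (.pos 67 .mm ⟨⟨0, 0, 0, 0, 0, 8904638, 0, 0, 0, ⟨0, 0⟩, 0⟩, 0, 0⟩ 0 0) (.cut .l 153791 (.cut .d (-32768) (.pos 68 .mm ⟨⟨0, 0, 0, 0, 0, 11194171, 0, 0, 0, ⟨0, 0⟩, 0⟩, 0, 0⟩ 0 0) (.cut .l 76895 (.cut .d (-16384) (.pos 68 .mm ⟨⟨0, 0, 0, 0, 0, 11189031, 0, 0, 0, ⟨0, 0⟩, 0⟩, 0, 0⟩ 0 0) (.cut .v 16646144 (.pos 71 .mm ⟨⟨0, 0, 0, 0, 0, 8484378, 0, 0, 0, ⟨0, 0⟩, 0⟩, 0, 0⟩ 0 0) (.cut .v 16711680 (.pos 73 .mm ⟨⟨0, 0, 0, 0, 0, 9115180, 0, 0, 0, ⟨0, 0⟩, 0⟩, 0, 0⟩ 0 0) (.cut .l 38447 (.cut .d (-8192) (.pos 74 .mm ⟨⟨0, 0, 0, 0, 0, 11186484, 0, 0, 0, ⟨0, 0⟩, 0⟩, 0, 0⟩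 0 0) (.cut .v 16744448 (.pos 75 .mm ⟨⟨0, 0, 0, 0, 0, 9150739, 0, 0, 0, ⟨0, 0⟩, 0⟩, 0, 0⟩ 0 0) (.cut .l 19223 (.cut .d (-4096) (.pos 76 .mm ⟨⟨0, 0, 0, 0, 0, 11185256, 0, 0, 0, ⟨0, 0⟩, 0⟩, 0, 0⟩ 0 0) (.cut .v 16760832 (.pos 77 .mm ⟨⟨0, 0, 0, 0, 0, 9168717, 0, 0, 0, ⟨0, 0⟩, 0⟩, 0, 0⟩ 0 0) (.cut .l 9611 (.cut .d (-2048) (.pos 78 .mm ⟨⟨0, 0, 0, 0, 0, 11184731, 0, 0, 0, ⟨0, 0⟩, 0⟩, 0, 0⟩ 0 0) (.cut .v 16769024 (.pos 79 .mm ⟨⟨0, 0, 0, 0, 0, 9178037, 0, 0, 0, ⟨0, 0⟩, 0⟩, 0, 0⟩ 0 0) (.cut .l 4805 (.cut .d (-1024) (.pos 80 .mm ⟨⟨0, 0, 0, 0, 0, 11184650, 0, 0, 0, ⟨0, 0⟩, 0⟩, 0, 0⟩ 0 0) (.cut .v 16773120 (.pos 81 .mm ⟨⟨0, 0, 0, 0, 0,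 9183340, 0, 0, 0, ⟨0, 0⟩, 0⟩, 0, 0⟩ 0 0) (.cut .l 2402 (.cut .d (-512) (.pos 82 .mm ⟨⟨0, 0, 0, 0, 0, 11184969, 0, 0, 0, ⟨0, 0⟩, 0⟩, 0, 0⟩ 0 0) (.cut .v 16775168 (.pos 83 .mm ⟨⟨0, 0, 0, 0, 0, 9187277, 0, 0, 0, ⟨0, 0⟩, 0⟩, 0, 0⟩ 0 0) (.cut .l 1201 (.cut .s 9306112 (.cut .s 9175040 (.pos 84 .mm ⟨⟨0, 0, 0, 0, 0, 8492269, 0, 0, 0, ⟨0, 0⟩, 0⟩, 0, 0⟩ 0 0) (.pos 84 .mm ⟨⟨0, 0, 0, 0, 0, 9300293, 0, 0, 0, ⟨0, 0⟩, 0⟩, 0, 0⟩ 0 0)) (.cut .s 9437184 (.pos 84 .mm ⟨⟨0, 0, 0, 0, 0, 10192902, 0, 0, 0, ⟨0, 0⟩, 0⟩, 0, 0⟩ 0 0) (.pos 84 .mm ⟨⟨0, 0, 0, 0, 0, 11171295, 0, 0, 0, ⟨0, 0⟩, 0⟩, 0, 0⟩ 0 0))) (.pos 84 .mm ⟨⟨0, 0, 0, 0, 0, 8387978, 0,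 0, 0, ⟨0, 0⟩, 0⟩, 0, 0⟩ 0 0)))) (.pos 82 .mm ⟨⟨0, 0, 0, 0, 0, 8389047, 0, 0, 0, ⟨0, 0⟩, 0⟩, 0, 0⟩ 0 0)))) (.pos 80 .mm ⟨⟨0, 0, 0, 0, 0, 8390725, 0, 0, 0, ⟨0, 0⟩, 0⟩, 0, 0⟩ 0 0)))) (.pos 78 .mm ⟨⟨0, 0, 0, 0, 0, 8394771, 0, 0, 0, ⟨0, 0⟩, 0⟩, 0, 0⟩ 0 0)))) (.pos 76 .mm ⟨⟨0, 0, 0, 0, 0, 8403206, 0, 0, 0, ⟨0, 0⟩, 0⟩, 0, 0⟩ 0 0)))) (.pos 74 .mm ⟨⟨0, 0, 0, 0, 0, 8420249, 0, 0, 0, ⟨0, 0⟩, 0⟩, 0, 0⟩ 0 0))))) (.pos 68 .mm ⟨⟨0, 0, 0, 0, 0, 8454421, 0, 0, 0, ⟨0, 0⟩, 0⟩, 0, 0⟩ 0 0))) (.pos 68 .mm ⟨⟨0, 0, 0, 0, 0, 8522807, 0, 0, 0, ⟨0, 0⟩, 0⟩, 0, 0⟩ 0 0)))))) (.pos 15 .mm ⟨⟨0, 0, 0, 0, 0, 8659610, 0, 0, 0, ⟨0, 0⟩, 0⟩, 0, 0⟩ 0 0))))))))))))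 (.cut .v 25165824 (.cut .v 20971520 (.cut .d (-8388608) (.void 25 ⟨⟨0, 0, 0, 0, 0, 100000, 0, 0, 0, ⟨0, 0⟩, 0⟩, 0, 0⟩ 0 0) (.cut .d (-4194304) (.void 25 ⟨⟨0, 0, 0, 0, 0, 100000, 0, 0, 0, ⟨0, 0⟩, 0⟩, 0, 0⟩ 0 0) (.cut .v 18874368 (.cut .d (-2097152) (.void 27 ⟨⟨0, 0, 0, 0, 0, 100000, 0, 0, 0, ⟨0, 0⟩, 0⟩, 0, 0⟩ 0 0) (.cut .v 17825792 (.cut .d (-1048576) (.void 29 ⟨⟨0, 0, 0, 0, 0, 100000, 0, 0, 0, ⟨0, 0⟩, 0⟩, 0, 0⟩ 0 0) (.cut .d (-524288) (.void 29 ⟨⟨0, 0, 0, 0, 0, 100000, 0, 0, 0, ⟨0, 0⟩, 0⟩, 0, 0⟩ 0 0) (.cut .d (-262144) (.void 29 ⟨⟨0, 0, 0, 0, 0, 100000, 0, 0, 0, ⟨0, 0⟩, 0⟩, 0, 0⟩ 0 0) (.cut .v 17301504 (.cut .d (-131072)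 (.cut .d (-196608) (.void 31 ⟨⟨0, 0, 0, 0, 0, 100000, 0, 0, 0, ⟨0, 0⟩, 0⟩, 0, 0⟩ 0 0) (.cut .v 17039360 (.cut .l 307582 (.void 33 ⟨⟨0, 0, 0, 0, 0, 100000, 0, 0, 0, ⟨0, 0⟩, 0⟩, 0, 0⟩ 0 0) (.cut .l 461373 (.pos 33 .mp ⟨⟨1189586, 0, 0, 0, 0, 10779638, 0, 0, 0, ⟨0, 0⟩, 0⟩, 0, 0⟩ 0 0) (.cut .s 9306112 (.cut .v 16908288 (.pos 35 .mp ⟨⟨0, 0, 0, 0, 0, 9425807, 0, 0, 0, ⟨0, 0⟩, 0⟩, 0, 0⟩ 0 0) (.cut .s 9175040 (.cut .s 9109504 (.pos 36 .mp ⟨⟨1181254, 0, 0, 0, 0, 7455156, 0, 0, 0, ⟨0, 0⟩, 0⟩, 0, 0⟩ 0 0) (.pos 36 .mp ⟨⟨1258372, 0, 0, 0, 0, 7761207, 0, 0, 0, ⟨0, 0⟩, 0⟩, 0, 0⟩ 0 0)) (.cut .d (-163840) (.pos 36 .mp ⟨⟨1488444, 0, 0, 0,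 0, 8461616, 0, 0, 0, ⟨0, 0⟩, 0⟩, 0, 0⟩ 0 0) (.pos 36 .mp ⟨⟨1339770, 0, 0, 0, 0, 8027357, 0, 0, 0, ⟨0, 0⟩, 0⟩, 0, 0⟩ 0 0)))) (.cut .d (-163840) (.pos 33 .mp ⟨⟨1623350, 0, 0, 0, 0, 9873265, 0, 0, 0, ⟨0, 0⟩, 0⟩, 0, 0⟩ 0 0) (.cut .s 9437184 (.pos 33 .mp ⟨⟨1464747, 0, 0, 0, 0, 8768858, 0, 0, 0, ⟨0, 0⟩, 0⟩, 0, 0⟩ 0 0) (.pos 33 .mp ⟨⟨1653268, 0, 0, 0, 0, 9495996, 0, 0, 0, ⟨0, 0⟩, 0⟩, 0, 0⟩ 0 0)))))) (.pos 34 .mp ⟨⟨8960916, 0, 0, 0, 0, 0, 0, 0, 0, ⟨0, 0⟩, 0⟩, 0, 0⟩ 0 0))) (.cut .v 17039360 (.cut .s 9306112 (.cut .s 9175040 (.cut .s 9109504 (.cut .d (-65536) (.cut .s 9076736 (.pos 33 .mp ⟨⟨871229, 0, 0, 0, 0, 7471485, 0, 0, 0, ⟨0,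 0⟩, 0⟩, 0, 0⟩ 0 0) (.pos 33 .mp ⟨⟨902778, 0, 0, 0, 0, 7617357, 0, 0, 0, ⟨0, 0⟩, 0⟩, 0, 0⟩ 0 0)) (.pos 33 .mp ⟨⟨1138020, 0, 0, 0, 0, 6695064, 0, 0, 0, ⟨0, 0⟩, 0⟩, 0, 0⟩ 0 0)) (.cut .d (-65536) (.cut .s 9142272 (.pos 33 .mp ⟨⟨935245, 0, 0, 0, 0, 7767267, 0, 0, 0, ⟨0, 0⟩, 0⟩, 0, 0⟩ 0 0) (.pos 33 .mp ⟨⟨968638, 0, 0, 0, 0, 7921236, 0, 0, 0, ⟨0, 0⟩, 0⟩, 0, 0⟩ 0 0)) (.pos 33 .mp ⟨⟨1214585, 0, 0, 0, 0, 6954970, 0, 0, 0, ⟨0, 0⟩, 0⟩, 0, 0⟩ 0 0))) (.cut .s 9240576 (.cut .d (-65536) (.cut .s 9207808 (.pos 33 .mp ⟨⟨1002968, 0, 0, 0, 0, 8079286, 0, 0, 0, ⟨0, 0⟩, 0⟩, 0, 0⟩ 0 0) (.pos 33 .mp ⟨⟨1038243, 0, 0, 0, 0, 8241436, 0, 0, 0, ⟨0,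 0⟩, 0⟩, 0, 0⟩ 0 0)) (.pos 33 .mp ⟨⟨1295443, 0, 0, 0, 0, 7229454, 0, 0, 0, ⟨0, 0⟩, 0⟩, 0, 0⟩ 0 0)) (.cut .d (-65536) (.cut .s 9273344 (.pos 33 .mp ⟨⟨1074475, 0, 0, 0, 0, 8407710, 0, 0, 0, ⟨0, 0⟩, 0⟩, 0, 0⟩ 0 0) (.pos 33 .mp ⟨⟨1111672, 0, 0, 0, 0, 8578126, 0, 0, 0, ⟨0, 0⟩, 0⟩, 0, 0⟩ 0 0)) (.pos 33 .mp ⟨⟨1380683, 0, 0, 0, 0, 7518643, 0, 0, 0, ⟨0, 0⟩, 0⟩, 0, 0⟩ 0 0)))) (.cut .s 9437184 (.cut .s 9371648 (.cut .v 16908288 (.cut .s 9338880 (.pos 35 .mp ⟨⟨1114040, 0, 0, 0, 0, 8459000, 0, 0, 0, ⟨0, 0⟩, 0⟩, 0, 0⟩ 0 0) (.pos 35 .mp ⟨⟨1145923, 0, 0, 0, 0, 8643549, 0, 0, 0, ⟨0, 0⟩, 0⟩, 0, 0⟩ 0 0)) (.pos 36 .mp ⟨⟨2031842, 0, 0, 0, 0,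 7244335, 0, 0, 0, ⟨0, 0⟩, 0⟩, 0, 0⟩ 0 0)) (.cut .v 16908288 (.cut .s 9404416 (.pos 35 .mp ⟨⟨1183017, 0, 0, 0, 0, 8824548, 0, 0, 0, ⟨0, 0⟩, 0⟩, 0, 0⟩ 0 0) (.pos 35 .mp ⟨⟨1225523, 0, 0, 0, 0, 9001633, 0, 0, 0, ⟨0, 0⟩, 0⟩, 0, 0⟩ 0 0)) (.pos 36 .mp ⟨⟨2147132, 0, 0, 0, 0, 7540685, 0, 0, 0, ⟨0, 0⟩, 0⟩, 0, 0⟩ 0 0))) (.cut .s 9502720 (.cut .v 16908288 (.cut .s 9469952 (.pos 35 .mp ⟨⟨1273643, 0, 0, 0, 0, 9174443, 0, 0, 0, ⟨0, 0⟩, 0⟩, 0, 0⟩ 0 0) (.pos 35 .mp ⟨⟨1327577, 0, 0, 0, 0, 9342614, 0, 0, 0, ⟨0, 0⟩, 0⟩, 0, 0⟩ 0 0)) (.pos 36 .mp ⟨⟨2279808, 0, 0, 0, 0, 7831400, 0, 0, 0, ⟨0, 0⟩, 0⟩, 0, 0⟩ 0 0)) (.cut .v 16908288 (.cut .s 9535488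 (.pos 35 .mp ⟨⟨1387527, 0, 0, 0, 0, 9505785, 0, 0, 0, ⟨0, 0⟩, 0⟩, 0, 0⟩ 0 0) (.pos 35 .mp ⟨⟨1453690, 0, 0, 0, 0, 9663591, 0, 0, 0, ⟨0, 0⟩, 0⟩, 0, 0⟩ 0 0)) (.pos 36 .mp ⟨⟨2431464, 0, 0, 0, 0, 8113951, 0, 0, 0, ⟨0, 0⟩, 0⟩, 0, 0⟩ 0 0))))) (.pos 34 .mp ⟨⟨6681683, 0, 0, 0, 0, 0, 0, 0, 0, ⟨0, 0⟩, 0⟩, 0, 0⟩ 0 0))) (.pos 32 .mp ⟨⟨9930858, 0, 0, 0, 0, 0, 0, 0, 0, ⟨0, 0⟩, 0⟩, 0, 0⟩ 0 0))))) (.void 30 ⟨⟨100000, 0, 0, 0, 0, 0, 0, 0, 0, ⟨0, 0⟩, 0⟩, 0, 0⟩ 0 0))) (.void 28 ⟨⟨100000, 0, 0, 0, 0, 0, 0, 0, 0, ⟨0, 0⟩, 0⟩, 0, 0⟩ 0 0)))) (.void 26 ⟨⟨100000, 0, 0, 0, 0, 0, 0, 0, 0, ⟨0, 0⟩, 0⟩, 0, 0⟩ 0 0)) (.void 24 ⟨⟨100000, 0, 0, 0, 0, 0, 0,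 0, 0, ⟨0, 0⟩, 0⟩, 0, 0⟩ 0 0))) (.cut .v 16777216 (.cut .d 3504717 (.cut .d 1752358 (.cut .v 8388608 (.cut .v 4194304 (.void 4 ⟨⟨0, 0, 0, 0, 100000, 0, 0, 0, 0, ⟨0, 0⟩, 0⟩, 0, 0⟩ 0 0) (.void 5 ⟨⟨0, 0, 0, 0, 0, 0, 0, 0, 100000, ⟨0, 0⟩, 9975792⟩, 0, 0⟩ 0 0)) (.cut .v 12582912 (.pos 8 .pm ⟨⟨0, 0, 0, 0, 0, 0, 0, 0, 213429, ⟨0, 0⟩, 13128881⟩, 0, 577034⟩ 0 0) (.cut .v 14680064 (.pos 14 .pm ⟨⟨0, 0, 0, 0, 0, 0, 0, 0, 0, ⟨0, 0⟩, 0⟩, 0, 417040⟩ 0 0) (.pos 15 .pm ⟨⟨0, 0, 0, 0, 0, 0, 0, 0, 0, ⟨0, 0⟩, 0⟩, 0, 0⟩ 0 0)))) (.void 1 ⟨⟨0, 0, 0, 0, 0, 0, 0, 0, 0, ⟨0, 0⟩, 0⟩, 0, 100000⟩ 0 0)) (.void 1 ⟨⟨0, 0, 0, 0, 0, 0, 0, 0, 0, ⟨0, 0⟩, 0⟩,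 0, 100000⟩ 0 0)) (.cut .v 25165824 (.cut .d 3504717 (.cut .v 20971520 (.cut .v 18874368 (.cut .d 1752358 (.pos 27 .pp ⟨⟨3009526, 0, 0, 0, 0, 0, 0, 0, 0, ⟨0, 0⟩, 0⟩, 60700, 0⟩ 0 0) (.void 27 ⟨⟨0, 0, 0, 0, 0, 0, 0, 0, 0, ⟨0, 0⟩, 0⟩, 0, 100000⟩ 0 0)) (.pos 28 .pp ⟨⟨4798631, 0, 0, 0, 0, 0, 0, 0, 0, ⟨0, 0⟩, 0⟩, 0, 416190⟩ 0 0)) (.pos 26 .pp ⟨⟨14327988, 0, 0, 0, 0, 0, 0, 0, 0, ⟨0, 0⟩, 0⟩, 0, 3146882⟩ 0 0)) (.void 23 ⟨⟨0, 0, 0, 0, 0, 0, 0, 0, 0, ⟨0, 0⟩, 0⟩, 0, 100000⟩ 0 0)) (.void 24 ⟨⟨0, 0, 0, 0, 0, 0, 100000, 0, 0, ⟨0, 0⟩, 0⟩, 0, 0⟩ 0 0)))),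
    by decide +kernel⟩

def covers12 : cell.Covers Vale.Agent.P237.Petty.Cor.Grid.N6.table row12.1 :=
  ⟨(.cut .d 0 (.cut .v 16777216 (.cut .v 8388608 (.void 2 ⟨⟨0, 0, 100000, 0, 0, 0, 0, 0, 0, ⟨0, 0⟩, 0⟩, 0, 0⟩ 0 0) (.cut .d (-8388608) (.void 3 ⟨⟨0, 0, 0, 0, 0, 100000, 0, 0, 0, ⟨0, 0⟩, 0⟩, 0, 0⟩ 0 0) (.cut .d (-4194304) (.void 3 ⟨⟨0, 0, 0, 0, 0, 100000, 0, 0, 0, ⟨0, 0⟩, 0⟩, 0, 0⟩ 0 0) (.cut .d (-2097152) (.void 3 ⟨⟨0, 0, 0, 0, 0, 100000, 0, 0, 0, ⟨0, 0⟩, 0⟩, 0, 0⟩ 0 0) (.cut .d (-1048576) (.void 3 ⟨⟨0, 0, 0, 0, 0, 100000, 0, 0, 0, ⟨0, 0⟩, 0⟩, 0, 0⟩ 0 0) (.cut .d (-524288) (.void 3 ⟨⟨0, 0, 0, 0, 0, 100000, 0, 0, 0, ⟨0, 0⟩,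 0⟩, 0, 0⟩ 0 0) (.cut .d (-262144) (.void 3 ⟨⟨0, 0, 0, 0, 0, 100000, 0, 0, 0, ⟨0, 0⟩, 0⟩, 0, 0⟩ 0 0) (.cut .v 12582912 (.cut .v 10485760 (.pos 10 .mm ⟨⟨0, 0, 0, 0, 0, 2639979, 0, 0, 0, ⟨0, 0⟩, 0⟩, 0, 0⟩ 0 0) (.pos 11 .mm ⟨⟨0, 0, 0, 0, 0, 4165453, 0, 0, 0, ⟨0, 0⟩, 0⟩, 0, 0⟩ 0 0)) (.cut .v 14680064 (.pos 14 .mm ⟨⟨0, 0, 0, 0, 0, 7954510, 0, 0, 0, ⟨0, 0⟩, 0⟩, 0, 0⟩ 0 0) (.cut .d (-131072) (.pos 15 .mm ⟨⟨0, 0, 0, 0, 0, 16469762, 0, 0, 0, ⟨0, 0⟩, 0⟩, 0, 0⟩ 0 0) (.cut .v 15728640 (.pos 20 .mm ⟨⟨0, 0, 0, 0, 0, 10243640, 0, 0, 0, ⟨0, 0⟩, 0⟩, 0, 0⟩ 0 0) (.cut .v 16252928 (.pos 65 .mm ⟨⟨0, 0, 0, 0, 0, 12498505, 0, 0, 0, ⟨0, 0⟩, 0⟩,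 0, 0⟩ 0 0) (.cut .v 16515072 (.pos 67 .mm ⟨⟨0, 0, 0, 0, 0, 13248833, 0, 0, 0, ⟨0, 0⟩, 0⟩, 0, 0⟩ 0 0) (.cut .s 9830400 (.cut .s 9699328 (.pos 68 .mm ⟨⟨0, 0, 0, 0, 0, 12401182, 0, 0, 0, ⟨0, 0⟩, 0⟩, 0, 0⟩ 0 0) (.pos 68 .mm ⟨⟨0, 0, 0, 0, 0, 13478094, 0, 0, 0, ⟨0, 0⟩, 0⟩, 0, 0⟩ 0 0)) (.cut .s 9961472 (.pos 68 .mm ⟨⟨0, 0, 0, 0, 0, 14679798, 0, 0, 0, ⟨0, 0⟩, 0⟩, 0, 0⟩ 0 0) (.pos 68 .mm ⟨⟨0, 0, 0, 0, 0, 16010128, 0, 0, 0, ⟨0, 0⟩, 0⟩, 0, 0⟩ 0 0)))))))))))))))) (.cut .v 25165824 (.cut .v 20971520 (.cut .d (-8388608) (.void 25 ⟨⟨0, 0, 0, 0, 0, 100000, 0, 0, 0, ⟨0, 0⟩, 0⟩, 0, 0⟩ 0 0) (.cut .v 18874368 (.cut .d (-4194304) (.void 27 ⟨⟨0,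 0, 0, 0, 0, 100000, 0, 0, 0, ⟨0, 0⟩, 0⟩, 0, 0⟩ 0 0) (.cut .d (-2097152) (.void 27 ⟨⟨100000, 0, 0, 0, 0, 0, 0, 0, 0, ⟨0, 0⟩, 0⟩, 0, 0⟩ 0 0) (.cut .v 17825792 (.cut .d (-1048576) (.void 29 ⟨⟨0, 0, 0, 0, 0, 100000, 0, 0, 0, ⟨0, 0⟩, 0⟩, 0, 0⟩ 0 0) (.cut .d (-524288) (.void 29 ⟨⟨0, 0, 0, 0, 0, 100000, 0, 0, 0, ⟨0, 0⟩, 0⟩, 0, 0⟩ 0 0) (.cut .d (-262144) (.void 29 ⟨⟨0, 0, 0, 0, 0, 100000, 0, 0, 0, ⟨0, 0⟩, 0⟩, 0, 0⟩ 0 0) (.cut .v 17301504 (.cut .d (-131072) (.cut .d (-196608) (.void 31 ⟨⟨0, 0, 0, 0, 0, 100000, 0, 0, 0, ⟨0, 0⟩, 0⟩, 0, 0⟩ 0 0) (.cut .v 17039360 (.cut .d (-163840) (.void 33 ⟨⟨0, 0, 0, 0, 0, 100000, 0, 0, 0, ⟨0, 0⟩,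 0⟩, 0, 0⟩ 0 0) (.cut .l 307582 (.void 33 ⟨⟨0, 0, 0, 0, 0, 100000, 0, 0, 0, ⟨0, 0⟩, 0⟩, 0, 0⟩ 0 0) (.cut .v 16908288 (.pos 35 .mp ⟨⟨0, 0, 0, 0, 0, 16165596, 0, 0, 0, ⟨0, 0⟩, 0⟩, 0, 0⟩ 0 0) (.cut .l 461373 (.void 36 ⟨⟨0, 0, 0, 0, 0, 100000, 0, 0, 0, ⟨0, 0⟩, 0⟩, 0, 0⟩ 0 0) (.cut .l 538269 (.pos 36 .mp ⟨⟨1958436, 0, 0, 0, 0, 14515344, 0, 0, 0, ⟨0, 0⟩, 0⟩, 0, 0⟩ 0 0) (.cut .s 9830400 (.cut .s 9699328 (.pos 36 .mp ⟨⟨1923454, 0, 0, 0, 0, 10607459, 0, 0, 0, ⟨0, 0⟩, 0⟩, 0, 0⟩ 0 0) (.cut .s 9764864 (.pos 36 .mp ⟨⟨2162253, 0, 0, 0, 0, 11027710, 0, 0, 0, ⟨0, 0⟩, 0⟩, 0, 0⟩ 0 0) (.pos 36 .mp ⟨⟨2291060, 0, 0, 0, 0, 11434637, 0, 0, 0, ⟨0,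 0⟩, 0⟩, 0, 0⟩ 0 0))) (.cut .s 9961472 (.cut .s 9895936 (.pos 36 .mp ⟨⟨2426335, 0, 0, 0, 0, 11852941, 0, 0, 0, ⟨0, 0⟩, 0⟩, 0, 0⟩ 0 0) (.pos 36 .mp ⟨⟨2568233, 0, 0, 0, 0, 12281906, 0, 0, 0, ⟨0, 0⟩, 0⟩, 0, 0⟩ 0 0)) (.pos 36 .mp ⟨⟨2716915, 0, 0, 0, 0, 13104427, 0, 0, 0, ⟨0, 0⟩, 0⟩, 0, 0⟩ 0 0)))))))) (.pos 34 .mp ⟨⟨13102321, 0, 0, 0, 0, 0, 0, 0, 0, ⟨0, 0⟩, 0⟩, 0, 0⟩ 0 0))) (.cut .v 17039360 (.cut .s 9830400 (.cut .s 9699328 (.cut .d (-65536) (.cut .l 307582 (.pos 33 .mp ⟨⟨1677365, 0, 0, 0, 0, 10971716, 0, 0, 0, ⟨0, 0⟩, 0⟩, 0, 0⟩ 0 0) (.cut .s 9633792 (.pos 33 .mp ⟨⟨1491839, 0, 0, 0, 0, 10390820, 0, 0, 0, ⟨0, 0⟩, 0⟩, 0, 0⟩ 0 0)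 (.cut .s 9666560 (.pos 33 .mp ⟨⟨1590037, 0, 0, 0, 0, 10630499, 0, 0, 0, ⟨0, 0⟩, 0⟩, 0, 0⟩ 0 0) (.pos 33 .mp ⟨⟨1641121, 0, 0, 0, 0, 10822634, 0, 0, 0, ⟨0, 0⟩, 0⟩, 0, 0⟩ 0 0)))) (.cut .v 16908288 (.cut .s 9633792 (.pos 35 .mp ⟨⟨1808153, 0, 0, 0, 0, 9302623, 0, 0, 0, ⟨0, 0⟩, 0⟩, 0, 0⟩ 0 0) (.cut .s 9666560 (.pos 35 .mp ⟨⟨1918425, 0, 0, 0, 0, 9550685, 0, 0, 0, ⟨0, 0⟩, 0⟩, 0, 0⟩ 0 0) (.pos 35 .mp ⟨⟨1950048, 0, 0, 0, 0, 9760036, 0, 0, 0, ⟨0, 0⟩, 0⟩, 0, 0⟩ 0 0))) (.pos 36 .mp ⟨⟨7140480, 0, 0, 0, 0, 0, 0, 0, 0, ⟨0, 0⟩, 0⟩, 0, 0⟩ 0 0))) (.cut .d (-65536) (.cut .l 307582 (.pos 33 .mp ⟨⟨1890822, 0, 0, 0, 0, 11844639, 0, 0, 0, ⟨0, 0⟩,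 0⟩, 0, 0⟩ 0 0) (.cut .d (-98304) (.cut .s 9764864 (.pos 33 .mp ⟨⟨1892755, 0, 0, 0, 0, 10919673, 0, 0, 0, ⟨0, 0⟩, 0⟩, 0, 0⟩ 0 0) (.pos 33 .mp ⟨⟨2009889, 0, 0, 0, 0, 11320589, 0, 0, 0, ⟨0, 0⟩, 0⟩, 0, 0⟩ 0 0)) (.pos 33 .mp ⟨⟨2294902, 0, 0, 0, 0, 9608213, 0, 0, 0, ⟨0, 0⟩, 0⟩, 0, 0⟩ 0 0))) (.cut .l 307582 (.cut .v 16908288 (.cut .s 9764864 (.cut .s 9732096 (.pos 35 .mp ⟨⟨1977954, 0, 0, 0, 0, 9949819, 0, 0, 0, ⟨0, 0⟩, 0⟩, 0, 0⟩ 0 0) (.pos 35 .mp ⟨⟨2037573, 0, 0, 0, 0, 10131709, 0, 0, 0, ⟨0, 0⟩, 0⟩, 0, 0⟩ 0 0)) (.cut .s 9797632 (.pos 35 .mp ⟨⟨2098731, 0, 0, 0, 0, 10318211, 0, 0, 0, ⟨0, 0⟩, 0⟩, 0, 0⟩ 0 0) (.pos 35 .mp ⟨⟨2161447,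 0, 0, 0, 0, 10509314, 0, 0, 0, ⟨0, 0⟩, 0⟩, 0, 0⟩ 0 0))) (.pos 36 .mp ⟨⟨7979481, 0, 0, 0, 0, 0, 0, 0, 0, ⟨0, 0⟩, 0⟩, 0, 0⟩ 0 0)) (.pos 33 .mp ⟨⟨2077363, 0, 0, 0, 0, 0, 0, 0, 0, ⟨0, 0⟩, 0⟩, 0, 0⟩ 0 0)))) (.cut .s 9961472 (.cut .d (-65536) (.cut .l 307582 (.pos 33 .mp ⟨⟨2125882, 0, 0, 0, 0, 12774325, 0, 0, 0, ⟨0, 0⟩, 0⟩, 0, 0⟩ 0 0) (.cut .v 16908288 (.pos 35 .mp ⟨⟨509102, 0, 0, 0, 0, 14149014, 0, 0, 0, ⟨0, 0⟩, 0⟩, 0, 0⟩ 0 0) (.cut .s 9895936 (.pos 36 .mp ⟨⟨2699088, 0, 0, 0, 0, 10510440, 0, 0, 0, ⟨0, 0⟩, 0⟩, 0, 0⟩ 0 0) (.pos 36 .mp ⟨⟨2845353, 0, 0, 0, 0, 10914621, 0, 0, 0, ⟨0, 0⟩, 0⟩, 0, 0⟩ 0 0)))) (.cut .v 16908288 (.cut .l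 307582 (.cut .s 9895936 (.cut .s 9863168 (.pos 35 .mp ⟨⟨2225737, 0, 0, 0, 0, 10705003, 0, 0, 0, ⟨0, 0⟩, 0⟩, 0, 0⟩ 0 0) (.pos 35 .mp ⟨⟨2291622, 0, 0, 0, 0, 10905262, 0, 0, 0, ⟨0, 0⟩, 0⟩, 0, 0⟩ 0 0)) (.cut .s 9928704 (.pos 35 .mp ⟨⟨2359120, 0, 0, 0, 0, 11110075, 0, 0, 0, ⟨0, 0⟩, 0⟩, 0, 0⟩ 0 0) (.pos 35 .mp ⟨⟨2428252, 0, 0, 0, 0, 11319427, 0, 0, 0, ⟨0, 0⟩, 0⟩, 0, 0⟩ 0 0))) (.pos 35 .mp ⟨⟨0, 0, 0, 0, 0, 0, 0, 0, 0, ⟨0, 0⟩, 0⟩, 0, 0⟩ 0 0)) (.pos 36 .mp ⟨⟨8316016, 0, 0, 0, 0, 0, 0, 0, 0, ⟨0, 0⟩, 0⟩, 0, 0⟩ 0 0))) (.cut .d (-65536) (.cut .l 307582 (.pos 33 .mp ⟨⟨2383691, 0, 0, 0, 0, 13754933, 0, 0, 0, ⟨0, 0⟩, 0⟩, 0, 0⟩ 0 0) (.cut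 .v 16908288 (.pos 35 .mp ⟨⟨657432, 0, 0, 0, 0, 15242866, 0, 0, 0, ⟨0, 0⟩, 0⟩, 0, 0⟩ 0 0) (.cut .s 10027008 (.pos 36 .mp ⟨⟨3007084, 0, 0, 0, 0, 11319725, 0, 0, 0, ⟨0, 0⟩, 0⟩, 0, 0⟩ 0 0) (.pos 36 .mp ⟨⟨3185409, 0, 0, 0, 0, 11723630, 0, 0, 0, ⟨0, 0⟩, 0⟩, 0, 0⟩ 0 0)))) (.cut .v 16908288 (.cut .l 307582 (.cut .s 10027008 (.cut .s 9994240 (.pos 35 .mp ⟨⟨2499037, 0, 0, 0, 0, 11533298, 0, 0, 0, ⟨0, 0⟩, 0⟩, 0, 0⟩ 0 0) (.pos 35 .mp ⟨⟨2571495, 0, 0, 0, 0, 11751671, 0, 0, 0, ⟨0, 0⟩, 0⟩, 0, 0⟩ 0 0)) (.cut .s 10059776 (.pos 35 .mp ⟨⟨2645649, 0, 0, 0, 0, 11974526, 0, 0, 0, ⟨0, 0⟩, 0⟩, 0, 0⟩ 0 0) (.pos 35 .mp ⟨⟨2721517, 0, 0, 0, 0, 12201843,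 0, 0, 0, ⟨0, 0⟩, 0⟩, 0, 0⟩ 0 0))) (.pos 35 .mp ⟨⟨2530690, 0, 0, 0, 0, 0, 0, 0, 0, ⟨0, 0⟩, 0⟩, 0, 0⟩ 0 0)) (.pos 36 .mp ⟨⟨9008085, 0, 0, 0, 0, 0, 0, 0, 0, ⟨0, 0⟩, 0⟩, 0, 0⟩ 0 0))))) (.pos 34 .mp ⟨⟨9549418, 0, 0, 0, 0, 0, 0, 0, 0, ⟨0, 0⟩, 0⟩, 0, 0⟩ 0 0))) (.pos 32 .mp ⟨⟨13499920, 0, 0, 0, 0, 0, 0, 0, 0, ⟨0, 0⟩, 0⟩, 0, 0⟩ 0 0))))) (.void 30 ⟨⟨100000, 0, 0, 0, 0, 0, 0, 0, 0, ⟨0, 0⟩, 0⟩, 0, 0⟩ 0 0)))) (.void 28 ⟨⟨100000, 0, 0, 0, 0, 0, 0, 0, 0, ⟨0, 0⟩, 0⟩, 0, 0⟩ 0 0))) (.void 26 ⟨⟨100000, 0, 0, 0, 0, 0, 0, 0, 0, ⟨0, 0⟩, 0⟩, 0, 0⟩ 0 0)) (.void 24 ⟨⟨100000, 0, 0, 0, 0, 0, 0, 0, 0, ⟨0, 0⟩, 0⟩, 0, 0⟩ 0 0))) (.cut .v 16777216 (.cut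 .d 4017503 (.cut .d 2008751 (.cut .v 8388608 (.cut .v 4194304 (.void 4 ⟨⟨0, 0, 0, 0, 100000, 0, 0, 0, 0, ⟨0, 0⟩, 0⟩, 0, 0⟩ 0 0) (.void 5 ⟨⟨0, 0, 0, 0, 0, 0, 0, 0, 100000, ⟨0, 0⟩, 9975792⟩, 0, 0⟩ 0 0)) (.cut .v 12582912 (.cut .v 10485760 (.pos 10 .pm ⟨⟨0, 0, 0, 0, 0, 0, 0, 0, 0, ⟨0, 0⟩, 0⟩, 0, 538597⟩ 0 0) (.pos 11 .pm ⟨⟨0, 0, 0, 0, 0, 0, 0, 0, 0, ⟨0, 0⟩, 0⟩, 0, 524050⟩ 0 0)) (.cut .v 14680064 (.pos 14 .pm ⟨⟨0, 0, 0, 0, 0, 0, 0, 0, 0, ⟨0, 0⟩, 0⟩, 0, 30855⟩ 0 0) (.pos 15 .pm ⟨⟨0, 0, 0, 0, 0, 0, 0, 0, 0, ⟨0, 0⟩, 0⟩, 0, 0⟩ 0 0)))) (.void 1 ⟨⟨0, 0, 0, 0, 0, 0, 0, 0, 0, ⟨0, 0⟩, 0⟩, 0, 100000⟩ 0 0)) (.void 1 ⟨⟨0, 0, 0, 0, 0, 0,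 0, 0, 0, ⟨0, 0⟩, 0⟩, 0, 100000⟩ 0 0)) (.cut .v 25165824 (.cut .d 4017503 (.cut .v 20971520 (.cut .v 18874368 (.cut .d 2008751 (.pos 27 .pp ⟨⟨4295001, 0, 0, 0, 0, 0, 0, 0, 0, ⟨0, 0⟩, 0⟩, 134957, 0⟩ 0 0) (.void 27 ⟨⟨0, 0, 0, 0, 0, 0, 0, 0, 0, ⟨0, 0⟩, 0⟩, 0, 100000⟩ 0 0)) (.pos 28 .pp ⟨⟨6170170, 0, 0, 0, 0, 0, 0, 0, 0, ⟨0, 0⟩, 0⟩, 0, 483779⟩ 0 0)) (.pos 26 .pp ⟨⟨11737497, 0, 0, 0, 0, 0, 656428, 0, 0, ⟨0, 0⟩, 0⟩, 0, 0⟩ 0 0)) (.void 23 ⟨⟨0, 0, 0, 0, 0, 0, 0, 0, 0, ⟨0, 0⟩, 0⟩, 0, 100000⟩ 0 0)) (.void 24 ⟨⟨0, 0, 0, 0, 0, 0, 100000, 0, 0, ⟨0, 0⟩, 0⟩, 0, 0⟩ 0 0)))),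
    by decide +kernel⟩

def covers13 : cell.Covers Vale.Agent.P237.Petty.Cor.Grid.N6.table row13.1 :=
  ⟨(.cut .d 0 (.cut .v 16777216 (.cut .v 8388608 (.void 2 ⟨⟨0, 0, 100000, 0, 0, 0, 0, 0, 0, ⟨0, 0⟩, 0⟩, 0, 0⟩ 0 0) (.cut .d (-8388608) (.void 3 ⟨⟨0, 0, 0, 0, 0, 100000, 0, 0, 0, ⟨0, 0⟩, 0⟩, 0, 0⟩ 0 0) (.cut .d (-4194304) (.void 3 ⟨⟨0, 0, 0, 0, 0, 100000, 0, 0, 0, ⟨0, 0⟩, 0⟩, 0, 0⟩ 0 0) (.cut .d (-2097152) (.void 3 ⟨⟨0, 0, 0, 0, 0, 100000, 0, 0, 0, ⟨0, 0⟩, 0⟩, 0, 0⟩ 0 0) (.cut .d (-1048576) (.void 3 ⟨⟨0, 0, 0, 0, 0, 100000, 0, 0, 0, ⟨0, 0⟩, 0⟩, 0, 0⟩ 0 0) (.cut .d (-524288) (.void 3 ⟨⟨0, 0, 0, 0, 0, 100000, 0, 0, 0, ⟨0, 0⟩,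 0⟩, 0, 0⟩ 0 0) (.cut .d (-262144) (.void 3 ⟨⟨0, 0, 0, 0, 0, 100000, 0, 0, 0, ⟨0, 0⟩, 0⟩, 0, 0⟩ 0 0) (.cut .v 12582912 (.cut .v 10485760 (.pos 10 .mm ⟨⟨0, 0, 0, 0, 0, 3968911, 0, 0, 0, ⟨0, 0⟩, 0⟩, 0, 0⟩ 0 0) (.pos 11 .mm ⟨⟨0, 0, 0, 0, 0, 5261627, 0, 0, 0, ⟨0, 0⟩, 0⟩, 0, 0⟩ 0 0)) (.cut .d (-131072) (.pos 9 .mm ⟨⟨0, 0, 0, 0, 0, 22138648, 0, 0, 0, ⟨0, 0⟩, 0⟩, 0, 0⟩ 0 0) (.cut .s 10289152 (.pos 9 .mm ⟨⟨0, 0, 0, 0, 0, 17794324, 0, 0, 0, ⟨0, 0⟩, 0⟩, 0, 0⟩ 0 0) (.pos 9 .mm ⟨⟨0, 0, 0, 0, 0, 20148484, 0, 0, 0, ⟨0, 0⟩, 0⟩, 0, 0⟩ 0 0))))))))))) (.cut .v 25165824 (.cut .v 20971520 (.cut .d (-8388608) (.void 25 ⟨⟨0, 0, 0, 0, 0, 100000,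 0, 0, 0, ⟨0, 0⟩, 0⟩, 0, 0⟩ 0 0) (.cut .v 18874368 (.cut .d (-4194304) (.void 27 ⟨⟨100000, 0, 0, 0, 0, 0, 0, 0, 0, ⟨0, 0⟩, 0⟩, 0, 0⟩ 0 0) (.cut .d (-2097152) (.void 27 ⟨⟨100000, 0, 0, 0, 0, 0, 0, 0, 0, ⟨0, 0⟩, 0⟩, 0, 0⟩ 0 0) (.cut .v 17825792 (.cut .d (-1048576) (.void 29 ⟨⟨100000, 0, 0, 0, 0, 0, 0, 0, 0, ⟨0, 0⟩, 0⟩, 0, 0⟩ 0 0) (.cut .v 17301504 (.cut .d (-524288) (.void 31 ⟨⟨0, 0, 0, 0, 0, 100000, 0, 0, 0, ⟨0, 0⟩, 0⟩, 0, 0⟩ 0 0) (.cut .d (-262144) (.void 31 ⟨⟨0, 0, 0, 0, 0, 100000, 0, 0, 0, ⟨0, 0⟩, 0⟩, 0, 0⟩ 0 0) (.cut .d (-131072) (.cut .v 17039360 (.cut .s 10289152 (.pos 33 .mp ⟨⟨2942787, 0, 0, 0, 0, 16500247, 0, 0, 0,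 ⟨0, 0⟩, 0⟩, 0, 0⟩ 0 0) (.void 33 ⟨⟨0, 0, 0, 0, 0, 100000, 0, 0, 0, ⟨0, 0⟩, 0⟩, 0, 0⟩ 0 0)) (.void 34 ⟨⟨100000, 0, 0, 0, 0, 0, 0, 0, 0, ⟨0, 0⟩, 0⟩, 0, 0⟩ 0 0)) (.cut .v 17039360 (.cut .s 10289152 (.cut .d (-65536) (.cut .l 307582 (.pos 33 .mp ⟨⟨2879856, 0, 0, 0, 0, 15282673, 0, 0, 0, ⟨0, 0⟩, 0⟩, 0, 0⟩ 0 0) (.cut .v 16908288 (.pos 35 .mp ⟨⟨0, 0, 0, 0, 0, 18215548, 0, 0, 0, ⟨0, 0⟩, 0⟩, 0, 0⟩ 0 0) (.cut .s 10190848 (.cut .s 10141696 (.pos 36 .mp ⟨⟨3320693, 0, 0, 0, 0, 12194561, 0, 0, 0, ⟨0, 0⟩, 0⟩, 0, 0⟩ 0 0) (.pos 36 .mp ⟨⟨3432567, 0, 0, 0, 0, 12553359, 0, 0, 0, ⟨0, 0⟩, 0⟩, 0, 0⟩ 0 0)) (.cut .s 10240000 (.pos 36 .mp ⟨⟨3553760,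 0, 0, 0, 0, 12916843, 0, 0, 0, ⟨0, 0⟩, 0⟩, 0, 0⟩ 0 0) (.cut .s 10264576 (.pos 36 .mp ⟨⟨3483611, 0, 0, 0, 0, 13528115, 0, 0, 0, ⟨0, 0⟩, 0⟩, 0, 0⟩ 0 0) (.pos 36 .mp ⟨⟨3554445, 0, 0, 0, 0, 13711521, 0, 0, 0, ⟨0, 0⟩, 0⟩, 0, 0⟩ 0 0)))))) (.cut .v 16908288 (.cut .l 307582 (.cut .s 10190848 (.cut .d (-32768) (.pos 35 .mp ⟨⟨2355164, 0, 0, 0, 0, 14100728, 0, 0, 0, ⟨0, 0⟩, 0⟩, 0, 0⟩ 0 0) (.cut .s 10141696 (.pos 35 .mp ⟨⟨2550508, 0, 0, 0, 0, 12917823, 0, 0, 0, ⟨0, 0⟩, 0⟩, 0, 0⟩ 0 0) (.pos 35 .mp ⟨⟨2680503, 0, 0, 0, 0, 13208017, 0, 0, 0, ⟨0, 0⟩, 0⟩, 0, 0⟩ 0 0))) (.cut .d (-32768) (.cut .s 10240000 (.pos 35 .mp ⟨⟨2641590, 0, 0, 0, 0,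 14282233, 0, 0, 0, ⟨0, 0⟩, 0⟩, 0, 0⟩ 0 0) (.pos 35 .mp ⟨⟨2739627, 0, 0, 0, 0, 14707506, 0, 0, 0, ⟨0, 0⟩, 0⟩, 0, 0⟩ 0 0)) (.cut .s 10240000 (.pos 35 .mp ⟨⟨2809449, 0, 0, 0, 0, 13525398, 0, 0, 0, ⟨0, 0⟩, 0⟩, 0, 0⟩ 0 0) (.pos 35 .mp ⟨⟨2932313, 0, 0, 0, 0, 13881607, 0, 0, 0, ⟨0, 0⟩, 0⟩, 0, 0⟩ 0 0)))) (.pos 35 .mp ⟨⟨2770316, 0, 0, 0, 0, 12079922, 0, 0, 0, ⟨0, 0⟩, 0⟩, 0, 0⟩ 0 0)) (.pos 36 .mp ⟨⟨10001407, 0, 0, 0, 0, 0, 0, 0, 0, ⟨0, 0⟩, 0⟩, 0, 0⟩ 0 0))) (.cut .d (-65536) (.cut .l 307582 (.void 33 ⟨⟨0, 0, 0, 0, 0, 100000, 0, 0, 0, ⟨0, 0⟩, 0⟩, 0, 0⟩ 0 0) (.cut .v 16908288 (.pos 35 .mp ⟨⟨0, 0, 0, 0, 0, 20599695, 0, 0, 0, ⟨0, 0⟩, 0⟩,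 0, 0⟩ 0 0) (.cut .s 10387456 (.cut .d (-98304) (.cut .s 10338304 (.pos 36 .mp ⟨⟨3494363, 0, 0, 0, 0, 14426670, 0, 0, 0, ⟨0, 0⟩, 0⟩, 0, 0⟩ 0 0) (.pos 36 .mp ⟨⟨3625601, 0, 0, 0, 0, 14847359, 0, 0, 0, ⟨0, 0⟩, 0⟩, 0, 0⟩ 0 0)) (.pos 36 .mp ⟨⟨3802914, 0, 0, 0, 0, 13621824, 0, 0, 0, ⟨0, 0⟩, 0⟩, 0, 0⟩ 0 0)) (.cut .d (-98304) (.cut .s 10436608 (.pos 36 .mp ⟨⟨3746786, 0, 0, 0, 0, 15317226, 0, 0, 0, ⟨0, 0⟩, 0⟩, 0, 0⟩ 0 0) (.pos 36 .mp ⟨⟨3722049, 0, 0, 0, 0, 16207687, 0, 0, 0, ⟨0, 0⟩, 0⟩, 0, 0⟩ 0 0)) (.pos 36 .mp ⟨⟨4122710, 0, 0, 0, 0, 14350207, 0, 0, 0, ⟨0, 0⟩, 0⟩, 0, 0⟩ 0 0))))) (.cut .l 307582 (.cut .v 16908288 (.cut .s 10387456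 (.cut .d (-32768) (.cut .s 10338304 (.pos 35 .mp ⟨⟨2847920, 0, 0, 0, 0, 15135513, 0, 0, 0, ⟨0, 0⟩, 0⟩, 0, 0⟩ 0 0) (.pos 35 .mp ⟨⟨2967098, 0, 0, 0, 0, 15565062, 0, 0, 0, ⟨0, 0⟩, 0⟩, 0, 0⟩ 0 0)) (.cut .s 10338304 (.pos 35 .mp ⟨⟨3059775, 0, 0, 0, 0, 14252963, 0, 0, 0, ⟨0, 0⟩, 0⟩, 0, 0⟩ 0 0) (.pos 35 .mp ⟨⟨3191925, 0, 0, 0, 0, 14639541, 0, 0, 0, ⟨0, 0⟩, 0⟩, 0, 0⟩ 0 0))) (.cut .d (-32768) (.cut .s 10436608 (.pos 35 .mp ⟨⟨3097801, 0, 0, 0, 0, 15994941, 0, 0, 0, ⟨0, 0⟩, 0⟩, 0, 0⟩ 0 0) (.pos 35 .mp ⟨⟨3240675, 0, 0, 0, 0, 16423917, 0, 0, 0, ⟨0, 0⟩, 0⟩, 0, 0⟩ 0 0)) (.cut .s 10436608 (.pos 35 .mp ⟨⟨3328858, 0, 0, 0, 0, 15041409, 0,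 0, 0, ⟨0, 0⟩, 0⟩, 0, 0⟩ 0 0) (.pos 35 .mp ⟨⟨3470670, 0, 0, 0, 0, 15458635, 0, 0, 0, ⟨0, 0⟩, 0⟩, 0, 0⟩ 0 0)))) (.pos 36 .mp ⟨⟨14739590, 0, 0, 0, 0, 0, 0, 0, 0, ⟨0, 0⟩, 0⟩, 0, 0⟩ 0 0)) (.pos 33 .mp ⟨⟨3508874, 0, 0, 0, 0, 13210931, 0, 0, 0, ⟨0, 0⟩, 0⟩, 0, 0⟩ 0 0)))) (.pos 34 .mp ⟨⟨13960721, 0, 0, 0, 0, 0, 0, 0, 0, ⟨0, 0⟩, 0⟩, 0, 0⟩ 0 0))))) (.pos 32 .mp ⟨⟨20173913, 0, 0, 0, 0, 0, 0, 0, 0, ⟨0, 0⟩, 0⟩, 0, 0⟩ 0 0))) (.void 30 ⟨⟨100000, 0, 0, 0, 0, 0, 0, 0, 0, ⟨0, 0⟩, 0⟩, 0, 0⟩ 0 0)))) (.void 28 ⟨⟨100000, 0, 0, 0, 0, 0, 0, 0, 0, ⟨0, 0⟩, 0⟩, 0, 0⟩ 0 0))) (.void 26 ⟨⟨100000, 0, 0, 0, 0, 0, 0, 0, 0, ⟨0, 0⟩, 0⟩, 0, 0⟩ 0 0)) (.void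 24 ⟨⟨100000, 0, 0, 0, 0, 0, 0, 0, 0, ⟨0, 0⟩, 0⟩, 0, 0⟩ 0 0))) (.cut .v 16777216 (.cut .d 4470605 (.cut .d 2235302 (.cut .v 8388608 (.cut .v 4194304 (.void 4 ⟨⟨0, 0, 0, 0, 100000, 0, 0, 0, 0, ⟨0, 0⟩, 0⟩, 0, 0⟩ 0 0) (.void 5 ⟨⟨0, 0, 54321, 0, 0, 0, 0, 0, 45679, ⟨0, 0⟩, 9975792⟩, 0, 0⟩ 0 0)) (.cut .v 12582912 (.cut .v 10485760 (.pos 10 .pm ⟨⟨0, 0, 0, 0, 0, 0, 0, 0, 0, ⟨0, 0⟩, 0⟩, 0, 234542⟩ 0 0) (.pos 11 .pm ⟨⟨0, 0, 0, 0, 0, 0, 0, 0, 0, ⟨0, 0⟩, 0⟩, 0, 73068⟩ 0 0)) (.pos 9 .pm ⟨⟨0, 0, 0, 0, 0, 0, 0, 0, 0, ⟨0, 0⟩, 0⟩, 0, 0⟩ 0 0))) (.void 1 ⟨⟨0, 0, 0, 0, 0, 0, 0, 0, 0, ⟨0, 0⟩, 0⟩, 0, 100000⟩ 0 0)) (.void 1 ⟨⟨0, 0, 0, 0, 0, 0,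 0, 0, 0, ⟨0, 0⟩, 0⟩, 0, 100000⟩ 0 0)) (.cut .d 4470605 (.cut .v 25165824 (.cut .v 20971520 (.cut .d 2235302 (.cut .v 18874368 (.pos 27 .pp ⟨⟨5019225, 0, 0, 0, 0, 0, 0, 0, 0, ⟨0, 0⟩, 0⟩, 480468, 0⟩ 0 0) (.pos 28 .pp ⟨⟨12959792, 0, 0, 0, 0, 0, 0, 0, 0, ⟨0, 0⟩, 0⟩, 0, 53827⟩ 0 0)) (.void 25 ⟨⟨0, 0, 0, 0, 0, 0, 0, 0, 0, ⟨0, 0⟩, 0⟩, 0, 100000⟩ 0 0)) (.pos 26 .pp ⟨⟨14262503, 0, 0, 0, 0, 0, 761823, 0, 0, ⟨0, 0⟩, 0⟩, 0, 0⟩ 0 0)) (.pos 24 .pp ⟨⟨31315693, 0, 0, 0, 0, 0, 63134264, 0, 0, ⟨0, 0⟩, 0⟩, 0, 0⟩ 0 0)) (.void 22 ⟨⟨0, 0, 0, 0, 0, 0, 0, 0, 0, ⟨0, 0⟩, 0⟩, 0, 100000⟩ 0 0)))),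
    by decide +kernel⟩

def covers14 : cell.Covers Vale.Agent.P237.Petty.Cor.Grid.N6.table row14.1 :=
  ⟨(.cut .d 0 (.cut .v 16777216 (.cut .v 8388608 (.void 2 ⟨⟨0, 0, 100000, 0, 0, 0, 0, 0, 0, ⟨0, 0⟩, 0⟩, 0, 0⟩ 0 0) (.cut .d (-8388608) (.void 3 ⟨⟨0, 0, 0, 0, 0, 100000, 0, 0, 0, ⟨0, 0⟩, 0⟩, 0, 0⟩ 0 0) (.cut .d (-4194304) (.void 3 ⟨⟨0, 0, 0, 0, 0, 100000, 0, 0, 0, ⟨0, 0⟩, 0⟩, 0, 0⟩ 0 0) (.cut .d (-2097152) (.void 3 ⟨⟨0, 0, 0, 0, 0, 100000, 0, 0, 0, ⟨0, 0⟩, 0⟩, 0, 0⟩ 0 0) (.cut .d (-1048576) (.void 3 ⟨⟨0, 0, 0, 0, 0, 100000, 0, 0, 0, ⟨0, 0⟩, 0⟩, 0, 0⟩ 0 0) (.cut .d (-524288) (.void 3 ⟨⟨0, 0, 0, 0, 0, 100000, 0, 0, 0, ⟨0, 0⟩,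 0⟩, 0, 0⟩ 0 0) (.cut .d (-262144) (.void 3 ⟨⟨0, 0, 0, 0, 0, 100000, 0, 0, 0, ⟨0, 0⟩, 0⟩, 0, 0⟩ 0 0) (.cut .d (-131072) (.void 3 ⟨⟨0, 0, 0, 0, 0, 100000, 0, 0, 0, ⟨0, 0⟩, 0⟩, 0, 0⟩ 0 0) (.cut .v 12582912 (.cut .v 10485760 (.pos 10 .mm ⟨⟨0, 0, 0, 0, 0, 4111945, 0, 0, 0, ⟨0, 0⟩, 0⟩, 0, 0⟩ 0 0) (.pos 11 .mm ⟨⟨0, 0, 0, 0, 0, 4917783, 0, 0, 0, ⟨0, 0⟩, 0⟩, 0, 0⟩ 0 0)) (.cut .s 10682368 (.pos 9 .mm ⟨⟨0, 0, 0, 0, 0, 22880708, 0, 0, 0, ⟨0, 0⟩, 0⟩, 0, 0⟩ 0 0) (.pos 9 .mm ⟨⟨0, 0, 0, 0, 0, 25893014, 0, 0, 0, ⟨0, 0⟩, 0⟩, 0, 0⟩ 0 0))))))))))) (.cut .v 25165824 (.cut .v 20971520 (.cut .d (-8388608) (.void 25 ⟨⟨0, 0, 0, 0, 0, 100000, 0,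 0, 0, ⟨0, 0⟩, 0⟩, 0, 0⟩ 0 0) (.cut .v 18874368 (.cut .d (-4194304) (.void 27 ⟨⟨100000, 0, 0, 0, 0, 0, 0, 0, 0, ⟨0, 0⟩, 0⟩, 0, 0⟩ 0 0) (.cut .v 17825792 (.cut .d (-2097152) (.void 29 ⟨⟨100000, 0, 0, 0, 0, 0, 0, 0, 0, ⟨0, 0⟩, 0⟩, 0, 0⟩ 0 0) (.cut .d (-1048576) (.void 29 ⟨⟨100000, 0, 0, 0, 0, 0, 0, 0, 0, ⟨0, 0⟩, 0⟩, 0, 0⟩ 0 0) (.cut .v 17301504 (.cut .d (-524288) (.void 31 ⟨⟨100000, 0, 0, 0, 0, 0, 0, 0, 0, ⟨0, 0⟩, 0⟩, 0, 0⟩ 0 0) (.cut .d (-262144) (.void 31 ⟨⟨0, 0, 0, 0, 0, 100000, 0, 0, 0, ⟨0, 0⟩, 0⟩, 0, 0⟩ 0 0) (.cut .d (-131072) (.void 31 ⟨⟨0, 0, 0, 0, 0, 100000, 0, 0, 0, ⟨0, 0⟩, 0⟩, 0, 0⟩ 0 0) (.cut .v 17039360 (.cut .s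 10682368 (.cut .d (-65536) (.cut .l 307582 (.void 33 ⟨⟨0, 0, 0, 0, 0, 100000, 0, 0, 0, ⟨0, 0⟩, 0⟩, 0, 0⟩ 0 0) (.cut .v 16908288 (.pos 35 .mp ⟨⟨186246, 0, 0, 0, 0, 23220773, 0, 0, 0, ⟨0, 0⟩, 0⟩, 0, 0⟩ 0 0) (.cut .s 10584064 (.cut .d (-98304) (.cut .s 10534912 (.pos 36 .mp ⟨⟨3877254, 0, 0, 0, 0, 16912684, 0, 0, 0, ⟨0, 0⟩, 0⟩, 0, 0⟩ 0 0) (.cut .s 10559488 (.pos 36 .mp ⟨⟨4039414, 0, 0, 0, 0, 17158884, 0, 0, 0, ⟨0, 0⟩, 0⟩, 0, 0⟩ 0 0) (.pos 36 .mp ⟨⟨4122812, 0, 0, 0, 0, 17381664, 0, 0, 0, ⟨0, 0⟩, 0⟩, 0, 0⟩ 0 0))) (.cut .s 10534912 (.pos 36 .mp ⟨⟨4230122, 0, 0, 0, 0, 15384694, 0, 0, 0, ⟨0, 0⟩, 0⟩, 0, 0⟩ 0 0) (.pos 36 .mp ⟨⟨4376643,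 0, 0, 0, 0, 15822117, 0, 0, 0, ⟨0, 0⟩, 0⟩, 0, 0⟩ 0 0))) (.cut .d (-98304) (.cut .d (-114688) (.pos 36 .mp ⟨⟨4394637, 0, 0, 0, 0, 18609787, 0, 0, 0, ⟨0, 0⟩, 0⟩, 0, 0⟩ 0 0) (.cut .s 10633216 (.pos 36 .mp ⟨⟨4286103, 0, 0, 0, 0, 17172062, 0, 0, 0, ⟨0, 0⟩, 0⟩, 0, 0⟩ 0 0) (.pos 36 .mp ⟨⟨4457075, 0, 0, 0, 0, 17632550, 0, 0, 0, ⟨0, 0⟩, 0⟩, 0, 0⟩ 0 0))) (.cut .s 10633216 (.pos 36 .mp ⟨⟨4535358, 0, 0, 0, 0, 16264998, 0, 0, 0, ⟨0, 0⟩, 0⟩, 0, 0⟩ 0 0) (.pos 36 .mp ⟨⟨4707112, 0, 0, 0, 0, 16711746, 0, 0, 0, ⟨0, 0⟩, 0⟩, 0, 0⟩ 0 0)))))) (.cut .l 307582 (.cut .v 16908288 (.cut .s 10584064 (.cut .d (-32768) (.cut .s 10534912 (.pos 35 .mp ⟨⟨3230510,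 0, 0, 0, 0, 17317266, 0, 0, 0, ⟨0, 0⟩, 0⟩, 0, 0⟩ 0 0) (.pos 35 .mp ⟨⟨3370603, 0, 0, 0, 0, 17751267, 0, 0, 0, ⟨0, 0⟩, 0⟩, 0, 0⟩ 0 0)) (.cut .s 10534912 (.pos 35 .mp ⟨⟨3617808, 0, 0, 0, 0, 15891582, 0, 0, 0, ⟨0, 0⟩, 0⟩, 0, 0⟩ 0 0) (.cut .s 10559488 (.pos 35 .mp ⟨⟨3631688, 0, 0, 0, 0, 16453565, 0, 0, 0, ⟨0, 0⟩, 0⟩, 0, 0⟩ 0 0) (.pos 35 .mp ⟨⟨3713053, 0, 0, 0, 0, 16650385, 0, 0, 0, ⟨0, 0⟩, 0⟩, 0, 0⟩ 0 0)))) (.cut .d (-32768) (.cut .s 10633216 (.pos 35 .mp ⟨⟨3516132, 0, 0, 0, 0, 18209056, 0, 0, 0, ⟨0, 0⟩, 0⟩, 0, 0⟩ 0 0) (.pos 35 .mp ⟨⟨3667211, 0, 0, 0, 0, 18691254, 0, 0, 0, ⟨0, 0⟩, 0⟩, 0, 0⟩ 0 0)) (.cut .v 16842752 (.cut .l 153791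 (.cut .d (-16384) (.pos 41 .mp ⟨⟨3410236, 0, 0, 0, 0, 18806829, 0, 0, 0, ⟨0, 0⟩, 0⟩, 0, 0⟩ 0 0) (.cut .s 10633216 (.pos 41 .mp ⟨⟨3663600, 0, 0, 0, 0, 17165963, 0, 0, 0, ⟨0, 0⟩, 0⟩, 0, 0⟩ 0 0) (.pos 41 .mp ⟨⟨3831022, 0, 0, 0, 0, 17593893, 0, 0, 0, ⟨0, 0⟩, 0⟩, 0, 0⟩ 0 0))) (.pos 41 .mp ⟨⟨3858082, 0, 0, 0, 0, 16195779, 0, 0, 0, ⟨0, 0⟩, 0⟩, 0, 0⟩ 0 0)) (.pos 42 .mp ⟨⟨12818596, 0, 0, 0, 0, 0, 0, 0, 0, ⟨0, 0⟩, 0⟩, 0, 0⟩ 0 0)))) (.pos 36 .mp ⟨⟨16597643, 0, 0, 0, 0, 0, 0, 0, 0, ⟨0, 0⟩, 0⟩, 0, 0⟩ 0 0)) (.pos 33 .mp ⟨⟨4311267, 0, 0, 0, 0, 14488493, 0, 0, 0, ⟨0, 0⟩, 0⟩, 0, 0⟩ 0 0))) (.cut .d (-65536) (.cut .l 307582 (.void 33 ⟨⟨0,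 0, 0, 0, 0, 100000, 0, 0, 0, ⟨0, 0⟩, 0⟩, 0, 0⟩ 0 0) (.cut .v 16908288 (.pos 35 .mp ⟨⟨0, 0, 0, 0, 0, 26659030, 0, 0, 0, ⟨0, 0⟩, 0⟩, 0, 0⟩ 0 0) (.cut .s 10780672 (.cut .d (-98304) (.cut .d (-114688) (.pos 36 .mp ⟨⟨4752706, 0, 0, 0, 0, 19575851, 0, 0, 0, ⟨0, 0⟩, 0⟩, 0, 0⟩ 0 0) (.cut .s 10731520 (.pos 36 .mp ⟨⟨4627431, 0, 0, 0, 0, 18131391, 0, 0, 0, ⟨0, 0⟩, 0⟩, 0, 0⟩ 0 0) (.pos 36 .mp ⟨⟨4796402, 0, 0, 0, 0, 18671179, 0, 0, 0, ⟨0, 0⟩, 0⟩, 0, 0⟩ 0 0))) (.cut .s 10731520 (.pos 36 .mp ⟨⟨4892764, 0, 0, 0, 0, 17160740, 0, 0, 0, ⟨0, 0⟩, 0⟩, 0, 0⟩ 0 0) (.pos 36 .mp ⟨⟨5093184, 0, 0, 0, 0, 17610327, 0, 0, 0, ⟨0, 0⟩, 0⟩, 0, 0⟩ 0 0))) (.cut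 .d (-98304) (.cut .s 10829824 (.pos 36 .mp ⟨⟨4945890, 0, 0, 0, 0, 19712483, 0, 0, 0, ⟨0, 0⟩, 0⟩, 0, 0⟩ 0 0) (.pos 36 .mp ⟨⟨5147286, 0, 0, 0, 0, 20214878, 0, 0, 0, ⟨0, 0⟩, 0⟩, 0, 0⟩ 0 0)) (.cut .s 10829824 (.pos 36 .mp ⟨⟨5309260, 0, 0, 0, 0, 18058820, 0, 0, 0, ⟨0, 0⟩, 0⟩, 0, 0⟩ 0 0) (.pos 36 .mp ⟨⟨5541892, 0, 0, 0, 0, 18504497, 0, 0, 0, ⟨0, 0⟩, 0⟩, 0, 0⟩ 0 0)))))) (.cut .l 307582 (.cut .v 16908288 (.cut .s 10780672 (.cut .d (-32768) (.cut .s 10731520 (.pos 35 .mp ⟨⟨3823956, 0, 0, 0, 0, 19198507, 0, 0, 0, ⟨0, 0⟩, 0⟩, 0, 0⟩ 0 0) (.pos 35 .mp ⟨⟨3986488, 0, 0, 0, 0, 19731477, 0, 0, 0, ⟨0, 0⟩, 0⟩, 0, 0⟩ 0 0)) (.cut .v 16842752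 (.cut .l 153791 (.cut .d (-16384) (.pos 41 .mp ⟨⟨3710153, 0, 0, 0, 0, 19849307, 0, 0, 0, ⟨0, 0⟩, 0⟩, 0, 0⟩ 0 0) (.cut .s 10731520 (.pos 41 .mp ⟨⟨4000540, 0, 0, 0, 0, 18050049, 0, 0, 0, ⟨0, 0⟩, 0⟩, 0, 0⟩ 0 0) (.pos 41 .mp ⟨⟨4171777, 0, 0, 0, 0, 18535694, 0, 0, 0, ⟨0, 0⟩, 0⟩, 0, 0⟩ 0 0))) (.pos 41 .mp ⟨⟨4176995, 0, 0, 0, 0, 17113646, 0, 0, 0, ⟨0, 0⟩, 0⟩, 0, 0⟩ 0 0)) (.pos 42 .mp ⟨⟨13578998, 0, 0, 0, 0, 0, 0, 0, 0, ⟨0, 0⟩, 0⟩, 0, 0⟩ 0 0))) (.cut .d (-32768) (.cut .s 10829824 (.pos 35 .mp ⟨⟨4154933, 0, 0, 0, 0, 20290850, 0, 0, 0, ⟨0, 0⟩, 0⟩, 0, 0⟩ 0 0) (.pos 35 .mp ⟨⟨4329418, 0, 0, 0, 0, 20877332, 0, 0, 0, ⟨0, 0⟩, 0⟩, 0, 0⟩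 0 0)) (.cut .v 16842752 (.cut .l 153791 (.cut .d (-16384) (.pos 41 .mp ⟨⟨4032778, 0, 0, 0, 0, 20996332, 0, 0, 0, ⟨0, 0⟩, 0⟩, 0, 0⟩ 0 0) (.cut .s 10829824 (.pos 41 .mp ⟨⟨4344333, 0, 0, 0, 0, 19052151, 0, 0, 0, ⟨0, 0⟩, 0⟩, 0, 0⟩ 0 0) (.pos 41 .mp ⟨⟨4517783, 0, 0, 0, 0, 19600800, 0, 0, 0, ⟨0, 0⟩, 0⟩, 0, 0⟩ 0 0))) (.pos 41 .mp ⟨⟨3836820, 0, 0, 0, 0, 19442658, 0, 0, 0, ⟨0, 0⟩, 0⟩, 0, 0⟩ 0 0)) (.pos 42 .mp ⟨⟨6600486, 0, 0, 0, 0, 15693353, 0, 0, 0, ⟨0, 0⟩, 0⟩, 0, 0⟩ 0 0)))) (.pos 36 .mp ⟨⟨18412388, 0, 0, 0, 0, 0, 0, 0, 0, ⟨0, 0⟩, 0⟩, 0, 0⟩ 0 0)) (.cut .s 10780672 (.pos 33 .mp ⟨⟨4664451, 0, 0, 0, 0, 16593894, 0, 0, 0, ⟨0, 0⟩, 0⟩,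 0, 0⟩ 0 0) (.pos 33 .mp ⟨⟨5045685, 0, 0, 0, 0, 17505871, 0, 0, 0, ⟨0, 0⟩, 0⟩, 0, 0⟩ 0 0))))) (.pos 34 .mp ⟨⟨17560434, 0, 0, 0, 0, 0, 0, 0, 0, ⟨0, 0⟩, 0⟩, 0, 0⟩ 0 0))))) (.pos 32 .mp ⟨⟨24454680, 0, 0, 0, 0, 0, 0, 0, 0, ⟨0, 0⟩, 0⟩, 0, 0⟩ 0 0)))) (.void 30 ⟨⟨100000, 0, 0, 0, 0, 0, 0, 0, 0, ⟨0, 0⟩, 0⟩, 0, 0⟩ 0 0))) (.void 28 ⟨⟨100000, 0, 0, 0, 0, 0, 0, 0, 0, ⟨0, 0⟩, 0⟩, 0, 0⟩ 0 0))) (.void 26 ⟨⟨100000, 0, 0, 0, 0, 0, 0, 0, 0, ⟨0, 0⟩, 0⟩, 0, 0⟩ 0 0)) (.void 24 ⟨⟨100000, 0, 0, 0, 0, 0, 0, 0, 0, ⟨0, 0⟩, 0⟩, 0, 0⟩ 0 0))) (.cut .v 16777216 (.cut .d 5009048 (.cut .d 2504524 (.cut .v 8388608 (.cut .v 4194304 (.void 4 ⟨⟨0, 0, 0, 0,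 100000, 0, 0, 0, 0, ⟨0, 0⟩, 0⟩, 0, 0⟩ 0 0) (.pos 5 .pm ⟨⟨0, 0, 6306664, 0, 0, 0, 0, 0, 4353574, ⟨0, 0⟩, 9975792⟩, 0, 0⟩ 0 0)) (.cut .v 12582912 (.cut .v 10485760 (.pos 10 .pm ⟨⟨0, 0, 0, 0, 0, 0, 0, 0, 0, ⟨0, 0⟩, 0⟩, 0, 0⟩ 0 0) (.pos 11 .pm ⟨⟨0, 0, 0, 0, 0, 0, 0, 0, 0, ⟨0, 0⟩, 0⟩, 0, 0⟩ 0 0)) (.pos 9 .pm ⟨⟨0, 0, 0, 0, 0, 0, 0, 0, 0, ⟨0, 0⟩, 0⟩, 0, 0⟩ 0 0))) (.void 1 ⟨⟨0, 0, 0, 0, 0, 0, 0, 0, 0, ⟨0, 0⟩, 0⟩, 0, 100000⟩ 0 0)) (.void 1 ⟨⟨0, 0, 0, 0, 0, 0, 0, 0, 0, ⟨0, 0⟩, 0⟩, 0, 100000⟩ 0 0)) (.cut .d 5009048 (.cut .v 25165824 (.cut .d 2504524 (.cut .v 20971520 (.cut .v 18874368 (.pos 27 .pp ⟨⟨6600017, 0, 0, 0, 0, 0, 0, 0, 0,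 ⟨0, 0⟩, 0⟩, 597607, 0⟩ 0 0) (.pos 28 .pp ⟨⟨15662959, 0, 0, 0, 0, 0, 0, 0, 0, ⟨0, 0⟩, 0⟩, 0, 93453⟩ 0 0)) (.pos 26 .pp ⟨⟨24719964, 0, 0, 0, 0, 0, 0, 0, 0, ⟨0, 0⟩, 0⟩, 0, 50282⟩ 0 0)) (.void 23 ⟨⟨0, 0, 0, 0, 0, 0, 0, 0, 0, ⟨0, 0⟩, 0⟩, 0, 100000⟩ 0 0)) (.pos 24 .pp ⟨⟨0, 0, 0, 0, 0, 0, 21552000, 0, 0, ⟨0, 0⟩, 0⟩, 7757074, 0⟩ 0 0)) (.void 22 ⟨⟨0, 0, 0, 0, 0, 0, 0, 0, 0, ⟨0, 0⟩, 0⟩, 0, 100000⟩ 0 0)))),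
    by decide +kernel⟩

def covers15 : cell.Covers Vale.Agent.P237.Petty.Cor.Grid.N6.table row15.1 :=
  ⟨(.cut .d 0 (.cut .v 16777216 (.cut .v 8388608 (.void 2 ⟨⟨0, 0, 100000, 0, 0, 0, 0, 0, 0, ⟨0, 0⟩, 0⟩, 0, 0⟩ 0 0) (.cut .d (-8388608) (.void 3 ⟨⟨0, 0, 0, 0, 0, 100000, 0, 0, 0, ⟨0, 0⟩, 0⟩, 0, 0⟩ 0 0) (.cut .d (-4194304) (.void 3 ⟨⟨0, 0, 0, 0, 0, 100000, 0, 0, 0, ⟨0, 0⟩, 0⟩, 0, 0⟩ 0 0) (.cut .d (-2097152) (.void 3 ⟨⟨0, 0, 0, 0, 0, 100000, 0, 0, 0, ⟨0, 0⟩, 0⟩, 0, 0⟩ 0 0) (.cut .d (-1048576) (.void 3 ⟨⟨0, 0, 0, 0, 0, 100000, 0, 0, 0, ⟨0, 0⟩, 0⟩, 0, 0⟩ 0 0) (.cut .d (-524288) (.void 3 ⟨⟨0, 0, 0, 0, 0, 100000, 0, 0, 0, ⟨0, 0⟩,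 0⟩, 0, 0⟩ 0 0) (.cut .d (-262144) (.void 3 ⟨⟨0, 0, 0, 0, 0, 100000, 0, 0, 0, ⟨0, 0⟩, 0⟩, 0, 0⟩ 0 0) (.cut .d (-131072) (.void 3 ⟨⟨0, 0, 0, 0, 0, 100000, 0, 0, 0, ⟨0, 0⟩, 0⟩, 0, 0⟩ 0 0) (.cut .v 12582912 (.cut .v 10485760 (.pos 10 .mm ⟨⟨0, 0, 0, 0, 0, 5346857, 0, 0, 0, ⟨0, 0⟩, 0⟩, 0, 0⟩ 0 0) (.pos 11 .mm ⟨⟨0, 0, 0, 0, 0, 6773019, 0, 0, 0, ⟨0, 0⟩, 0⟩, 0, 0⟩ 0 0)) (.cut .s 11108352 (.pos 9 .mm ⟨⟨0, 0, 0, 0, 0, 29732606, 0, 0, 0, ⟨0, 0⟩, 0⟩, 0, 0⟩ 0 0) (.cut .s 11223040 (.pos 9 .mm ⟨⟨0, 0, 0, 0, 0, 33208061, 0, 0, 0, ⟨0, 0⟩, 0⟩, 0, 0⟩ 0 0) (.pos 9 .mm ⟨⟨0, 0, 0, 0, 0, 35754204, 0, 0, 0, ⟨0, 0⟩, 0⟩, 0, 0⟩ 0 0)))))))))))) (.cut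 .v 25165824 (.cut .v 20971520 (.cut .d (-8388608) (.void 25 ⟨⟨0, 0, 0, 0, 0, 100000, 0, 0, 0, ⟨0, 0⟩, 0⟩, 0, 0⟩ 0 0) (.cut .v 18874368 (.cut .d (-4194304) (.void 27 ⟨⟨100000, 0, 0, 0, 0, 0, 0, 0, 0, ⟨0, 0⟩, 0⟩, 0, 0⟩ 0 0) (.cut .v 17825792 (.cut .d (-2097152) (.void 29 ⟨⟨100000, 0, 0, 0, 0, 0, 0, 0, 0, ⟨0, 0⟩, 0⟩, 0, 0⟩ 0 0) (.cut .d (-1048576) (.void 29 ⟨⟨100000, 0, 0, 0, 0, 0, 0, 0, 0, ⟨0, 0⟩, 0⟩, 0, 0⟩ 0 0) (.cut .v 17301504 (.cut .d (-524288) (.void 31 ⟨⟨100000, 0, 0, 0, 0, 0, 0, 0, 0, ⟨0, 0⟩, 0⟩, 0, 0⟩ 0 0) (.cut .d (-262144) (.void 31 ⟨⟨0, 0, 0, 0, 0, 100000, 0, 0, 0, ⟨0, 0⟩, 0⟩, 0, 0⟩ 0 0) (.cut .d (-131072) (.void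 31 ⟨⟨0, 0, 0, 0, 0, 100000, 0, 0, 0, ⟨0, 0⟩, 0⟩, 0, 0⟩ 0 0) (.cut .v 17039360 (.cut .s 11108352 (.cut .d (-65536) (.cut .l 307582 (.void 33 ⟨⟨0, 0, 0, 0, 0, 100000, 0, 0, 0, ⟨0, 0⟩, 0⟩, 0, 0⟩ 0 0) (.cut .v 16908288 (.pos 35 .mp ⟨⟨0, 0, 0, 0, 0, 31028546, 0, 0, 0, ⟨0, 0⟩, 0⟩, 0, 0⟩ 0 0) (.cut .d (-98304) (.cut .d (-114688) (.void 36 ⟨⟨0, 0, 0, 0, 0, 100000, 0, 0, 0, ⟨0, 0⟩, 0⟩, 0, 0⟩ 0 0) (.cut .d (-106496) (.pos 36 .mp ⟨⟨5464231, 0, 0, 0, 0, 26849807, 0, 0, 0, ⟨0, 0⟩, 0⟩, 0, 0⟩ 0 0) (.cut .s 10993664 (.pos 36 .mp ⟨⟨5509078, 0, 0, 0, 0, 21211009, 0, 0, 0, ⟨0, 0⟩, 0⟩, 0, 0⟩ 0 0) (.cut .s 11051008 (.pos 36 .mp ⟨⟨6088846, 0,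 0, 0, 0, 21181772, 0, 0, 0, ⟨0, 0⟩, 0⟩, 0, 0⟩ 0 0) (.cut .s 11079680 (.pos 36 .mp ⟨⟨6157761, 0, 0, 0, 0, 22623399, 0, 0, 0, ⟨0, 0⟩, 0⟩, 0, 0⟩ 0 0) (.pos 36 .mp ⟨⟨6301838, 0, 0, 0, 0, 22949410, 0, 0, 0, ⟨0, 0⟩, 0⟩, 0, 0⟩ 0 0)))))) (.cut .s 10993664 (.cut .s 10936320 (.pos 36 .mp ⟨⟨5934869, 0, 0, 0, 0, 18800820, 0, 0, 0, ⟨0, 0⟩, 0⟩, 0, 0⟩ 0 0) (.cut .s 10964992 (.pos 36 .mp ⟨⟨5845607, 0, 0, 0, 0, 19799064, 0, 0, 0, ⟨0, 0⟩, 0⟩, 0, 0⟩ 0 0) (.pos 36 .mp ⟨⟨5962441, 0, 0, 0, 0, 20121235, 0, 0, 0, ⟨0, 0⟩, 0⟩, 0, 0⟩ 0 0))) (.cut .s 11051008 (.cut .s 11022336 (.pos 36 .mp ⟨⟨6084977, 0, 0, 0, 0, 20445555, 0, 0, 0, ⟨0, 0⟩, 0⟩, 0, 0⟩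 0 0) (.pos 36 .mp ⟨⟨6213452, 0, 0, 0, 0, 20771576, 0, 0, 0, ⟨0, 0⟩, 0⟩, 0, 0⟩ 0 0)) (.cut .s 11079680 (.pos 36 .mp ⟨⟨6348102, 0, 0, 0, 0, 21098845, 0, 0, 0, ⟨0, 0⟩, 0⟩, 0, 0⟩ 0 0) (.pos 36 .mp ⟨⟨6489169, 0, 0, 0, 0, 21426903, 0, 0, 0, ⟨0, 0⟩, 0⟩, 0, 0⟩ 0 0))))))) (.cut .l 307582 (.cut .v 16908288 (.cut .s 10993664 (.cut .d (-32768) (.cut .s 10936320 (.pos 35 .mp ⟨⟨4510567, 0, 0, 0, 0, 21594750, 0, 0, 0, ⟨0, 0⟩, 0⟩, 0, 0⟩ 0 0) (.pos 35 .mp ⟨⟨4730964, 0, 0, 0, 0, 22205785, 0, 0, 0, ⟨0, 0⟩, 0⟩, 0, 0⟩ 0 0)) (.cut .l 153791 (.cut .v 16842752 (.cut .d (-16384) (.pos 41 .mp ⟨⟨4379553, 0, 0, 0, 0, 22476735, 0, 0, 0, ⟨0, 0⟩, 0⟩,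 0, 0⟩ 0 0) (.cut .s 10936320 (.pos 41 .mp ⟨⟨4750961, 0, 0, 0, 0, 20114766, 0, 0, 0, ⟨0, 0⟩, 0⟩, 0, 0⟩ 0 0) (.cut .s 10964992 (.pos 41 .mp ⟨⟨4947691, 0, 0, 0, 0, 20614571, 0, 0, 0, ⟨0, 0⟩, 0⟩, 0, 0⟩ 0 0) (.pos 41 .mp ⟨⟨5044306, 0, 0, 0, 0, 20947795, 0, 0, 0, ⟨0, 0⟩, 0⟩, 0, 0⟩ 0 0)))) (.pos 42 .mp ⟨⟨20173077, 0, 0, 0, 0, 0, 0, 0, 0, ⟨0, 0⟩, 0⟩, 0, 0⟩ 0 0)) (.pos 35 .mp ⟨⟨5124236, 0, 0, 0, 0, 18959094, 0, 0, 0, ⟨0, 0⟩, 0⟩, 0, 0⟩ 0 0))) (.cut .d (-32768) (.cut .s 11051008 (.pos 35 .mp ⟨⟨4961481, 0, 0, 0, 0, 22859597, 0, 0, 0, ⟨0, 0⟩, 0⟩, 0, 0⟩ 0 0) (.pos 35 .mp ⟨⟨5202385, 0, 0, 0, 0, 23557582, 0, 0, 0, ⟨0, 0⟩, 0⟩, 0, 0⟩ 0 0))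 (.cut .l 153791 (.cut .v 16842752 (.cut .s 11051008 (.cut .s 11022336 (.pos 41 .mp ⟨⟨5144778, 0, 0, 0, 0, 21288643, 0, 0, 0, ⟨0, 0⟩, 0⟩, 0, 0⟩ 0 0) (.pos 41 .mp ⟨⟨5213194, 0, 0, 0, 0, 21721084, 0, 0, 0, ⟨0, 0⟩, 0⟩, 0, 0⟩ 0 0)) (.cut .s 11079680 (.pos 41 .mp ⟨⟨5294113, 0, 0, 0, 0, 22141713, 0, 0, 0, ⟨0, 0⟩, 0⟩, 0, 0⟩ 0 0) (.pos 41 .mp ⟨⟨5387962, 0, 0, 0, 0, 22549677, 0, 0, 0, ⟨0, 0⟩, 0⟩, 0, 0⟩ 0 0))) (.pos 42 .mp ⟨⟨21445517, 0, 0, 0, 0, 0, 0, 0, 0, ⟨0, 0⟩, 0⟩, 0, 0⟩ 0 0)) (.pos 35 .mp ⟨⟨5628390, 0, 0, 0, 0, 20139668, 0, 0, 0, ⟨0, 0⟩, 0⟩, 0, 0⟩ 0 0)))) (.pos 36 .mp ⟨⟨20871969, 0, 0, 0, 0, 0, 0, 0, 0, ⟨0, 0⟩, 0⟩, 0, 0⟩ 0 0))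 (.cut .d (-32768) (.cut .d (-49152) (.cut .l 461373 (.cut .s 10993664 (.pos 33 .mp ⟨⟨5583751, 0, 0, 0, 0, 18683080, 0, 0, 0, ⟨0, 0⟩, 0⟩, 0, 0⟩ 0 0) (.cut .s 11051008 (.pos 33 .mp ⟨⟨5849339, 0, 0, 0, 0, 20068313, 0, 0, 0, ⟨0, 0⟩, 0⟩, 0, 0⟩ 0 0) (.pos 33 .mp ⟨⟨6126715, 0, 0, 0, 0, 20651908, 0, 0, 0, ⟨0, 0⟩, 0⟩, 0, 0⟩ 0 0))) (.pos 33 .mp ⟨⟨5949006, 0, 0, 0, 0, 0, 0, 0, 0, ⟨0, 0⟩, 0⟩, 0, 0⟩ 0 0)) (.pos 33 .mp ⟨⟨5876371, 0, 0, 0, 0, 0, 0, 0, 0, ⟨0, 0⟩, 0⟩, 0, 0⟩ 0 0)) (.pos 33 .mp ⟨⟨5158524, 0, 0, 0, 0, 0, 0, 0, 0, ⟨0, 0⟩, 0⟩, 0, 0⟩ 0 0)))) (.cut .d (-65536) (.cut .l 307582 (.void 33 ⟨⟨0, 0, 0, 0, 0, 100000, 0, 0, 0, ⟨0, 0⟩,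 0⟩, 0, 0⟩ 0 0) (.cut .v 16908288 (.pos 35 .mp ⟨⟨0, 0, 0, 0, 0, 35771384, 0, 0, 0, ⟨0, 0⟩, 0⟩, 0, 0⟩ 0 0) (.cut .d (-98304) (.cut .s 11223040 (.cut .s 11165696 (.cut .s 11137024 (.pos 36 .mp ⟨⟨6449025, 0, 0, 0, 0, 23436134, 0, 0, 0, ⟨0, 0⟩, 0⟩, 0, 0⟩ 0 0) (.pos 36 .mp ⟨⟨6599365, 0, 0, 0, 0, 23786433, 0, 0, 0, ⟨0, 0⟩, 0⟩, 0, 0⟩ 0 0)) (.pos 36 .mp ⟨⟨6752901, 0, 0, 0, 0, 24658184, 0, 0, 0, ⟨0, 0⟩, 0⟩, 0, 0⟩ 0 0)) (.pos 36 .mp ⟨⟨7069740, 0, 0, 0, 0, 26413391, 0, 0, 0, ⟨0, 0⟩, 0⟩, 0, 0⟩ 0 0)) (.cut .s 11223040 (.cut .s 11165696 (.cut .s 11137024 (.pos 36 .mp ⟨⟨6636896, 0, 0, 0, 0, 21755287, 0, 0, 0, ⟨0, 0⟩, 0⟩, 0, 0⟩ 0 0) (.pos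 36 .mp ⟨⟨6791528, 0, 0, 0, 0, 22083525, 0, 0, 0, ⟨0, 0⟩, 0⟩, 0, 0⟩ 0 0)) (.cut .s 11194368 (.pos 36 .mp ⟨⟨6953315, 0, 0, 0, 0, 22411141, 0, 0, 0, ⟨0, 0⟩, 0⟩, 0, 0⟩ 0 0) (.pos 36 .mp ⟨⟨7122509, 0, 0, 0, 0, 22737652, 0, 0, 0, ⟨0, 0⟩, 0⟩, 0, 0⟩ 0 0))) (.cut .l 461373 (.pos 36 .mp ⟨⟨6712974, 0, 0, 0, 0, 26607509, 0, 0, 0, ⟨0, 0⟩, 0⟩, 0, 0⟩ 0 0) (.cut .s 11280384 (.cut .s 11251712 (.pos 36 .mp ⟨⟨7214526, 0, 0, 0, 0, 23175514, 0, 0, 0, ⟨0, 0⟩, 0⟩, 0, 0⟩ 0 0) (.pos 36 .mp ⟨⟨7390030, 0, 0, 0, 0, 23510996, 0, 0, 0, ⟨0, 0⟩, 0⟩, 0, 0⟩ 0 0)) (.pos 36 .mp ⟨⟨7866757, 0, 0, 0, 0, 23451806, 0, 0, 0, ⟨0, 0⟩, 0⟩, 0, 0⟩ 0 0))))))) (.cut .s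 11223040 (.cut .l 307582 (.cut .v 16908288 (.cut .d (-32768) (.cut .s 11165696 (.pos 35 .mp ⟨⟨5453956, 0, 0, 0, 0, 24301188, 0, 0, 0, ⟨0, 0⟩, 0⟩, 0, 0⟩ 0 0) (.pos 35 .mp ⟨⟨5716484, 0, 0, 0, 0, 25091925, 0, 0, 0, ⟨0, 0⟩, 0⟩, 0, 0⟩ 0 0)) (.cut .l 153791 (.cut .v 16842752 (.cut .s 11165696 (.cut .s 11137024 (.pos 41 .mp ⟨⟨5495167, 0, 0, 0, 0, 22944120, 0, 0, 0, ⟨0, 0⟩, 0⟩, 0, 0⟩ 0 0) (.pos 41 .mp ⟨⟨5616151, 0, 0, 0, 0, 23324188, 0, 0, 0, ⟨0, 0⟩, 0⟩, 0, 0⟩ 0 0)) (.cut .s 11194368 (.pos 41 .mp ⟨⟨5751340, 0, 0, 0, 0, 23689026, 0, 0, 0, ⟨0, 0⟩, 0⟩, 0, 0⟩ 0 0) (.pos 41 .mp ⟨⟨5901160, 0, 0, 0, 0, 24037777, 0, 0, 0, ⟨0, 0⟩, 0⟩, 0,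 0⟩ 0 0))) (.pos 42 .mp ⟨⟨22809940, 0, 0, 0, 0, 0, 0, 0, 0, ⟨0, 0⟩, 0⟩, 0, 0⟩ 0 0)) (.pos 35 .mp ⟨⟨6177696, 0, 0, 0, 0, 21402232, 0, 0, 0, ⟨0, 0⟩, 0⟩, 0, 0⟩ 0 0))) (.pos 36 .mp ⟨⟨23175301, 0, 0, 0, 0, 0, 0, 0, 0, ⟨0, 0⟩, 0⟩, 0, 0⟩ 0 0)) (.cut .s 11165696 (.pos 33 .mp ⟨⟨6416203, 0, 0, 0, 0, 21107178, 0, 0, 0, ⟨0, 0⟩, 0⟩, 0, 0⟩ 0 0) (.pos 33 .mp ⟨⟨6718135, 0, 0, 0, 0, 21756119, 0, 0, 0, ⟨0, 0⟩, 0⟩, 0, 0⟩ 0 0))) (.cut .l 307582 (.cut .v 16908288 (.cut .d (-32768) (.cut .s 11280384 (.pos 35 .mp ⟨⟨5990273, 0, 0, 0, 0, 25931358, 0, 0, 0, ⟨0, 0⟩, 0⟩, 0, 0⟩ 0 0) (.pos 35 .mp ⟨⟨6275639, 0, 0, 0, 0, 26821121, 0, 0, 0, ⟨0, 0⟩, 0⟩, 0,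 0⟩ 0 0)) (.cut .l 153791 (.cut .v 16842752 (.cut .d (-16384) (.pos 41 .mp ⟨⟨5819359, 0, 0, 0, 0, 27131190, 0, 0, 0, ⟨0, 0⟩, 0⟩, 0, 0⟩ 0 0) (.cut .l 76895 (.cut .v 16809984 (.cut .d (-8192) (.pos 45 .mp ⟨⟨5734931, 0, 0, 0, 0, 27213529, 0, 0, 0, ⟨0, 0⟩, 0⟩, 0, 0⟩ 0 0) (.cut .v 16793600 (.cut .l 38447 (.cut .d (-4096) (.pos 47 .mp ⟨⟨5692975, 0, 0, 0, 0, 27254289, 0, 0, 0, ⟨0, 0⟩, 0⟩, 0, 0⟩ 0 0) (.cut .v 16785408 (.cut .s 11280384 (.cut .s 11251712 (.pos 51 .mp ⟨⟨6313584, 0, 0, 0, 0, 23858237, 0, 0, 0, ⟨0, 0⟩, 0⟩, 0, 0⟩ 0 0) (.pos 51 .mp ⟨⟨6476799, 0, 0, 0, 0, 24215660, 0, 0, 0, ⟨0, 0⟩, 0⟩, 0, 0⟩ 0 0)) (.pos 51 .mp ⟨⟨6223726,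 0, 0, 0, 0, 25537814, 0, 0, 0, ⟨0, 0⟩, 0⟩, 0, 0⟩ 0 0)) (.pos 52 .mp ⟨⟨9860027, 0, 0, 0, 0, 18384720, 0, 0, 0, ⟨0, 0⟩, 0⟩, 0, 0⟩ 0 0))) (.pos 47 .mp ⟨⟨5626535, 0, 0, 0, 0, 24638885, 0, 0, 0, ⟨0, 0⟩, 0⟩, 0, 0⟩ 0 0)) (.pos 48 .mp ⟨⟨9812221, 0, 0, 0, 0, 18508005, 0, 0, 0, ⟨0, 0⟩, 0⟩, 0, 0⟩ 0 0))) (.pos 46 .mp ⟨⟨24070789, 0, 0, 0, 0, 0, 0, 0, 0, ⟨0, 0⟩, 0⟩, 0, 0⟩ 0 0)) (.pos 41 .mp ⟨⟨6487212, 0, 0, 0, 0, 23065102, 0, 0, 0, ⟨0, 0⟩, 0⟩, 0, 0⟩ 0 0))) (.pos 42 .mp ⟨⟨24260050, 0, 0, 0, 0, 0, 0, 0, 0, ⟨0, 0⟩, 0⟩, 0, 0⟩ 0 0)) (.pos 35 .mp ⟨⟨6774706, 0, 0, 0, 0, 22736852, 0, 0, 0, ⟨0, 0⟩, 0⟩, 0, 0⟩ 0 0))) (.pos 36 .mp ⟨⟨24641021, 0,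 0, 0, 0, 0, 0, 0, 0, ⟨0, 0⟩, 0⟩, 0, 0⟩ 0 0)) (.cut .s 11280384 (.pos 33 .mp ⟨⟨7032863, 0, 0, 0, 0, 22421665, 0, 0, 0, ⟨0, 0⟩, 0⟩, 0, 0⟩ 0 0) (.pos 33 .mp ⟨⟨7360750, 0, 0, 0, 0, 23102492, 0, 0, 0, ⟨0, 0⟩, 0⟩, 0, 0⟩ 0 0)))))) (.pos 34 .mp ⟨⟨22418880, 0, 0, 0, 0, 0, 0, 0, 0, ⟨0, 0⟩, 0⟩, 0, 0⟩ 0 0))))) (.pos 32 .mp ⟨⟨30766610, 0, 0, 0, 0, 0, 0, 0, 0, ⟨0, 0⟩, 0⟩, 0, 0⟩ 0 0)))) (.void 30 ⟨⟨100000, 0, 0, 0, 0, 0, 0, 0, 0, ⟨0, 0⟩, 0⟩, 0, 0⟩ 0 0))) (.void 28 ⟨⟨100000, 0, 0, 0, 0, 0, 0, 0, 0, ⟨0, 0⟩, 0⟩, 0, 0⟩ 0 0))) (.void 26 ⟨⟨100000, 0, 0, 0, 0, 0, 0, 0, 0, ⟨0, 0⟩, 0⟩, 0, 0⟩ 0 0)) (.void 24 ⟨⟨100000, 0, 0, 0, 0, 0, 0, 0, 0, ⟨0,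 0⟩, 0⟩, 0, 0⟩ 0 0))) (.cut .v 16777216 (.cut .d 4548041 (.cut .d 2274020 (.cut .v 8388608 (.cut .v 4194304 (.void 4 ⟨⟨0, 0, 50000, 0, 50000, 0, 0, 0, 0, ⟨0, 0⟩, 0⟩, 0, 0⟩ 0 0) (.pos 5 .pm ⟨⟨0, 0, 2653403, 0, 0, 0, 0, 0, 0, ⟨0, 0⟩, 0⟩, 0, 624828⟩ 0 0)) (.cut .v 12582912 (.cut .v 10485760 (.pos 10 .pm ⟨⟨0, 0, 0, 0, 0, 0, 0, 0, 0, ⟨0, 0⟩, 0⟩, 0, 0⟩ 0 0) (.pos 11 .pm ⟨⟨0, 0, 0, 0, 0, 0, 0, 0, 0, ⟨0, 0⟩, 0⟩, 0, 0⟩ 0 0)) (.pos 9 .pm ⟨⟨0, 0, 0, 0, 0, 0, 0, 0, 0, ⟨0, 0⟩, 0⟩, 0, 0⟩ 0 0))) (.void 1 ⟨⟨0, 0, 0, 0, 0, 0, 0, 0, 0, ⟨0, 0⟩, 0⟩, 0, 100000⟩ 0 0)) (.void 1 ⟨⟨0, 0, 0, 0, 0, 0, 0, 0, 0, ⟨0, 0⟩, 0⟩, 0, 100000⟩ 0 0)) (.cut .d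 4548041 (.cut .v 25165824 (.cut .d 2274020 (.cut .v 20971520 (.cut .v 18874368 (.pos 27 .pp ⟨⟨7935701, 0, 0, 0, 0, 0, 0, 0, 0, ⟨0, 0⟩, 0⟩, 1155605, 0⟩ 0 0) (.pos 28 .pp ⟨⟨20627573, 0, 0, 0, 0, 0, 0, 0, 0, ⟨0, 0⟩, 0⟩, 0, 90255⟩ 0 0)) (.pos 26 .pp ⟨⟨31772101, 0, 0, 0, 0, 0, 0, 0, 0, ⟨0, 0⟩, 0⟩, 0, 71238⟩ 0 0)) (.pos 23 .pp ⟨⟨0, 0, 0, 0, 0, 0, 0, 0, 0, ⟨0, 0⟩, 0⟩, 0, 76980421⟩ 0 0)) (.pos 24 .pp ⟨⟨0, 0, 0, 0, 0, 0, 24483732, 0, 0, ⟨0, 0⟩, 0⟩, 10228215, 0⟩ 0 0)) (.void 22 ⟨⟨0, 0, 0, 0, 0, 0, 0, 0, 0, ⟨0, 0⟩, 0⟩, 0, 100000⟩ 0 0)))),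
    by decide +kernel⟩

def covers16 : cell.Covers Vale.Agent.P237.Petty.Cor.Grid.N6.table row16.1 :=
  ⟨(.cut .d 0 (.cut .v 16777216 (.cut .v 8388608 (.void 2 ⟨⟨0, 0, 100000, 0, 0, 0, 0, 0, 0, ⟨0, 0⟩, 0⟩, 0, 0⟩ 0 0) (.cut .d (-8388608) (.void 3 ⟨⟨0, 0, 0, 0, 0, 100000, 0, 0, 0, ⟨0, 0⟩, 0⟩, 0, 0⟩ 0 0) (.cut .d (-4194304) (.void 3 ⟨⟨0, 0, 0, 0, 0, 100000, 0, 0, 0, ⟨0, 0⟩, 0⟩, 0, 0⟩ 0 0) (.cut .d (-2097152) (.void 3 ⟨⟨0, 0, 0, 0, 0, 100000, 0, 0, 0, ⟨0, 0⟩, 0⟩, 0, 0⟩ 0 0) (.cut .v 12582912 (.pos 8 .mm ⟨⟨0, 0, 0, 0, 0, 24187263, 0, 0, 0, ⟨0, 0⟩, 0⟩, 0, 0⟩ 0 0) (.cut .s 11534336 (.cut .d (-1048576) (.void 9 ⟨⟨0, 0, 0, 0, 0,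 100000, 0, 0, 0, ⟨0, 0⟩, 0⟩, 0, 0⟩ 0 0) (.cut .s 11436032 (.pos 9 .mm ⟨⟨0, 0, 0, 0, 0, 39886594, 0, 0, 0, ⟨0, 0⟩, 0⟩, 0, 0⟩ 0 0) (.pos 9 .mm ⟨⟨0, 0, 0, 0, 0, 43860009, 0, 0, 0, ⟨0, 0⟩, 0⟩, 0, 0⟩ 0 0))) (.pos 9 .mm ⟨⟨0, 0, 0, 0, 0, 53473418, 0, 0, 0, ⟨0, 0⟩, 0⟩, 0, 0⟩ 0 0))))))) (.cut .v 33554432 (.cut .v 25165824 (.cut .v 20971520 (.cut .d (-8388608) (.void 25 ⟨⟨100000, 0, 0, 0, 0, 0, 0, 0, 0, ⟨0, 0⟩, 0⟩, 0, 0⟩ 0 0) (.cut .v 18874368 (.cut .d (-4194304) (.void 27 ⟨⟨100000, 0, 0, 0, 0, 0, 0, 0, 0, ⟨0, 0⟩, 0⟩, 0, 0⟩ 0 0) (.cut .v 17825792 (.cut .d (-2097152) (.void 29 ⟨⟨100000, 0, 0, 0, 0, 0, 0, 0, 0, ⟨0, 0⟩, 0⟩, 0, 0⟩ 0 0)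 (.cut .s 11534336 (.cut .d (-1048576) (.void 29 ⟨⟨100000, 0, 0, 0, 0, 0, 0, 0, 0, ⟨0, 0⟩, 0⟩, 0, 0⟩ 0 0) (.cut .v 17301504 (.cut .s 11436032 (.cut .d (-524288) (.void 31 ⟨⟨100000, 0, 0, 0, 0, 0, 0, 0, 0, ⟨0, 0⟩, 0⟩, 0, 0⟩ 0 0) (.cut .v 17039360 (.cut .d (-262144) (.void 33 ⟨⟨0, 0, 0, 0, 0, 100000, 0, 0, 0, ⟨0, 0⟩, 0⟩, 0, 0⟩ 0 0) (.cut .s 11386880 (.cut .s 11362304 (.cut .d (-131072) (.void 33 ⟨⟨0, 0, 0, 0, 0, 100000, 0, 0, 0, ⟨0, 0⟩, 0⟩, 0, 0⟩ 0 0) (.cut .d (-65536) (.pos 33 .mp ⟨⟨6953719, 0, 0, 0, 0, 26943690, 0, 0, 0, ⟨0, 0⟩, 0⟩, 0, 0⟩ 0 0) (.cut .s 11350016 (.cut .s 11343872 (.pos 33 .mp ⟨⟨7811005, 0, 0, 0, 0, 23722713,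 0, 0, 0, ⟨0, 0⟩, 0⟩, 0, 0⟩ 0 0) (.pos 33 .mp ⟨⟨7661083, 0, 0, 0, 0, 24919270, 0, 0, 0, ⟨0, 0⟩, 0⟩, 0, 0⟩ 0 0)) (.pos 33 .mp ⟨⟨8243689, 0, 0, 0, 0, 24820371, 0, 0, 0, ⟨0, 0⟩, 0⟩, 0, 0⟩ 0 0)))) (.pos 33 .mp ⟨⟨9842195, 0, 0, 0, 0, 23602602, 0, 0, 0, ⟨0, 0⟩, 0⟩, 0, 0⟩ 0 0)) (.pos 33 .mp ⟨⟨14076682, 0, 0, 0, 0, 18736051, 0, 0, 0, ⟨0, 0⟩, 0⟩, 0, 0⟩ 0 0))) (.pos 34 .mp ⟨⟨28008766, 0, 0, 0, 0, 0, 0, 0, 0, ⟨0, 0⟩, 0⟩, 0, 0⟩ 0 0))) (.pos 31 .mp ⟨⟨14795667, 0, 0, 0, 0, 25549680, 0, 0, 0, ⟨0, 0⟩, 0⟩, 0, 0⟩ 0 0)) (.pos 32 .mp ⟨⟨33117494, 0, 0, 0, 0, 0, 0, 0, 0, ⟨0, 0⟩, 0⟩, 0, 0⟩ 0 0))) (.pos 29 .mp ⟨⟨16995024, 0, 0, 0, 0, 37704616, 0,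 0, 0, ⟨0, 0⟩, 0⟩, 0, 0⟩ 0 0))) (.void 30 ⟨⟨100000, 0, 0, 0, 0, 0, 0, 0, 0, ⟨0, 0⟩, 0⟩, 0, 0⟩ 0 0))) (.void 28 ⟨⟨100000, 0, 0, 0, 0, 0, 0, 0, 0, ⟨0, 0⟩, 0⟩, 0, 0⟩ 0 0))) (.void 26 ⟨⟨100000, 0, 0, 0, 0, 0, 0, 0, 0, ⟨0, 0⟩, 0⟩, 0, 0⟩ 0 0)) (.void 24 ⟨⟨100000, 0, 0, 0, 0, 0, 0, 0, 0, ⟨0, 0⟩, 0⟩, 0, 0⟩ 0 0)) (.void 89 ⟨⟨100000, 0, 0, 0, 0, 0, 0, 0, 0, ⟨0, 0⟩, 0⟩, 0, 0⟩ 0 0))) (.cut .v 16777216 (.cut .d 4024593 (.cut .v 8388608 (.cut .v 4194304 (.void 4 ⟨⟨0, 0, 50000, 0, 50000, 0, 0, 0, 0, ⟨0, 0⟩, 0⟩, 0, 0⟩ 0 0) (.pos 5 .pm ⟨⟨0, 0, 2084034, 0, 0, 0, 0, 0, 0, ⟨0, 0⟩, 0⟩, 0, 638930⟩ 0 0)) (.cut .v 12582912 (.pos 8 .pm ⟨⟨0, 0, 0,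 0, 0, 0, 0, 0, 0, ⟨0, 0⟩, 0⟩, 0, 0⟩ 0 0) (.pos 9 .pm ⟨⟨0, 0, 0, 0, 0, 0, 0, 0, 0, ⟨0, 0⟩, 0⟩, 0, 0⟩ 0 0))) (.void 1 ⟨⟨0, 0, 0, 0, 0, 0, 0, 0, 0, ⟨0, 0⟩, 0⟩, 0, 100000⟩ 0 0)) (.cut .v 33554432 (.cut .d 4024593 (.cut .v 25165824 (.cut .v 20971520 (.cut .v 18874368 (.pos 27 .pp ⟨⟨13396163, 0, 0, 0, 0, 0, 0, 0, 0, ⟨0, 0⟩, 0⟩, 0, 262797⟩ 0 0) (.pos 28 .pp ⟨⟨21394303, 0, 0, 0, 0, 0, 0, 0, 0, ⟨0, 0⟩, 0⟩, 0, 956401⟩ 0 0)) (.pos 26 .pp ⟨⟨30071705, 0, 0, 0, 0, 0, 5047465, 0, 0, ⟨0, 0⟩, 0⟩, 0, 0⟩ 0 0)) (.pos 24 .pp ⟨⟨0, 0, 0, 0, 0, 0, 4227776, 0, 0, ⟨0, 0⟩, 0⟩, 13423275, 0⟩ 0 0)) (.void 22 ⟨⟨0, 0, 0, 14084, 0, 0, 0, 0, 0, ⟨0, 0⟩, 0⟩,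 0, 85916⟩ 0 0)) (.pos 89 .pp ⟨⟨0, 0, 0, 0, 0, 0, 342903693, 0, 0, ⟨0, 0⟩, 0⟩, 26821351, 0⟩ 0 0)))),
    by decide +kernel⟩

def covers17 : cell.Covers Vale.Agent.P237.Petty.Cor.Grid.N6.table row17.1 :=
  ⟨(.cut .d 0 (.cut .v 16777216 (.cut .v 8388608 (.void 2 ⟨⟨0, 0, 100000, 0, 0, 0, 0, 0, 0, ⟨0, 0⟩, 0⟩, 0, 0⟩ 0 0) (.cut .d (-8388608) (.void 3 ⟨⟨0, 0, 0, 0, 0, 100000, 0, 0, 0, ⟨0, 0⟩, 0⟩, 0, 0⟩ 0 0) (.cut .d (-4194304) (.void 3 ⟨⟨0, 0, 0, 0, 0, 100000, 0, 0, 0, ⟨0, 0⟩, 0⟩, 0, 0⟩ 0 0) (.cut .v 12582912 (.pos 8 .mm ⟨⟨0, 0, 0, 0, 0, 37439427, 0, 0, 0, ⟨0, 0⟩, 0⟩, 0, 0⟩ 0 0) (.cut .d (-2097152) (.void 9 ⟨⟨0, 0, 0, 0, 0, 100000,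 0, 0, 0, ⟨0, 0⟩, 0⟩, 0, 0⟩ 0 0) (.cut .d (-1048576) (.void 9 ⟨⟨0, 0, 0, 0, 0, 100000, 0, 0, 0, ⟨0, 0⟩, 0⟩, 0, 0⟩ 0 0) (.pos 9 .mm ⟨⟨0, 0, 0, 0, 0, 56912251, 0, 0, 0, ⟨0, 0⟩, 0⟩, 0, 0⟩ 0 0))))))) (.cut .v 33554432 (.cut .v 25165824 (.cut .v 20971520 (.cut .d (-8388608) (.void 25 ⟨⟨100000, 0, 0, 0, 0, 0, 0, 0, 0, ⟨0, 0⟩, 0⟩, 0, 0⟩ 0 0) (.cut .v 18874368 (.cut .d (-4194304) (.void 27 ⟨⟨100000, 0, 0, 0, 0, 0, 0, 0, 0, ⟨0, 0⟩, 0⟩, 0, 0⟩ 0 0) (.cut .v 17825792 (.cut .d (-2097152) (.void 29 ⟨⟨100000, 0, 0, 0, 0, 0, 0, 0, 0, ⟨0, 0⟩, 0⟩, 0, 0⟩ 0 0) (.cut .d (-1048576) (.void 29 ⟨⟨100000, 0, 0, 0, 0, 0, 0, 0, 0, ⟨0, 0⟩, 0⟩, 0, 0⟩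 0 0) (.cut .v 17301504 (.cut .d (-524288) (.void 31 ⟨⟨100000, 0, 0, 0, 0, 0, 0, 0, 0, ⟨0, 0⟩, 0⟩, 0, 0⟩ 0 0) (.cut .v 17039360 (.cut .d (-262144) (.void 33 ⟨⟨100000, 0, 0, 0, 0, 0, 0, 0, 0, ⟨0, 0⟩, 0⟩, 0, 0⟩ 0 0) (.cut .d (-131072) (.void 33 ⟨⟨0, 0, 0, 0, 0, 100000, 0, 0, 0, ⟨0, 0⟩, 0⟩, 0, 0⟩ 0 0) (.cut .s 11862016 (.pos 33 .mp ⟨⟨39198830, 0, 0, 0, 0, 3040282, 0, 0, 0, ⟨0, 0⟩, 0⟩, 0, 0⟩ 0 0) (.cut .s 11927552 (.pos 33 .mp ⟨⟨25716451, 0, 0, 0, 0, 18631145, 0, 0, 0, ⟨0, 0⟩, 0⟩, 0, 0⟩ 0 0) (.cut .s 11960320 (.pos 33 .mp ⟨⟨18806396, 0, 0, 0, 0, 26779682, 0, 0, 0, ⟨0, 0⟩, 0⟩, 0, 0⟩ 0 0) (.cut .s 11976704 (.pos 33 .mp ⟨⟨15308401,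 0, 0, 0, 0, 30943878, 0, 0, 0, ⟨0, 0⟩, 0⟩, 0, 0⟩ 0 0) (.cut .s 11984896 (.pos 33 .mp ⟨⟨12290848, 0, 0, 0, 0, 36150137, 0, 0, 0, ⟨0, 0⟩, 0⟩, 0, 0⟩ 0 0) (.cut .d (-65536) (.cut .d (-98304) (.void 33 ⟨⟨0, 0, 0, 0, 0, 100000, 0, 0, 0, ⟨0, 0⟩, 0⟩, 0, 0⟩ 0 0) (.pos 33 .mp ⟨⟨11776432, 0, 0, 0, 0, 37709882, 0, 0, 0, ⟨0, 0⟩, 0⟩, 0, 0⟩ 0 0)) (.cut .v 16908288 (.pos 35 .mp ⟨⟨10908060, 0, 0, 0, 0, 37364561, 0, 0, 0, ⟨0, 0⟩, 0⟩, 0, 0⟩ 0 0) (.pos 36 .mp ⟨⟨12335647, 0, 0, 0, 0, 35331547, 0, 0, 0, ⟨0, 0⟩, 0⟩, 0, 0⟩ 0 0)))))))))) (.pos 34 .mp ⟨⟨39951287, 0, 0, 0, 0, 0, 0, 0, 0, ⟨0, 0⟩, 0⟩, 0, 0⟩ 0 0))) (.pos 32 .mp ⟨⟨44414055, 0, 0, 0, 0,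 0, 0, 0, 0, ⟨0, 0⟩, 0⟩, 0, 0⟩ 0 0)))) (.void 30 ⟨⟨100000, 0, 0, 0, 0, 0, 0, 0, 0, ⟨0, 0⟩, 0⟩, 0, 0⟩ 0 0))) (.void 28 ⟨⟨100000, 0, 0, 0, 0, 0, 0, 0, 0, ⟨0, 0⟩, 0⟩, 0, 0⟩ 0 0))) (.void 26 ⟨⟨100000, 0, 0, 0, 0, 0, 0, 0, 0, ⟨0, 0⟩, 0⟩, 0, 0⟩ 0 0)) (.void 24 ⟨⟨100000, 0, 0, 0, 0, 0, 0, 0, 0, ⟨0, 0⟩, 0⟩, 0, 0⟩ 0 0)) (.void 89 ⟨⟨100000, 0, 0, 0, 0, 0, 0, 0, 0, ⟨0, 0⟩, 0⟩, 0, 0⟩ 0 0))) (.cut .v 16777216 (.cut .d 3608508 (.cut .v 8388608 (.cut .v 4194304 (.void 4 ⟨⟨0, 0, 50000, 0, 50000, 0, 0, 0, 0, ⟨0, 0⟩, 0⟩, 0, 0⟩ 0 0) (.pos 5 .pm ⟨⟨0, 0, 3953030, 0, 0, 0, 0, 0, 0, ⟨0, 0⟩, 0⟩, 0, 725629⟩ 0 0)) (.cut .v 12582912 (.pos 8 .pm ⟨⟨0,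 0, 0, 0, 0, 0, 0, 0, 0, ⟨0, 0⟩, 0⟩, 0, 0⟩ 0 0) (.pos 9 .pm ⟨⟨0, 0, 0, 0, 0, 0, 0, 0, 0, ⟨0, 0⟩, 0⟩, 0, 0⟩ 0 0))) (.void 1 ⟨⟨0, 0, 0, 0, 0, 0, 0, 0, 0, ⟨0, 0⟩, 0⟩, 0, 100000⟩ 0 0)) (.cut .v 33554432 (.cut .d 3608508 (.cut .v 25165824 (.cut .v 20971520 (.cut .v 18874368 (.pos 27 .pp ⟨⟨18346149, 0, 0, 0, 0, 0, 0, 0, 0, ⟨0, 0⟩, 0⟩, 0, 84522⟩ 0 0) (.pos 28 .pp ⟨⟨27859595, 0, 0, 0, 0, 0, 0, 0, 0, ⟨0, 0⟩, 0⟩, 0, 266300⟩ 0 0)) (.pos 26 .pp ⟨⟨40656423, 0, 0, 0, 0, 0, 508905, 0, 0, ⟨0, 0⟩, 0⟩, 0, 0⟩ 0 0)) (.pos 24 .pp ⟨⟨0, 0, 0, 0, 0, 0, 2112072, 0, 0, ⟨0, 0⟩, 0⟩, 17122289, 0⟩ 0 0)) (.void 22 ⟨⟨0, 54339, 0, 0, 0, 0, 0, 0, 0, ⟨0, 0⟩,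 0⟩, 0, 45661⟩ 0 0)) (.pos 89 .pp ⟨⟨0, 60713340, 0, 0, 0, 0, 0, 0, 0, ⟨0, 0⟩, 0⟩, 38844035, 0⟩ 0 0)))),
    by decide +kernel⟩

def covers18 : cell.Covers Vale.Agent.P237.Petty.Cor.Grid.N6.table row18.1 :=
  ⟨(.cut .d 0 (.cut .v 16777216 (.cut .v 8388608 (.void 2 ⟨⟨0, 0, 100000, 0, 0, 0, 0, 0, 0, ⟨0, 0⟩, 0⟩, 0, 0⟩ 0 0) (.cut .d (-8388608) (.void 3 ⟨⟨0, 0, 0, 0, 0, 100000, 0, 0, 0, ⟨0, 0⟩, 0⟩, 0, 0⟩ 0 0) (.cut .d (-4194304) (.void 3 ⟨⟨0, 0, 0, 0, 0, 100000, 0, 0, 0, ⟨0, 0⟩, 0⟩, 0, 0⟩ 0 0) (.cut .v 12582912 (.pos 8 .mm ⟨⟨0, 0, 431950, 0, 0, 45256441, 0, 0, 0, ⟨0, 0⟩, 0⟩, 0, 0⟩ 0 0) (.cut .d (-2097152) (.void 9 ⟨⟨0, 0, 0, 0,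 0, 100000, 0, 0, 0, ⟨0, 0⟩, 0⟩, 0, 0⟩ 0 0) (.cut .d (-1048576) (.void 9 ⟨⟨0, 0, 0, 0, 0, 100000, 0, 0, 0, ⟨0, 0⟩, 0⟩, 0, 0⟩ 0 0) (.cut .d (-524288) (.void 9 ⟨⟨0, 0, 0, 0, 0, 100000, 0, 0, 0, ⟨0, 0⟩, 0⟩, 0, 0⟩ 0 0) (.cut .s 12124160 (.pos 9 .mm ⟨⟨0, 0, 0, 0, 0, 59189780, 0, 0, 0, ⟨0, 0⟩, 0⟩, 0, 0⟩ 0 0) (.pos 9 .mm ⟨⟨0, 0, 0, 0, 0, 64524242, 0, 0, 0, ⟨0, 0⟩, 0⟩, 0, 0⟩ 0 0))))))))) (.cut .v 33554432 (.cut .v 25165824 (.cut .v 20971520 (.cut .d (-8388608) (.void 25 ⟨⟨100000, 0, 0, 0, 0, 0, 0, 0, 0, ⟨0, 0⟩, 0⟩, 0, 0⟩ 0 0) (.cut .v 18874368 (.cut .d (-4194304) (.void 27 ⟨⟨100000, 0, 0, 0, 0, 0, 0, 0, 0, ⟨0, 0⟩, 0⟩, 0, 0⟩ 0 0)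 (.cut .v 17825792 (.cut .d (-2097152) (.void 29 ⟨⟨100000, 0, 0, 0, 0, 0, 0, 0, 0, ⟨0, 0⟩, 0⟩, 0, 0⟩ 0 0) (.cut .d (-1048576) (.void 29 ⟨⟨100000, 0, 0, 0, 0, 0, 0, 0, 0, ⟨0, 0⟩, 0⟩, 0, 0⟩ 0 0) (.cut .v 17301504 (.cut .d (-524288) (.void 31 ⟨⟨100000, 0, 0, 0, 0, 0, 0, 0, 0, ⟨0, 0⟩, 0⟩, 0, 0⟩ 0 0) (.cut .d (-262144) (.void 31 ⟨⟨100000, 0, 0, 0, 0, 0, 0, 0, 0, ⟨0, 0⟩, 0⟩, 0, 0⟩ 0 0) (.cut .d (-131072) (.void 31 ⟨⟨0, 0, 0, 0, 0, 100000, 0, 0, 0, ⟨0, 0⟩, 0⟩, 0, 0⟩ 0 0) (.cut .v 17039360 (.cut .d (-65536) (.cut .d (-98304) (.void 33 ⟨⟨0, 0, 0, 0, 0, 100000, 0, 0, 0, ⟨0, 0⟩, 0⟩, 0, 0⟩ 0 0) (.cut .d (-81920) (.void 33 ⟨⟨0, 0, 0,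 0, 0, 100000, 0, 0, 0, ⟨0, 0⟩, 0⟩, 0, 0⟩ 0 0) (.cut .v 16908288 (.pos 35 .mp ⟨⟨0, 0, 0, 0, 0, 70481289, 0, 0, 0, ⟨0, 0⟩, 0⟩, 0, 0⟩ 0 0) (.cut .l 307582 (.void 36 ⟨⟨100000, 0, 0, 0, 0, 0, 0, 0, 0, ⟨0, 0⟩, 0⟩, 0, 0⟩ 0 0) (.cut .l 461373 (.void 36 ⟨⟨0, 0, 0, 0, 0, 100000, 0, 0, 0, ⟨0, 0⟩, 0⟩, 0, 0⟩ 0 0) (.cut .s 12124160 (.cut .l 538269 (.pos 36 .mp ⟨⟨12643507, 0, 0, 0, 0, 41004588, 0, 0, 0, ⟨0, 0⟩, 0⟩, 0, 0⟩ 0 0) (.cut .s 12058624 (.cut .v 16973824 (.pos 49 .mp ⟨⟨7764176, 0, 0, 0, 0, 45019447, 0, 0, 0, ⟨0, 0⟩, 0⟩, 0, 0⟩ 0 0) (.pos 50 .mp ⟨⟨13491487, 0, 0, 0, 0, 35377220, 0, 0, 0, ⟨0, 0⟩, 0⟩, 0, 0⟩ 0 0)) (.cut .v 16973824 (.pos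 49 .mp ⟨⟨8181978, 0, 0, 0, 0, 46735422, 0, 0, 0, ⟨0, 0⟩, 0⟩, 0, 0⟩ 0 0) (.cut .s 12091392 (.pos 50 .mp ⟨⟨13753533, 0, 0, 0, 0, 36840046, 0, 0, 0, ⟨0, 0⟩, 0⟩, 0, 0⟩ 0 0) (.pos 50 .mp ⟨⟨14117326, 0, 0, 0, 0, 37461631, 0, 0, 0, ⟨0, 0⟩, 0⟩, 0, 0⟩ 0 0))))) (.cut .d (-73728) (.pos 36 .mp ⟨⟨13678373, 0, 0, 0, 0, 44115301, 0, 0, 0, ⟨0, 0⟩, 0⟩, 0, 0⟩ 0 0) (.cut .s 12189696 (.cut .s 12156928 (.pos 36 .mp ⟨⟨13417254, 0, 0, 0, 0, 39974862, 0, 0, 0, ⟨0, 0⟩, 0⟩, 0, 0⟩ 0 0) (.pos 36 .mp ⟨⟨13766823, 0, 0, 0, 0, 40723805, 0, 0, 0, ⟨0, 0⟩, 0⟩, 0, 0⟩ 0 0)) (.pos 36 .mp ⟨⟨14131780, 0, 0, 0, 0, 42585497, 0, 0, 0, ⟨0, 0⟩, 0⟩, 0, 0⟩ 0 0)))))))))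 (.cut .s 12124160 (.cut .s 12058624 (.cut .v 16908288 (.cut .s 12025856 (.cut .l 307582 (.cut .d (-32768) (.pos 35 .mp ⟨⟨11124145, 0, 0, 0, 0, 38668271, 0, 0, 0, ⟨0, 0⟩, 0⟩, 0, 0⟩ 0 0) (.cut .s 12009472 (.pos 35 .mp ⟨⟨11882549, 0, 0, 0, 0, 35303665, 0, 0, 0, ⟨0, 0⟩, 0⟩, 0, 0⟩ 0 0) (.cut .s 12017664 (.pos 35 .mp ⟨⟨11959662, 0, 0, 0, 0, 35621150, 0, 0, 0, ⟨0, 0⟩, 0⟩, 0, 0⟩ 0 0) (.pos 35 .mp ⟨⟨12037298, 0, 0, 0, 0, 35772345, 0, 0, 0, ⟨0, 0⟩, 0⟩, 0, 0⟩ 0 0)))) (.pos 35 .mp ⟨⟨10178054, 0, 0, 0, 0, 38905686, 0, 0, 0, ⟨0, 0⟩, 0⟩, 0, 0⟩ 0 0)) (.cut .l 307582 (.cut .d (-32768) (.pos 35 .mp ⟨⟨11419224, 0, 0, 0, 0, 39337118, 0, 0,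 0, ⟨0, 0⟩, 0⟩, 0, 0⟩ 0 0) (.cut .v 16842752 (.cut .s 12042240 (.pos 41 .mp ⟨⟨11484911, 0, 0, 0, 0, 37341572, 0, 0, 0, ⟨0, 0⟩, 0⟩, 0, 0⟩ 0 0) (.pos 41 .mp ⟨⟨11597070, 0, 0, 0, 0, 37748450, 0, 0, 0, ⟨0, 0⟩, 0⟩, 0, 0⟩ 0 0)) (.pos 42 .mp ⟨⟨14005604, 0, 0, 0, 0, 33316011, 0, 0, 0, ⟨0, 0⟩, 0⟩, 0, 0⟩ 0 0))) (.pos 35 .mp ⟨⟨10448736, 0, 0, 0, 0, 39620339, 0, 0, 0, ⟨0, 0⟩, 0⟩, 0, 0⟩ 0 0))) (.cut .l 307582 (.pos 36 .mp ⟨⟨37733489, 0, 0, 0, 0, 0, 0, 0, 0, ⟨0, 0⟩, 0⟩, 0, 0⟩ 0 0) (.cut .s 12025856 (.pos 36 .mp ⟨⟨12950520, 0, 0, 0, 0, 34455290, 0, 0, 0, ⟨0, 0⟩, 0⟩, 0, 0⟩ 0 0) (.pos 36 .mp ⟨⟨13264008, 0, 0, 0, 0, 35087608, 0, 0, 0, ⟨0,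 0⟩, 0⟩, 0, 0⟩ 0 0)))) (.cut .v 16908288 (.cut .s 12091392 (.cut .l 307582 (.cut .d (-32768) (.pos 35 .mp ⟨⟨11722267, 0, 0, 0, 0, 40037175, 0, 0, 0, ⟨0, 0⟩, 0⟩, 0, 0⟩ 0 0) (.cut .v 16842752 (.cut .s 12075008 (.pos 41 .mp ⟨⟨11718686, 0, 0, 0, 0, 38145801, 0, 0, 0, ⟨0, 0⟩, 0⟩, 0, 0⟩ 0 0) (.pos 41 .mp ⟨⟨11849995, 0, 0, 0, 0, 38533157, 0, 0, 0, ⟨0, 0⟩, 0⟩, 0, 0⟩ 0 0)) (.pos 42 .mp ⟨⟨14336488, 0, 0, 0, 0, 33934781, 0, 0, 0, ⟨0, 0⟩, 0⟩, 0, 0⟩ 0 0))) (.pos 35 .mp ⟨⟨10726613, 0, 0, 0, 0, 40352075, 0, 0, 0, ⟨0, 0⟩, 0⟩, 0, 0⟩ 0 0)) (.cut .l 307582 (.cut .d (-32768) (.pos 35 .mp ⟨⟨12033426, 0, 0, 0, 0, 40769138, 0, 0, 0, ⟨0, 0⟩, 0⟩,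 0, 0⟩ 0 0) (.cut .v 16842752 (.cut .s 12107776 (.pos 41 .mp ⟨⟨11991235, 0, 0, 0, 0, 38910050, 0, 0, 0, ⟨0, 0⟩, 0⟩, 0, 0⟩ 0 0) (.pos 41 .mp ⟨⟨12142641, 0, 0, 0, 0, 39276011, 0, 0, 0, ⟨0, 0⟩, 0⟩, 0, 0⟩ 0 0)) (.pos 42 .mp ⟨⟨14697966, 0, 0, 0, 0, 34536080, 0, 0, 0, ⟨0, 0⟩, 0⟩, 0, 0⟩ 0 0))) (.pos 35 .mp ⟨⟨11011824, 0, 0, 0, 0, 41100371, 0, 0, 0, ⟨0, 0⟩, 0⟩, 0, 0⟩ 0 0))) (.cut .l 307582 (.pos 36 .mp ⟨⟨39151466, 0, 0, 0, 0, 0, 0, 0, 0, ⟨0, 0⟩, 0⟩, 0, 0⟩ 0 0) (.cut .s 12091392 (.pos 36 .mp ⟨⟨13595122, 0, 0, 0, 0, 35721983, 0, 0, 0, ⟨0, 0⟩, 0⟩, 0, 0⟩ 0 0) (.pos 36 .mp ⟨⟨13944762, 0, 0, 0, 0, 36356673, 0, 0, 0, ⟨0, 0⟩, 0⟩, 0, 0⟩ 0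 0))))) (.cut .s 12189696 (.cut .v 16908288 (.cut .s 12156928 (.cut .l 307582 (.cut .d (-32768) (.pos 35 .mp ⟨⟨12352861, 0, 0, 0, 0, 41533723, 0, 0, 0, ⟨0, 0⟩, 0⟩, 0, 0⟩ 0 0) (.cut .v 16842752 (.cut .s 12140544 (.pos 41 .mp ⟨⟨12304452, 0, 0, 0, 0, 39630568, 0, 0, 0, ⟨0, 0⟩, 0⟩, 0, 0⟩ 0 0) (.pos 41 .mp ⟨⟨12476906, 0, 0, 0, 0, 39973249, 0, 0, 0, ⟨0, 0⟩, 0⟩, 0, 0⟩ 0 0)) (.pos 42 .mp ⟨⟨15091914, 0, 0, 0, 0, 35116605, 0, 0, 0, ⟨0, 0⟩, 0⟩, 0, 0⟩ 0 0))) (.pos 35 .mp ⟨⟨11304513, 0, 0, 0, 0, 41864701, 0, 0, 0, ⟨0, 0⟩, 0⟩, 0, 0⟩ 0 0)) (.cut .l 307582 (.cut .d (-32768) (.pos 35 .mp ⟨⟨12680733, 0, 0, 0, 0, 42331668, 0, 0, 0, ⟨0, 0⟩,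 0⟩, 0, 0⟩ 0 0) (.cut .v 16842752 (.cut .s 12173312 (.pos 41 .mp ⟨⟨12660241, 0, 0, 0, 0, 40303577, 0, 0, 0, ⟨0, 0⟩, 0⟩, 0, 0⟩ 0 0) (.pos 41 .mp ⟨⟨12854699, 0, 0, 0, 0, 40621075, 0, 0, 0, ⟨0, 0⟩, 0⟩, 0, 0⟩ 0 0)) (.pos 42 .mp ⟨⟨15520249, 0, 0, 0, 0, 35672969, 0, 0, 0, ⟨0, 0⟩, 0⟩, 0, 0⟩ 0 0))) (.pos 35 .mp ⟨⟨11604827, 0, 0, 0, 0, 42644530, 0, 0, 0, ⟨0, 0⟩, 0⟩, 0, 0⟩ 0 0))) (.cut .l 307582 (.pos 36 .mp ⟨⟨40634434, 0, 0, 0, 0, 0, 0, 0, 0, ⟨0, 0⟩, 0⟩, 0, 0⟩ 0 0) (.cut .s 12156928 (.pos 36 .mp ⟨⟨14313843, 0, 0, 0, 0, 36989903, 0, 0, 0, ⟨0, 0⟩, 0⟩, 0, 0⟩ 0 0) (.pos 36 .mp ⟨⟨14703299, 0, 0, 0, 0, 37619856, 0, 0, 0, ⟨0, 0⟩, 0⟩, 0,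 0⟩ 0 0)))) (.cut .v 16908288 (.cut .s 12222464 (.cut .d (-32768) (.pos 35 .mp ⟨⟨12340564, 0, 0, 0, 0, 43930902, 0, 0, 0, ⟨0, 0⟩, 0⟩, 0, 0⟩ 0 0) (.cut .l 307582 (.cut .v 16842752 (.cut .s 12206080 (.pos 41 .mp ⟨⟨13060521, 0, 0, 0, 0, 40925264, 0, 0, 0, ⟨0, 0⟩, 0⟩, 0, 0⟩ 0 0) (.pos 41 .mp ⟨⟨13277948, 0, 0, 0, 0, 41215662, 0, 0, 0, ⟨0, 0⟩, 0⟩, 0, 0⟩ 0 0)) (.pos 42 .mp ⟨⟨15984926, 0, 0, 0, 0, 36201696, 0, 0, 0, ⟨0, 0⟩, 0⟩, 0, 0⟩ 0 0)) (.pos 35 .mp ⟨⟨13319055, 0, 0, 0, 0, 0, 0, 0, 0, ⟨0, 0⟩, 0⟩, 0, 0⟩ 0 0))) (.cut .d (-32768) (.pos 35 .mp ⟨⟨12670887, 0, 0, 0, 0, 44811075, 0, 0, 0, ⟨0, 0⟩, 0⟩, 0, 0⟩ 0 0) (.cut .s 12238848 (.cut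 .s 12230656 (.pos 35 .mp ⟨⟨14120082, 0, 0, 0, 0, 40150808, 0, 0, 0, ⟨0, 0⟩, 0⟩, 0, 0⟩ 0 0) (.pos 35 .mp ⟨⟨14202999, 0, 0, 0, 0, 40362721, 0, 0, 0, ⟨0, 0⟩, 0⟩, 0, 0⟩ 0 0)) (.pos 35 .mp ⟨⟨14434127, 0, 0, 0, 0, 40367385, 0, 0, 0, ⟨0, 0⟩, 0⟩, 0, 0⟩ 0 0)))) (.cut .l 307582 (.pos 36 .mp ⟨⟨42180080, 0, 0, 0, 0, 0, 0, 0, 0, ⟨0, 0⟩, 0⟩, 0, 0⟩ 0 0) (.cut .s 12222464 (.pos 36 .mp ⟨⟨15114080, 0, 0, 0, 0, 38244681, 0, 0, 0, ⟨0, 0⟩, 0⟩, 0, 0⟩ 0 0) (.pos 36 .mp ⟨⟨15547158, 0, 0, 0, 0, 38862485, 0, 0, 0, ⟨0, 0⟩, 0⟩, 0, 0⟩ 0 0))))))) (.pos 34 .mp ⟨⟨40948519, 0, 0, 0, 0, 0, 0, 0, 0, ⟨0, 0⟩, 0⟩, 0, 0⟩ 0 0))))) (.pos 32 .mp ⟨⟨51489412, 0, 0,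 0, 0, 0, 0, 0, 0, ⟨0, 0⟩, 0⟩, 0, 0⟩ 0 0)))) (.void 30 ⟨⟨100000, 0, 0, 0, 0, 0, 0, 0, 0, ⟨0, 0⟩, 0⟩, 0, 0⟩ 0 0))) (.void 28 ⟨⟨100000, 0, 0, 0, 0, 0, 0, 0, 0, ⟨0, 0⟩, 0⟩, 0, 0⟩ 0 0))) (.void 26 ⟨⟨100000, 0, 0, 0, 0, 0, 0, 0, 0, ⟨0, 0⟩, 0⟩, 0, 0⟩ 0 0)) (.void 24 ⟨⟨100000, 0, 0, 0, 0, 0, 0, 0, 0, ⟨0, 0⟩, 0⟩, 0, 0⟩ 0 0)) (.void 89 ⟨⟨100000, 0, 0, 0, 0, 0, 0, 0, 0, ⟨0, 0⟩, 0⟩, 0, 0⟩ 0 0))) (.cut .v 16777216 (.cut .d 3346276 (.cut .v 8388608 (.cut .v 4194304 (.void 4 ⟨⟨0, 0, 66667, 0, 0, 0, 0, 0, 0, ⟨0, 0⟩, 0⟩, 0, 33333⟩ 0 0) (.pos 5 .pm ⟨⟨0, 0, 4965663, 0, 0, 0, 0, 0, 0, ⟨0, 0⟩, 0⟩, 0, 638756⟩ 0 0)) (.cut .v 12582912 (.pos 8 .pm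 ⟨⟨0, 0, 52047, 0, 0, 0, 0, 0, 0, ⟨0, 0⟩, 0⟩, 0, 0⟩ 0 0) (.pos 9 .pm ⟨⟨0, 0, 0, 0, 0, 0, 0, 0, 0, ⟨0, 0⟩, 0⟩, 0, 0⟩ 0 0))) (.void 1 ⟨⟨0, 0, 0, 0, 0, 0, 0, 0, 0, ⟨0, 0⟩, 0⟩, 0, 100000⟩ 0 0)) (.cut .v 33554432 (.cut .d 3346276 (.cut .v 25165824 (.cut .v 20971520 (.cut .v 18874368 (.pos 27 .pp ⟨⟨19874408, 0, 0, 0, 0, 0, 0, 0, 0, ⟨0, 0⟩, 0⟩, 615851, 0⟩ 0 0) (.pos 28 .pp ⟨⟨33047149, 0, 0, 0, 0, 0, 0, 0, 0, ⟨0, 0⟩, 0⟩, 0, 275199⟩ 0 0)) (.pos 26 .pp ⟨⟨47458144, 0, 0, 0, 0, 0, 525833, 0, 0, ⟨0, 0⟩, 0⟩, 0, 0⟩ 0 0)) (.pos 24 .pp ⟨⟨0, 0, 0, 0, 0, 0, 0, 0, 0, ⟨0, 0⟩, 0⟩, 19532490, 0⟩ 0 0)) (.pos 22 .pp ⟨⟨0, 0, 0, 0, 0, 0, 0, 0, 0, ⟨0,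 0⟩, 0⟩, 0, 160098861⟩ 0 0)) (.pos 89 .pp ⟨⟨0, 69251026, 0, 0, 0, 0, 0, 0, 0, ⟨0, 0⟩, 0⟩, 44208653, 0⟩ 0 0)))),
    by decide +kernel⟩

def covers19 : cell.Covers Vale.Agent.P237.Petty.Cor.Grid.N6.table row19.1 :=
  ⟨(.cut .d 0 (.cut .v 16777216 (.cut .v 8388608 (.void 2 ⟨⟨0, 0, 100000, 0, 0, 0, 0, 0, 0, ⟨0, 0⟩, 0⟩, 0, 0⟩ 0 0) (.cut .d (-8388608) (.void 3 ⟨⟨0, 0, 0, 0, 0, 100000, 0, 0, 0, ⟨0, 0⟩, 0⟩, 0, 0⟩ 0 0) (.cut .d (-4194304) (.void 3 ⟨⟨0, 0, 0, 0, 0, 100000, 0, 0, 0, ⟨0, 0⟩, 0⟩, 0, 0⟩ 0 0) (.cut .v 12582912 (.pos 8 .mm ⟨⟨0, 0, 984594, 0, 0, 55630991, 0, 0, 0, ⟨0, 0⟩, 0⟩, 0, 0⟩ 0 0) (.cut .d (-2097152) (.void 9 ⟨⟨0,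 0, 0, 0, 0, 100000, 0, 0, 0, ⟨0, 0⟩, 0⟩, 0, 0⟩ 0 0) (.cut .d (-1048576) (.void 9 ⟨⟨0, 0, 0, 0, 0, 100000, 0, 0, 0, ⟨0, 0⟩, 0⟩, 0, 0⟩ 0 0) (.cut .d (-524288) (.void 9 ⟨⟨0, 0, 0, 0, 0, 100000, 0, 0, 0, ⟨0, 0⟩, 0⟩, 0, 0⟩ 0 0) (.cut .s 12386304 (.pos 9 .mm ⟨⟨0, 0, 0, 0, 0, 70455110, 0, 0, 0, ⟨0, 0⟩, 0⟩, 0, 0⟩ 0 0) (.pos 9 .mm ⟨⟨0, 0, 0, 0, 0, 76955629, 0, 0, 0, ⟨0, 0⟩, 0⟩, 0, 0⟩ 0 0))))))))) (.cut .v 33554432 (.cut .v 25165824 (.cut .v 20971520 (.cut .d (-8388608) (.void 25 ⟨⟨100000, 0, 0, 0, 0, 0, 0, 0, 0, ⟨0, 0⟩, 0⟩, 0, 0⟩ 0 0) (.cut .v 18874368 (.cut .d (-4194304) (.void 27 ⟨⟨100000, 0, 0, 0, 0, 0, 0, 0, 0, ⟨0, 0⟩, 0⟩, 0,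 0⟩ 0 0) (.cut .d (-2097152) (.void 27 ⟨⟨100000, 0, 0, 0, 0, 0, 0, 0, 0, ⟨0, 0⟩, 0⟩, 0, 0⟩ 0 0) (.cut .v 17825792 (.cut .d (-1048576) (.void 29 ⟨⟨100000, 0, 0, 0, 0, 0, 0, 0, 0, ⟨0, 0⟩, 0⟩, 0, 0⟩ 0 0) (.cut .v 17301504 (.cut .d (-524288) (.void 31 ⟨⟨100000, 0, 0, 0, 0, 0, 0, 0, 0, ⟨0, 0⟩, 0⟩, 0, 0⟩ 0 0) (.cut .d (-262144) (.void 31 ⟨⟨100000, 0, 0, 0, 0, 0, 0, 0, 0, ⟨0, 0⟩, 0⟩, 0, 0⟩ 0 0) (.cut .d (-131072) (.void 31 ⟨⟨0, 0, 0, 0, 0, 100000, 0, 0, 0, ⟨0, 0⟩, 0⟩, 0, 0⟩ 0 0) (.cut .v 17039360 (.cut .d (-65536) (.cut .d (-98304) (.void 33 ⟨⟨0, 0, 0, 0, 0, 100000, 0, 0, 0, ⟨0, 0⟩, 0⟩, 0, 0⟩ 0 0) (.cut .d (-81920) (.void 33 ⟨⟨0,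 0, 0, 0, 0, 100000, 0, 0, 0, ⟨0, 0⟩, 0⟩, 0, 0⟩ 0 0) (.cut .d (-73728) (.void 33 ⟨⟨0, 0, 0, 0, 0, 100000, 0, 0, 0, ⟨0, 0⟩, 0⟩, 0, 0⟩ 0 0) (.cut .v 16908288 (.pos 35 .mp ⟨⟨0, 0, 0, 0, 0, 85201157, 0, 0, 0, ⟨0, 0⟩, 0⟩, 0, 0⟩ 0 0) (.cut .l 307582 (.void 36 ⟨⟨100000, 0, 0, 0, 0, 0, 0, 0, 0, ⟨0, 0⟩, 0⟩, 0, 0⟩ 0 0) (.cut .l 461373 (.void 36 ⟨⟨0, 0, 0, 0, 0, 100000, 0, 0, 0, ⟨0, 0⟩, 0⟩, 0, 0⟩ 0 0) (.cut .l 538269 (.void 36 ⟨⟨0, 0, 0, 0, 0, 100000, 0, 0, 0, ⟨0, 0⟩, 0⟩, 0, 0⟩ 0 0) (.cut .s 12386304 (.cut .v 16973824 (.pos 49 .mp ⟨⟨11381908, 0, 0, 0, 0, 52879992, 0, 0, 0, ⟨0, 0⟩, 0⟩, 0, 0⟩ 0 0) (.pos 50 .mp ⟨⟨17278009, 0, 0, 0, 0,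 42234400, 0, 0, 0, ⟨0, 0⟩, 0⟩, 0, 0⟩ 0 0)) (.cut .s 12451840 (.cut .s 12419072 (.pos 36 .mp ⟨⟨16587580, 0, 0, 0, 0, 47362831, 0, 0, 0, ⟨0, 0⟩, 0⟩, 0, 0⟩ 0 0) (.pos 36 .mp ⟨⟨17013768, 0, 0, 0, 0, 48256956, 0, 0, 0, ⟨0, 0⟩, 0⟩, 0, 0⟩ 0 0)) (.pos 36 .mp ⟨⟨17446796, 0, 0, 0, 0, 50613469, 0, 0, 0, ⟨0, 0⟩, 0⟩, 0, 0⟩ 0 0)))))))))) (.cut .s 12386304 (.cut .s 12320768 (.cut .v 16908288 (.cut .s 12288000 (.cut .d (-32768) (.pos 35 .mp ⟨⟨13009773, 0, 0, 0, 0, 45728669, 0, 0, 0, ⟨0, 0⟩, 0⟩, 0, 0⟩ 0 0) (.cut .s 12271616 (.pos 35 .mp ⟨⟨14622821, 0, 0, 0, 0, 40755861, 0, 0, 0, ⟨0, 0⟩, 0⟩, 0, 0⟩ 0 0) (.cut .s 12279808 (.pos 35 .mp ⟨⟨14676524,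 0, 0, 0, 0, 41261458, 0, 0, 0, ⟨0, 0⟩, 0⟩, 0, 0⟩ 0 0) (.pos 35 .mp ⟨⟨14789256, 0, 0, 0, 0, 41388208, 0, 0, 0, ⟨0, 0⟩, 0⟩, 0, 0⟩ 0 0)))) (.cut .d (-32768) (.pos 35 .mp ⟨⟨13360997, 0, 0, 0, 0, 46468620, 0, 0, 0, ⟨0, 0⟩, 0⟩, 0, 0⟩ 0 0) (.cut .l 307582 (.cut .d (-16384) (.pos 35 .mp ⟨⟨13882569, 0, 0, 0, 0, 45118282, 0, 0, 0, ⟨0, 0⟩, 0⟩, 0, 0⟩ 0 0) (.cut .s 12304384 (.pos 35 .mp ⟨⟨14319770, 0, 0, 0, 0, 42781138, 0, 0, 0, ⟨0, 0⟩, 0⟩, 0, 0⟩ 0 0) (.pos 35 .mp ⟨⟨14519688, 0, 0, 0, 0, 43106191, 0, 0, 0, ⟨0, 0⟩, 0⟩, 0, 0⟩ 0 0))) (.pos 35 .mp ⟨⟨14457759, 0, 0, 0, 0, 0, 0, 0, 0, ⟨0, 0⟩, 0⟩, 0, 0⟩ 0 0)))) (.cut .s 12288000 (.pos 36 .mp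 ⟨⟨16555619, 0, 0, 0, 0, 38667820, 0, 0, 0, ⟨0, 0⟩, 0⟩, 0, 0⟩ 0 0) (.cut .s 12304384 (.pos 36 .mp ⟨⟨16226368, 0, 0, 0, 0, 40451123, 0, 0, 0, ⟨0, 0⟩, 0⟩, 0, 0⟩ 0 0) (.pos 36 .mp ⟨⟨16400274, 0, 0, 0, 0, 40862270, 0, 0, 0, ⟨0, 0⟩, 0⟩, 0, 0⟩ 0 0)))) (.cut .v 16908288 (.cut .s 12353536 (.cut .d (-32768) (.pos 35 .mp ⟨⟨13721800, 0, 0, 0, 0, 47247556, 0, 0, 0, ⟨0, 0⟩, 0⟩, 0, 0⟩ 0 0) (.cut .l 307582 (.cut .v 16842752 (.cut .s 12337152 (.pos 41 .mp ⟨⟨14348398, 0, 0, 0, 0, 44285707, 0, 0, 0, ⟨0, 0⟩, 0⟩, 0, 0⟩ 0 0) (.pos 41 .mp ⟨⟨14464370, 0, 0, 0, 0, 44827256, 0, 0, 0, ⟨0, 0⟩, 0⟩, 0, 0⟩ 0 0)) (.pos 42 .mp ⟨⟨17683569, 0, 0, 0, 0, 38813142,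 0, 0, 0, ⟨0, 0⟩, 0⟩, 0, 0⟩ 0 0)) (.pos 35 .mp ⟨⟨14843646, 0, 0, 0, 0, 0, 0, 0, 0, ⟨0, 0⟩, 0⟩, 0, 0⟩ 0 0))) (.cut .d (-32768) (.cut .s 12369920 (.pos 35 .mp ⟨⟨14092379, 0, 0, 0, 0, 47644095, 0, 0, 0, ⟨0, 0⟩, 0⟩, 0, 0⟩ 0 0) (.pos 35 .mp ⟨⟨14281398, 0, 0, 0, 0, 48061561, 0, 0, 0, ⟨0, 0⟩, 0⟩, 0, 0⟩ 0 0)) (.cut .l 307582 (.cut .v 16842752 (.cut .s 12369920 (.pos 41 .mp ⟨⟨14592246, 0, 0, 0, 0, 45356648, 0, 0, 0, ⟨0, 0⟩, 0⟩, 0, 0⟩ 0 0) (.pos 41 .mp ⟨⟨14732328, 0, 0, 0, 0, 45873279, 0, 0, 0, ⟨0, 0⟩, 0⟩, 0, 0⟩ 0 0)) (.pos 42 .mp ⟨⟨18063874, 0, 0, 0, 0, 39609833, 0, 0, 0, ⟨0, 0⟩, 0⟩, 0, 0⟩ 0 0)) (.pos 35 .mp ⟨⟨15240081, 0, 0, 0, 0,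 0, 0, 0, 0, ⟨0, 0⟩, 0⟩, 0, 0⟩ 0 0)))) (.cut .d (-32768) (.cut .v 16973824 (.cut .l 307582 (.void 49 ⟨⟨100000, 0, 0, 0, 0, 0, 0, 0, 0, ⟨0, 0⟩, 0⟩, 0, 0⟩ 0 0) (.cut .s 12353536 (.pos 49 .mp ⟨⟨16609325, 0, 0, 0, 0, 41453301, 0, 0, 0, ⟨0, 0⟩, 0⟩, 0, 0⟩ 0 0) (.pos 49 .mp ⟨⟨16992772, 0, 0, 0, 0, 42272132, 0, 0, 0, ⟨0, 0⟩, 0⟩, 0, 0⟩ 0 0))) (.pos 50 .mp ⟨⟨36449288, 0, 0, 0, 0, 0, 0, 0, 0, ⟨0, 0⟩, 0⟩, 0, 0⟩ 0 0)) (.pos 36 .mp ⟨⟨35630701, 0, 0, 0, 0, 0, 0, 0, 0, ⟨0, 0⟩, 0⟩, 0, 0⟩ 0 0)))) (.cut .s 12451840 (.cut .v 16908288 (.cut .s 12419072 (.cut .d (-32768) (.cut .s 12402688 (.pos 35 .mp ⟨⟨14472939, 0, 0, 0, 0, 48489311, 0, 0, 0,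 ⟨0, 0⟩, 0⟩, 0, 0⟩ 0 0) (.pos 35 .mp ⟨⟨14667027, 0, 0, 0, 0, 48927469, 0, 0, 0, ⟨0, 0⟩, 0⟩, 0, 0⟩ 0 0)) (.cut .l 307582 (.cut .v 16842752 (.cut .s 12402688 (.pos 41 .mp ⟨⟨14884923, 0, 0, 0, 0, 46376543, 0, 0, 0, ⟨0, 0⟩, 0⟩, 0, 0⟩ 0 0) (.pos 41 .mp ⟨⟨15050338, 0, 0, 0, 0, 46865830, 0, 0, 0, ⟨0, 0⟩, 0⟩, 0, 0⟩ 0 0)) (.pos 42 .mp ⟨⟨18484052, 0, 0, 0, 0, 40381248, 0, 0, 0, ⟨0, 0⟩, 0⟩, 0, 0⟩ 0 0)) (.pos 35 .mp ⟨⟨15647286, 0, 0, 0, 0, 0, 0, 0, 0, ⟨0, 0⟩, 0⟩, 0, 0⟩ 0 0))) (.cut .d (-32768) (.cut .s 12435456 (.pos 35 .mp ⟨⟨14863689, 0, 0, 0, 0, 49376158, 0, 0, 0, ⟨0, 0⟩, 0⟩, 0, 0⟩ 0 0) (.pos 35 .mp ⟨⟨15062952, 0, 0, 0, 0, 49835504,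 0, 0, 0, ⟨0, 0⟩, 0⟩, 0, 0⟩ 0 0)) (.cut .l 307582 (.cut .v 16842752 (.cut .s 12435456 (.pos 41 .mp ⟨⟨15228881, 0, 0, 0, 0, 47340528, 0, 0, 0, ⟨0, 0⟩, 0⟩, 0, 0⟩ 0 0) (.pos 41 .mp ⟨⟨15420862, 0, 0, 0, 0, 47800019, 0, 0, 0, ⟨0, 0⟩, 0⟩, 0, 0⟩ 0 0)) (.pos 42 .mp ⟨⟨18946599, 0, 0, 0, 0, 41122942, 0, 0, 0, ⟨0, 0⟩, 0⟩, 0, 0⟩ 0 0)) (.pos 35 .mp ⟨⟨16065490, 0, 0, 0, 0, 0, 0, 0, 0, ⟨0, 0⟩, 0⟩, 0, 0⟩ 0 0)))) (.cut .d (-32768) (.cut .v 16973824 (.cut .l 307582 (.void 49 ⟨⟨100000, 0, 0, 0, 0, 0, 0, 0, 0, ⟨0, 0⟩, 0⟩, 0, 0⟩ 0 0) (.cut .d (-49152) (.cut .s 12419072 (.pos 49 .mp ⟨⟨15694345, 0, 0, 0, 0, 47017689, 0, 0, 0, ⟨0, 0⟩, 0⟩, 0, 0⟩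 0 0) (.pos 49 .mp ⟨⟨16115307, 0, 0, 0, 0, 47870236, 0, 0, 0, ⟨0, 0⟩, 0⟩, 0, 0⟩ 0 0)) (.pos 49 .mp ⟨⟨17363217, 0, 0, 0, 0, 43103342, 0, 0, 0, ⟨0, 0⟩, 0⟩, 0, 0⟩ 0 0))) (.pos 50 .mp ⟨⟨28859476, 0, 0, 0, 0, 20159915, 0, 0, 0, ⟨0, 0⟩, 0⟩, 0, 0⟩ 0 0)) (.pos 36 .mp ⟨⟨37090204, 0, 0, 0, 0, 0, 0, 0, 0, ⟨0, 0⟩, 0⟩, 0, 0⟩ 0 0))) (.cut .v 16908288 (.cut .s 12484608 (.cut .d (-32768) (.cut .s 12468224 (.pos 35 .mp ⟨⟨15264846, 0, 0, 0, 0, 50305637, 0, 0, 0, ⟨0, 0⟩, 0⟩, 0, 0⟩ 0 0) (.pos 35 .mp ⟨⟨15469396, 0, 0, 0, 0, 50786685, 0, 0, 0, ⟨0, 0⟩, 0⟩, 0, 0⟩ 0 0)) (.cut .l 307582 (.cut .v 16842752 (.cut .s 12468224 (.pos 41 .mp ⟨⟨15626592,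 0, 0, 0, 0, 48243684, 0, 0, 0, ⟨0, 0⟩, 0⟩, 0, 0⟩ 0 0) (.pos 41 .mp ⟨⟨15846386, 0, 0, 0, 0, 48670899, 0, 0, 0, ⟨0, 0⟩, 0⟩, 0, 0⟩ 0 0)) (.pos 42 .mp ⟨⟨19454065, 0, 0, 0, 0, 41830349, 0, 0, 0, ⟨0, 0⟩, 0⟩, 0, 0⟩ 0 0)) (.pos 35 .mp ⟨⟨16494928, 0, 0, 0, 0, 0, 0, 0, 0, ⟨0, 0⟩, 0⟩, 0, 0⟩ 0 0))) (.cut .d (-32768) (.cut .s 12500992 (.pos 35 .mp ⟨⟨15676632, 0, 0, 0, 0, 51278781, 0, 0, 0, ⟨0, 0⟩, 0⟩, 0, 0⟩ 0 0) (.pos 35 .mp ⟨⟨15886584, 0, 0, 0, 0, 51782058, 0, 0, 0, ⟨0, 0⟩, 0⟩, 0, 0⟩ 0 0)) (.cut .l 307582 (.cut .v 16842752 (.cut .s 12500992 (.pos 41 .mp ⟨⟨16080557, 0, 0, 0, 0, 49081035, 0, 0, 0, ⟨0, 0⟩, 0⟩, 0, 0⟩ 0 0) (.pos 41 .mp ⟨⟨16329425,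 0, 0, 0, 0, 49473461, 0, 0, 0, ⟨0, 0⟩, 0⟩, 0, 0⟩ 0 0)) (.pos 42 .mp ⟨⟨20009060, 0, 0, 0, 0, 42498777, 0, 0, 0, ⟨0, 0⟩, 0⟩, 0, 0⟩ 0 0)) (.pos 35 .mp ⟨⟨16935842, 0, 0, 0, 0, 0, 0, 0, 0, ⟨0, 0⟩, 0⟩, 0, 0⟩ 0 0)))) (.cut .d (-32768) (.cut .v 16973824 (.cut .l 307582 (.void 49 ⟨⟨100000, 0, 0, 0, 0, 0, 0, 0, 0, ⟨0, 0⟩, 0⟩, 0, 0⟩ 0 0) (.cut .d (-49152) (.cut .s 12484608 (.pos 49 .mp ⟨⟨16547529, 0, 0, 0, 0, 48755720, 0, 0, 0, ⟨0, 0⟩, 0⟩, 0, 0⟩ 0 0) (.pos 49 .mp ⟨⟨16991251, 0, 0, 0, 0, 49674368, 0, 0, 0, ⟨0, 0⟩, 0⟩, 0, 0⟩ 0 0)) (.pos 49 .mp ⟨⟨18299047, 0, 0, 0, 0, 44627248, 0, 0, 0, ⟨0, 0⟩, 0⟩, 0, 0⟩ 0 0))) (.pos 50 .mp ⟨⟨20708746,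 0, 0, 0, 0, 41805498, 0, 0, 0, ⟨0, 0⟩, 0⟩, 0, 0⟩ 0 0)) (.pos 36 .mp ⟨⟨38661741, 0, 0, 0, 0, 0, 0, 0, 0, ⟨0, 0⟩, 0⟩, 0, 0⟩ 0 0)))))) (.pos 34 .mp ⟨⟨48111246, 0, 0, 0, 0, 0, 0, 0, 0, ⟨0, 0⟩, 0⟩, 0, 0⟩ 0 0))))) (.pos 32 .mp ⟨⟨60359737, 0, 0, 0, 0, 0, 0, 0, 0, ⟨0, 0⟩, 0⟩, 0, 0⟩ 0 0))) (.void 30 ⟨⟨100000, 0, 0, 0, 0, 0, 0, 0, 0, ⟨0, 0⟩, 0⟩, 0, 0⟩ 0 0)))) (.void 28 ⟨⟨100000, 0, 0, 0, 0, 0, 0, 0, 0, ⟨0, 0⟩, 0⟩, 0, 0⟩ 0 0))) (.void 26 ⟨⟨100000, 0, 0, 0, 0, 0, 0, 0, 0, ⟨0, 0⟩, 0⟩, 0, 0⟩ 0 0)) (.void 24 ⟨⟨100000, 0, 0, 0, 0, 0, 0, 0, 0, ⟨0, 0⟩, 0⟩, 0, 0⟩ 0 0)) (.void 89 ⟨⟨100000, 0, 0, 0, 0, 0, 0, 0, 0, ⟨0, 0⟩, 0⟩, 0, 0⟩ 0 0))) (.cut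 .v 16777216 (.cut .d 3095263 (.cut .v 8388608 (.cut .v 4194304 (.void 4 ⟨⟨0, 0, 66667, 0, 0, 0, 0, 0, 0, ⟨0, 0⟩, 0⟩, 0, 33333⟩ 0 0) (.pos 5 .pm ⟨⟨0, 0, 5872526, 0, 0, 0, 0, 0, 0, ⟨0, 0⟩, 0⟩, 0, 633739⟩ 0 0)) (.cut .v 12582912 (.pos 8 .pm ⟨⟨0, 0, 530824, 0, 0, 0, 0, 0, 0, ⟨0, 0⟩, 0⟩, 0, 0⟩ 0 0) (.pos 9 .pm ⟨⟨0, 0, 0, 0, 0, 0, 0, 0, 0, ⟨0, 0⟩, 0⟩, 0, 0⟩ 0 0))) (.void 1 ⟨⟨0, 0, 0, 0, 0, 0, 0, 0, 0, ⟨0, 0⟩, 0⟩, 0, 100000⟩ 0 0)) (.cut .v 33554432 (.cut .d 3095263 (.cut .v 25165824 (.cut .v 20971520 (.cut .v 18874368 (.pos 27 .pp ⟨⟨23612885, 0, 0, 0, 0, 0, 0, 0, 0, ⟨0, 0⟩, 0⟩, 840315, 0⟩ 0 0) (.pos 28 .pp ⟨⟨39170181, 0, 0, 0,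 0, 0, 0, 0, 0, ⟨0, 0⟩, 0⟩, 0, 273789⟩ 0 0)) (.pos 26 .pp ⟨⟨55706134, 0, 0, 0, 0, 0, 519108, 0, 0, ⟨0, 0⟩, 0⟩, 0, 0⟩ 0 0)) (.pos 24 .pp ⟨⟨0, 0, 0, 0, 0, 0, 0, 0, 0, ⟨0, 0⟩, 0⟩, 22633942, 0⟩ 0 0)) (.pos 22 .pp ⟨⟨0, 0, 0, 0, 0, 0, 0, 0, 0, ⟨0, 0⟩, 0⟩, 0, 130422883⟩ 0 0)) (.pos 89 .pp ⟨⟨0, 79521601, 0, 0, 0, 0, 0, 0, 0, ⟨0, 0⟩, 0⟩, 50583535, 0⟩ 0 0)))),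
    by decide +kernel⟩

def covers20 : cell.Covers Vale.Agent.P237.Petty.Cor.Grid.N6.table row20.1 :=
  ⟨(.cut .d 0 (.cut .v 16777216 (.cut .v 8388608 (.void 2 ⟨⟨0, 0, 100000, 0, 0, 0, 0, 0, 0, ⟨0, 0⟩, 0⟩, 0, 0⟩ 0 0) (.cut .d (-8388608) (.void 3 ⟨⟨0, 0, 0, 0, 0, 100000, 0, 0, 0, ⟨0, 0⟩, 0⟩, 0, 0⟩ 0 0) (.cut .d (-4194304) (.void 3 ⟨⟨0, 0, 0, 0, 0, 100000, 0, 0, 0, ⟨0, 0⟩, 0⟩, 0, 0⟩ 0 0) (.cut .d (-2097152) (.void 3 ⟨⟨0, 0, 0, 0, 0, 100000, 0, 0, 0, ⟨0, 0⟩, 0⟩, 0, 0⟩ 0 0) (.cut .v 12582912 (.pos 8 .mm ⟨⟨0, 0, 1639838, 0, 0, 52663458, 0, 0, 0, ⟨0, 0⟩, 0⟩, 0, 0⟩ 0 0) (.cut .d (-1048576) (.void 9 ⟨⟨0, 0, 0, 0, 0, 100000, 0, 0,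 0, ⟨0, 0⟩, 0⟩, 0, 0⟩ 0 0) (.cut .s 12615680 (.pos 9 .mm ⟨⟨0, 0, 0, 0, 0, 86085623, 0, 0, 0, ⟨0, 0⟩, 0⟩, 0, 0⟩ 0 0) (.pos 9 .mm ⟨⟨0, 0, 0, 0, 0, 92262342, 0, 0, 0, ⟨0, 0⟩, 0⟩, 0, 0⟩ 0 0)))))))) (.cut .v 33554432 (.cut .v 25165824 (.cut .v 20971520 (.cut .d (-8388608) (.void 25 ⟨⟨100000, 0, 0, 0, 0, 0, 0, 0, 0, ⟨0, 0⟩, 0⟩, 0, 0⟩ 0 0) (.cut .v 18874368 (.cut .d (-4194304) (.void 27 ⟨⟨100000, 0, 0, 0, 0, 0, 0, 0, 0, ⟨0, 0⟩, 0⟩, 0, 0⟩ 0 0) (.cut .d (-2097152) (.void 27 ⟨⟨100000, 0, 0, 0, 0, 0, 0, 0, 0, ⟨0, 0⟩, 0⟩, 0, 0⟩ 0 0) (.cut .v 17825792 (.cut .d (-1048576) (.void 29 ⟨⟨100000, 0, 0, 0, 0, 0, 0, 0, 0, ⟨0, 0⟩, 0⟩, 0, 0⟩ 0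 0) (.cut .v 17301504 (.cut .d (-524288) (.void 31 ⟨⟨100000, 0, 0, 0, 0, 0, 0, 0, 0, ⟨0, 0⟩, 0⟩, 0, 0⟩ 0 0) (.cut .d (-262144) (.void 31 ⟨⟨100000, 0, 0, 0, 0, 0, 0, 0, 0, ⟨0, 0⟩, 0⟩, 0, 0⟩ 0 0) (.cut .d (-131072) (.void 31 ⟨⟨0, 0, 0, 0, 0, 100000, 0, 0, 0, ⟨0, 0⟩, 0⟩, 0, 0⟩ 0 0) (.cut .v 17039360 (.cut .d (-65536) (.pos 33 .mp ⟨⟨17966844, 0, 0, 0, 0, 67348880, 0, 0, 0, ⟨0, 0⟩, 0⟩, 0, 0⟩ 0 0) (.cut .s 12615680 (.cut .v 16908288 (.cut .s 12566528 (.cut .d (-32768) (.cut .s 12541952 (.pos 35 .mp ⟨⟨16098988, 0, 0, 0, 0, 52549462, 0, 0, 0, ⟨0, 0⟩, 0⟩, 0, 0⟩ 0 0) (.pos 35 .mp ⟨⟨16425452, 0, 0, 0, 0, 53237237, 0, 0, 0, ⟨0, 0⟩, 0⟩,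 0, 0⟩ 0 0)) (.cut .l 307582 (.cut .v 16842752 (.cut .d (-16384) (.pos 41 .mp ⟨⟨16009315, 0, 0, 0, 0, 53096574, 0, 0, 0, ⟨0, 0⟩, 0⟩, 0, 0⟩ 0 0) (.cut .s 12541952 (.pos 41 .mp ⟨⟨17184134, 0, 0, 0, 0, 48595304, 0, 0, 0, ⟨0, 0⟩, 0⟩, 0, 0⟩ 0 0) (.cut .s 12554240 (.pos 41 .mp ⟨⟨17409601, 0, 0, 0, 0, 49321488, 0, 0, 0, ⟨0, 0⟩, 0⟩, 0, 0⟩ 0 0) (.pos 41 .mp ⟨⟨17565071, 0, 0, 0, 0, 49680812, 0, 0, 0, ⟨0, 0⟩, 0⟩, 0, 0⟩ 0 0)))) (.pos 42 .mp ⟨⟨21863286, 0, 0, 0, 0, 41258690, 0, 0, 0, ⟨0, 0⟩, 0⟩, 0, 0⟩ 0 0)) (.pos 35 .mp ⟨⟨17201022, 0, 0, 0, 0, 47524221, 0, 0, 0, ⟨0, 0⟩, 0⟩, 0, 0⟩ 0 0))) (.cut .d (-32768) (.cut .s 12591104 (.pos 35 .mp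 ⟨⟨16758730, 0, 0, 0, 0, 53952540, 0, 0, 0, ⟨0, 0⟩, 0⟩, 0, 0⟩ 0 0) (.pos 35 .mp ⟨⟨17098934, 0, 0, 0, 0, 54695883, 0, 0, 0, ⟨0, 0⟩, 0⟩, 0, 0⟩ 0 0)) (.cut .l 307582 (.cut .v 16842752 (.cut .d (-16384) (.pos 41 .mp ⟨⟨16658948, 0, 0, 0, 0, 54550065, 0, 0, 0, ⟨0, 0⟩, 0⟩, 0, 0⟩ 0 0) (.cut .l 153791 (.cut .v 16809984 (.cut .s 12591104 (.pos 45 .mp ⟨⟨17252361, 0, 0, 0, 0, 51194338, 0, 0, 0, ⟨0, 0⟩, 0⟩, 0, 0⟩ 0 0) (.pos 45 .mp ⟨⟨17536165, 0, 0, 0, 0, 52035110, 0, 0, 0, ⟨0, 0⟩, 0⟩, 0, 0⟩ 0 0)) (.pos 46 .mp ⟨⟨22998263, 0, 0, 0, 0, 41430750, 0, 0, 0, ⟨0, 0⟩, 0⟩, 0, 0⟩ 0 0)) (.pos 41 .mp ⟨⟨17324963, 0, 0, 0, 0, 49574478, 0, 0, 0, ⟨0,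 0⟩, 0⟩, 0, 0⟩ 0 0))) (.cut .s 12591104 (.pos 42 .mp ⟨⟨20703069, 0, 0, 0, 0, 45355768, 0, 0, 0, ⟨0, 0⟩, 0⟩, 0, 0⟩ 0 0) (.pos 42 .mp ⟨⟨21083535, 0, 0, 0, 0, 46007341, 0, 0, 0, ⟨0, 0⟩, 0⟩, 0, 0⟩ 0 0))) (.pos 35 .mp ⟨⟨17879850, 0, 0, 0, 0, 48877493, 0, 0, 0, ⟨0, 0⟩, 0⟩, 0, 0⟩ 0 0)))) (.cut .d (-32768) (.cut .l 307582 (.void 36 ⟨⟨100000, 0, 0, 0, 0, 0, 0, 0, 0, ⟨0, 0⟩, 0⟩, 0, 0⟩ 0 0) (.cut .v 16973824 (.cut .s 12566528 (.cut .s 12541952 (.pos 49 .mp ⟨⟨19090865, 0, 0, 0, 0, 46602652, 0, 0, 0, ⟨0, 0⟩, 0⟩, 0, 0⟩ 0 0) (.pos 49 .mp ⟨⟨19427174, 0, 0, 0, 0, 47296433, 0, 0, 0, ⟨0, 0⟩, 0⟩, 0, 0⟩ 0 0)) (.cut .s 12591104 (.pos 49 .mp ⟨⟨19781948,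 0, 0, 0, 0, 47986883, 0, 0, 0, ⟨0, 0⟩, 0⟩, 0, 0⟩ 0 0) (.pos 49 .mp ⟨⟨20156031, 0, 0, 0, 0, 48672426, 0, 0, 0, ⟨0, 0⟩, 0⟩, 0, 0⟩ 0 0))) (.pos 50 .mp ⟨⟨24186289, 0, 0, 0, 0, 40023984, 0, 0, 0, ⟨0, 0⟩, 0⟩, 0, 0⟩ 0 0))) (.pos 36 .mp ⟨⟨40852186, 0, 0, 0, 0, 0, 0, 0, 0, ⟨0, 0⟩, 0⟩, 0, 0⟩ 0 0))) (.cut .d (-32768) (.cut .l 307582 (.void 33 ⟨⟨0, 0, 0, 0, 0, 100000, 0, 0, 0, ⟨0, 0⟩, 0⟩, 0, 0⟩ 0 0) (.cut .v 16908288 (.cut .s 12664832 (.pos 35 .mp ⟨⟨14922968, 0, 0, 0, 0, 60437713, 0, 0, 0, ⟨0, 0⟩, 0⟩, 0, 0⟩ 0 0) (.pos 35 .mp ⟨⟨15531812, 0, 0, 0, 0, 62267582, 0, 0, 0, ⟨0, 0⟩, 0⟩, 0, 0⟩ 0 0)) (.cut .s 12664832 (.cut .d (-49152) (.cut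 .v 16973824 (.cut .s 12640256 (.pos 49 .mp ⟨⟨18898108, 0, 0, 0, 0, 53185891, 0, 0, 0, ⟨0, 0⟩, 0⟩, 0, 0⟩ 0 0) (.pos 49 .mp ⟨⟨19280106, 0, 0, 0, 0, 53936370, 0, 0, 0, ⟨0, 0⟩, 0⟩, 0, 0⟩ 0 0)) (.pos 50 .mp ⟨⟨21861863, 0, 0, 0, 0, 48421926, 0, 0, 0, ⟨0, 0⟩, 0⟩, 0, 0⟩ 0 0)) (.pos 36 .mp ⟨⟨20848714, 0, 0, 0, 0, 48587071, 0, 0, 0, ⟨0, 0⟩, 0⟩, 0, 0⟩ 0 0)) (.cut .d (-49152) (.cut .s 12689408 (.pos 36 .mp ⟨⟨19999649, 0, 0, 0, 0, 54676337, 0, 0, 0, ⟨0, 0⟩, 0⟩, 0, 0⟩ 0 0) (.pos 36 .mp ⟨⟨20330658, 0, 0, 0, 0, 55659783, 0, 0, 0, ⟨0, 0⟩, 0⟩, 0, 0⟩ 0 0)) (.pos 36 .mp ⟨⟨21693087, 0, 0, 0, 0, 49928254, 0, 0, 0, ⟨0, 0⟩, 0⟩, 0, 0⟩ 0 0))))) (.cut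 .l 307582 (.cut .v 16908288 (.cut .s 12664832 (.cut .v 16842752 (.cut .d (-16384) (.pos 41 .mp ⟨⟨17336082, 0, 0, 0, 0, 56116411, 0, 0, 0, ⟨0, 0⟩, 0⟩, 0, 0⟩ 0 0) (.cut .l 153791 (.cut .v 16809984 (.cut .s 12640256 (.pos 45 .mp ⟨⟨17853825, 0, 0, 0, 0, 52839843, 0, 0, 0, ⟨0, 0⟩, 0⟩, 0, 0⟩ 0 0) (.pos 45 .mp ⟨⟨18206664, 0, 0, 0, 0, 53605906, 0, 0, 0, ⟨0, 0⟩, 0⟩, 0, 0⟩ 0 0)) (.pos 46 .mp ⟨⟨23902742, 0, 0, 0, 0, 42511978, 0, 0, 0, ⟨0, 0⟩, 0⟩, 0, 0⟩ 0 0)) (.pos 41 .mp ⟨⟨18005565, 0, 0, 0, 0, 51015744, 0, 0, 0, ⟨0, 0⟩, 0⟩, 0, 0⟩ 0 0))) (.cut .s 12640256 (.pos 42 .mp ⟨⟨21492435, 0, 0, 0, 0, 46639322, 0, 0, 0, ⟨0, 0⟩, 0⟩, 0, 0⟩ 0 0)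 (.pos 42 .mp ⟨⟨21931131, 0, 0, 0, 0, 47249264, 0, 0, 0, ⟨0, 0⟩, 0⟩, 0, 0⟩ 0 0))) (.cut .v 16842752 (.cut .d (-16384) (.pos 41 .mp ⟨⟨18041641, 0, 0, 0, 0, 57799880, 0, 0, 0, ⟨0, 0⟩, 0⟩, 0, 0⟩ 0 0) (.cut .l 153791 (.cut .v 16809984 (.cut .s 12689408 (.pos 45 .mp ⟨⟨18596016, 0, 0, 0, 0, 54330640, 0, 0, 0, ⟨0, 0⟩, 0⟩, 0, 0⟩ 0 0) (.pos 45 .mp ⟨⟨19023231, 0, 0, 0, 0, 55011360, 0, 0, 0, ⟨0, 0⟩, 0⟩, 0, 0⟩ 0 0)) (.pos 46 .mp ⟨⟨24928925, 0, 0, 0, 0, 43499081, 0, 0, 0, ⟨0, 0⟩, 0⟩, 0, 0⟩ 0 0)) (.pos 41 .mp ⟨⟨18713495, 0, 0, 0, 0, 52507597, 0, 0, 0, ⟨0, 0⟩, 0⟩, 0, 0⟩ 0 0))) (.cut .s 12689408 (.pos 42 .mp ⟨⟨22401012, 0, 0, 0, 0, 47834664,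 0, 0, 0, ⟨0, 0⟩, 0⟩, 0, 0⟩ 0 0) (.pos 42 .mp ⟨⟨22903489, 0, 0, 0, 0, 48392967, 0, 0, 0, ⟨0, 0⟩, 0⟩, 0, 0⟩ 0 0)))) (.pos 36 .mp ⟨⟨53306641, 0, 0, 0, 0, 0, 0, 0, 0, ⟨0, 0⟩, 0⟩, 0, 0⟩ 0 0)) (.pos 33 .mp ⟨⟨19834519, 0, 0, 0, 0, 48407309, 0, 0, 0, ⟨0, 0⟩, 0⟩, 0, 0⟩ 0 0))))) (.pos 34 .mp ⟨⟨55132728, 0, 0, 0, 0, 0, 0, 0, 0, ⟨0, 0⟩, 0⟩, 0, 0⟩ 0 0))))) (.pos 32 .mp ⟨⟨68329171, 0, 0, 0, 0, 0, 0, 0, 0, ⟨0, 0⟩, 0⟩, 0, 0⟩ 0 0))) (.void 30 ⟨⟨100000, 0, 0, 0, 0, 0, 0, 0, 0, ⟨0, 0⟩, 0⟩, 0, 0⟩ 0 0)))) (.void 28 ⟨⟨100000, 0, 0, 0, 0, 0, 0, 0, 0, ⟨0, 0⟩, 0⟩, 0, 0⟩ 0 0))) (.void 26 ⟨⟨100000, 0, 0, 0, 0, 0, 0, 0, 0, ⟨0, 0⟩, 0⟩, 0, 0⟩ 0 0)) (.void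 24 ⟨⟨100000, 0, 0, 0, 0, 0, 0, 0, 0, ⟨0, 0⟩, 0⟩, 0, 0⟩ 0 0)) (.void 89 ⟨⟨100006, 0, 0, 0, 0, 0, 0, 0, 0, ⟨0, 0⟩, 0⟩, 0, 0⟩ 0 0))) (.cut .v 16777216 (.cut .v 8388608 (.cut .v 4194304 (.void 4 ⟨⟨0, 0, 66667, 0, 0, 0, 0, 0, 0, ⟨0, 0⟩, 0⟩, 0, 33333⟩ 0 0) (.cut .d 2854763 (.pos 5 .pm ⟨⟨0, 0, 6833792, 0, 0, 0, 0, 0, 0, ⟨0, 0⟩, 0⟩, 0, 620594⟩ 0 0) (.void 5 ⟨⟨0, 0, 0, 0, 0, 0, 0, 0, 0, ⟨0, 0⟩, 0⟩, 0, 100000⟩ 0 0))) (.cut .d 2854763 (.pos 3 .pm ⟨⟨0, 0, 0, 0, 0, 0, 0, 0, 0, ⟨0, 0⟩, 0⟩, 0, 0⟩ 0 0) (.pos 3 .pm ⟨⟨0, 0, 0, 0, 0, 0, 0, 0, 0, ⟨0, 0⟩, 0⟩, 0, 105291981⟩ 0 0))) (.cut .v 33554432 (.cut .d 2854763 (.cut .v 25165824 (.cut .v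 20971520 (.cut .v 18874368 (.pos 27 .pp ⟨⟨25574745, 0, 0, 0, 0, 0, 0, 0, 0, ⟨0, 0⟩, 0⟩, 1657185, 0⟩ 0 0) (.pos 28 .pp ⟨⟨45946521, 0, 0, 0, 0, 0, 0, 0, 0, ⟨0, 0⟩, 0⟩, 0, 446⟩ 0 0)) (.pos 26 .pp ⟨⟨64824219, 0, 0, 0, 0, 0, 0, 0, 0, ⟨0, 0⟩, 0⟩, 0, 0⟩ 0 0)) (.pos 24 .pp ⟨⟨0, 0, 0, 0, 0, 0, 0, 0, 0, ⟨0, 0⟩, 0⟩, 25768654, 0⟩ 0 0)) (.pos 22 .pp ⟨⟨0, 0, 0, 0, 0, 0, 0, 0, 0, ⟨0, 0⟩, 0⟩, 0, 930891⟩ 0 0)) (.pos 89 .pp ⟨⟨0, 85630100, 0, 0, 0, 0, 0, 0, 0, ⟨0, 0⟩, 0⟩, 56454409, 0⟩ 0 0)))),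
    by decide +kernel⟩

def covers21 : cell.Covers Vale.Agent.P237.Petty.Cor.Grid.N6.table row21.1 :=
  ⟨(.cut .d 0 (.cut .v 16777216 (.cut .v 8388608 (.void 2 ⟨⟨0, 0, 100000, 0, 0, 0, 0, 0, 0, ⟨0, 0⟩, 0⟩, 0, 0⟩ 0 0) (.cut .d (-8388608) (.void 3 ⟨⟨0, 0, 0, 0, 0, 100000, 0, 0, 0, ⟨0, 0⟩, 0⟩, 0, 0⟩ 0 0) (.cut .d (-4194304) (.void 3 ⟨⟨0, 0, 0, 0, 0, 100000, 0, 0, 0, ⟨0, 0⟩, 0⟩, 0, 0⟩ 0 0) (.cut .d (-2097152) (.void 3 ⟨⟨0, 0, 0, 0, 0, 100000, 0, 0, 0, ⟨0, 0⟩, 0⟩, 0, 0⟩ 0 0) (.cut .d (-1048576) (.void 3 ⟨⟨0, 0, 0, 0, 0, 100000, 0, 0, 0, ⟨0, 0⟩, 0⟩, 0, 0⟩ 0 0) (.cut .d (-524288) (.void 3 ⟨⟨0, 0, 0, 0, 0, 100000, 0, 0, 0, ⟨0, 0⟩,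 0⟩, 0, 0⟩ 0 0) (.cut .s 12845056 (.pos 3 .mm ⟨⟨0, 0, 0, 0, 0, 96667379, 0, 0, 0, ⟨0, 0⟩, 0⟩, 0, 0⟩ 0 0) (.pos 3 .mm ⟨⟨0, 0, 0, 0, 0, 106167807, 0, 0, 0, ⟨0, 0⟩, 0⟩, 0, 0⟩ 0 0)))))))) (.cut .v 33554432 (.cut .v 25165824 (.cut .v 20971520 (.cut .d (-8388608) (.void 25 ⟨⟨100000, 0, 0, 0, 0, 0, 0, 0, 0, ⟨0, 0⟩, 0⟩, 0, 0⟩ 0 0) (.cut .d (-4194304) (.void 25 ⟨⟨100000, 0, 0, 0, 0, 0, 0, 0, 0, ⟨0, 0⟩, 0⟩, 0, 0⟩ 0 0) (.cut .v 18874368 (.cut .d (-2097152) (.void 27 ⟨⟨100000, 0, 0, 0, 0, 0, 0, 0, 0, ⟨0, 0⟩, 0⟩, 0, 0⟩ 0 0) (.cut .v 17825792 (.cut .d (-1048576) (.void 29 ⟨⟨100000, 0, 0, 0, 0, 0, 0, 0, 0, ⟨0, 0⟩, 0⟩, 0, 0⟩ 0 0) (.cut .v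 17301504 (.cut .d (-524288) (.void 31 ⟨⟨100000, 0, 0, 0, 0, 0, 0, 0, 0, ⟨0, 0⟩, 0⟩, 0, 0⟩ 0 0) (.cut .d (-262144) (.void 31 ⟨⟨100000, 0, 0, 0, 0, 0, 0, 0, 0, ⟨0, 0⟩, 0⟩, 0, 0⟩ 0 0) (.cut .d (-131072) (.void 31 ⟨⟨0, 0, 0, 0, 0, 100000, 0, 0, 0, ⟨0, 0⟩, 0⟩, 0, 0⟩ 0 0) (.cut .d (-65536) (.void 31 ⟨⟨0, 0, 0, 0, 0, 100000, 0, 0, 0, ⟨0, 0⟩, 0⟩, 0, 0⟩ 0 0) (.cut .v 17039360 (.cut .s 12845056 (.cut .d (-32768) (.cut .l 307582 (.void 33 ⟨⟨0, 0, 0, 0, 0, 100000, 0, 0, 0, ⟨0, 0⟩, 0⟩, 0, 0⟩ 0 0) (.cut .v 16908288 (.cut .s 12779520 (.pos 35 .mp ⟨⟨15496359, 0, 0, 0, 0, 66162280, 0, 0, 0, ⟨0, 0⟩, 0⟩, 0, 0⟩ 0 0) (.pos 35 .mp ⟨⟨16028450,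 0, 0, 0, 0, 69417087, 0, 0, 0, ⟨0, 0⟩, 0⟩, 0, 0⟩ 0 0)) (.cut .s 12779520 (.cut .s 12746752 (.cut .s 12730368 (.pos 36 .mp ⟨⟨22180662, 0, 0, 0, 0, 52292208, 0, 0, 0, ⟨0, 0⟩, 0⟩, 0, 0⟩ 0 0) (.pos 36 .mp ⟨⟨22451802, 0, 0, 0, 0, 52803039, 0, 0, 0, ⟨0, 0⟩, 0⟩, 0, 0⟩ 0 0)) (.cut .s 12763136 (.pos 36 .mp ⟨⟨22731259, 0, 0, 0, 0, 53314774, 0, 0, 0, ⟨0, 0⟩, 0⟩, 0, 0⟩ 0 0) (.cut .s 12771328 (.pos 36 .mp ⟨⟨22623494, 0, 0, 0, 0, 54398235, 0, 0, 0, ⟨0, 0⟩, 0⟩, 0, 0⟩ 0 0) (.pos 36 .mp ⟨⟨22776385, 0, 0, 0, 0, 54646923, 0, 0, 0, ⟨0, 0⟩, 0⟩, 0, 0⟩ 0 0)))) (.cut .s 12812288 (.cut .d (-49152) (.cut .s 12795904 (.pos 36 .mp ⟨⟨22912068, 0, 0,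 0, 0, 55468825, 0, 0, 0, ⟨0, 0⟩, 0⟩, 0, 0⟩ 0 0) (.pos 36 .mp ⟨⟨23236743, 0, 0, 0, 0, 55931719, 0, 0, 0, ⟨0, 0⟩, 0⟩, 0, 0⟩ 0 0)) (.pos 36 .mp ⟨⟨23498397, 0, 0, 0, 0, 53402150, 0, 0, 0, ⟨0, 0⟩, 0⟩, 0, 0⟩ 0 0)) (.cut .d (-49152) (.cut .s 12828672 (.pos 36 .mp ⟨⟨23557778, 0, 0, 0, 0, 56427259, 0, 0, 0, ⟨0, 0⟩, 0⟩, 0, 0⟩ 0 0) (.pos 36 .mp ⟨⟨23874654, 0, 0, 0, 0, 56956976, 0, 0, 0, ⟨0, 0⟩, 0⟩, 0, 0⟩ 0 0)) (.pos 36 .mp ⟨⟨24135559, 0, 0, 0, 0, 54348767, 0, 0, 0, ⟨0, 0⟩, 0⟩, 0, 0⟩ 0 0)))))) (.cut .v 16908288 (.cut .l 307582 (.cut .s 12779520 (.cut .s 12746752 (.cut .d (-16384) (.pos 35 .mp ⟨⟨19455379, 0, 0, 0, 0, 57742418, 0, 0,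 0, ⟨0, 0⟩, 0⟩, 0, 0⟩ 0 0) (.cut .s 12730368 (.pos 35 .mp ⟨⟨20230819, 0, 0, 0, 0, 53951779, 0, 0, 0, ⟨0, 0⟩, 0⟩, 0, 0⟩ 0 0) (.pos 35 .mp ⟨⟨20506604, 0, 0, 0, 0, 54404797, 0, 0, 0, ⟨0, 0⟩, 0⟩, 0, 0⟩ 0 0))) (.cut .v 16842752 (.cut .s 12763136 (.pos 41 .mp ⟨⟨19685245, 0, 0, 0, 0, 57394305, 0, 0, 0, ⟨0, 0⟩, 0⟩, 0, 0⟩ 0 0) (.pos 41 .mp ⟨⟨19912718, 0, 0, 0, 0, 58003657, 0, 0, 0, ⟨0, 0⟩, 0⟩, 0, 0⟩ 0 0)) (.pos 42 .mp ⟨⟨24577437, 0, 0, 0, 0, 49077617, 0, 0, 0, ⟨0, 0⟩, 0⟩, 0, 0⟩ 0 0))) (.cut .d (-16384) (.cut .l 153791 (.void 35 ⟨⟨0, 0, 0, 0, 0, 100000, 0, 0, 0, ⟨0, 0⟩, 0⟩, 0, 0⟩ 0 0) (.cut .s 12812288 (.pos 35 .mp ⟨⟨20053460, 0, 0,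 0, 0, 60654230, 0, 0, 0, ⟨0, 0⟩, 0⟩, 0, 0⟩ 0 0) (.pos 35 .mp ⟨⟨20597515, 0, 0, 0, 0, 61826027, 0, 0, 0, ⟨0, 0⟩, 0⟩, 0, 0⟩ 0 0))) (.cut .v 16842752 (.cut .l 153791 (.cut .s 12812288 (.cut .s 12795904 (.pos 41 .mp ⟨⟨21086493, 0, 0, 0, 0, 56344885, 0, 0, 0, ⟨0, 0⟩, 0⟩, 0, 0⟩ 0 0) (.pos 41 .mp ⟨⟨21368893, 0, 0, 0, 0, 56872196, 0, 0, 0, ⟨0, 0⟩, 0⟩, 0, 0⟩ 0 0)) (.cut .s 12828672 (.pos 41 .mp ⟨⟨21655397, 0, 0, 0, 0, 57409986, 0, 0, 0, ⟨0, 0⟩, 0⟩, 0, 0⟩ 0 0) (.pos 41 .mp ⟨⟨21946053, 0, 0, 0, 0, 57958233, 0, 0, 0, ⟨0, 0⟩, 0⟩, 0, 0⟩ 0 0))) (.pos 41 .mp ⟨⟨21009415, 0, 0, 0, 0, 55379023, 0, 0, 0, ⟨0, 0⟩, 0⟩, 0, 0⟩ 0 0)) (.pos 42 .mp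 ⟨⟨47535060, 0, 0, 0, 0, 0, 0, 0, 0, ⟨0, 0⟩, 0⟩, 0, 0⟩ 0 0)))) (.pos 35 .mp ⟨⟨21415527, 0, 0, 0, 0, 51229877, 0, 0, 0, ⟨0, 0⟩, 0⟩, 0, 0⟩ 0 0)) (.pos 36 .mp ⟨⟨47072852, 0, 0, 0, 0, 0, 0, 0, 0, ⟨0, 0⟩, 0⟩, 0, 0⟩ 0 0))) (.cut .d (-32768) (.cut .l 307582 (.void 33 ⟨⟨0, 0, 0, 0, 0, 100000, 0, 0, 0, ⟨0, 0⟩, 0⟩, 0, 0⟩ 0 0) (.cut .v 16908288 (.cut .s 12910592 (.pos 35 .mp ⟨⟨16785290, 0, 0, 0, 0, 72548226, 0, 0, 0, ⟨0, 0⟩, 0⟩, 0, 0⟩ 0 0) (.pos 35 .mp ⟨⟨17800115, 0, 0, 0, 0, 75495706, 0, 0, 0, ⟨0, 0⟩, 0⟩, 0, 0⟩ 0 0)) (.cut .s 12910592 (.cut .s 12877824 (.cut .d (-49152) (.cut .s 12861440 (.pos 36 .mp ⟨⟨24186830, 0, 0, 0, 0, 57522462,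 0, 0, 0, ⟨0, 0⟩, 0⟩, 0, 0⟩ 0 0) (.pos 36 .mp ⟨⟨24493738, 0, 0, 0, 0, 58125375, 0, 0, 0, ⟨0, 0⟩, 0⟩, 0, 0⟩ 0 0)) (.pos 36 .mp ⟨⟨24791223, 0, 0, 0, 0, 55350171, 0, 0, 0, ⟨0, 0⟩, 0⟩, 0, 0⟩ 0 0)) (.cut .d (-49152) (.cut .s 12894208 (.pos 36 .mp ⟨⟨24794787, 0, 0, 0, 0, 58767440, 0, 0, 0, ⟨0, 0⟩, 0⟩, 0, 0⟩ 0 0) (.pos 36 .mp ⟨⟨24024232, 0, 0, 0, 0, 62856796, 0, 0, 0, ⟨0, 0⟩, 0⟩, 0, 0⟩ 0 0)) (.pos 36 .mp ⟨⟨25465831, 0, 0, 0, 0, 56407779, 0, 0, 0, ⟨0, 0⟩, 0⟩, 0, 0⟩ 0 0))) (.cut .v 16973824 (.cut .l 461373 (.pos 49 .mp ⟨⟨27544088, 0, 0, 0, 0, 58536761, 0, 0, 0, ⟨0, 0⟩, 0⟩, 0, 0⟩ 0 0) (.cut .s 12943360 (.pos 49 .mp ⟨⟨23053388, 0, 0,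 0, 0, 64785590, 0, 0, 0, ⟨0, 0⟩, 0⟩, 0, 0⟩ 0 0) (.pos 49 .mp ⟨⟨23684798, 0, 0, 0, 0, 66082463, 0, 0, 0, ⟨0, 0⟩, 0⟩, 0, 0⟩ 0 0))) (.pos 50 .mp ⟨⟨29462899, 0, 0, 0, 0, 54617824, 0, 0, 0, ⟨0, 0⟩, 0⟩, 0, 0⟩ 0 0))))) (.cut .l 307582 (.cut .v 16908288 (.cut .s 12910592 (.cut .d (-16384) (.cut .l 153791 (.void 35 ⟨⟨0, 0, 0, 0, 0, 100000, 0, 0, 0, ⟨0, 0⟩, 0⟩, 0, 0⟩ 0 0) (.cut .s 12877824 (.pos 35 .mp ⟨⟨21157257, 0, 0, 0, 0, 63042384, 0, 0, 0, ⟨0, 0⟩, 0⟩, 0, 0⟩ 0 0) (.pos 35 .mp ⟨⟨21733058, 0, 0, 0, 0, 64303156, 0, 0, 0, ⟨0, 0⟩, 0⟩, 0, 0⟩ 0 0))) (.cut .v 16842752 (.cut .l 153791 (.cut .s 12877824 (.cut .s 12861440 (.pos 41 .mp ⟨⟨22240912,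 0, 0, 0, 0, 58516913, 0, 0, 0, ⟨0, 0⟩, 0⟩, 0, 0⟩ 0 0) (.pos 41 .mp ⟨⟨22540023, 0, 0, 0, 0, 59085999, 0, 0, 0, ⟨0, 0⟩, 0⟩, 0, 0⟩ 0 0)) (.cut .s 12894208 (.pos 41 .mp ⟨⟨22843436, 0, 0, 0, 0, 59665465, 0, 0, 0, ⟨0, 0⟩, 0⟩, 0, 0⟩ 0 0) (.pos 41 .mp ⟨⟨23151204, 0, 0, 0, 0, 60255282, 0, 0, 0, ⟨0, 0⟩, 0⟩, 0, 0⟩ 0 0))) (.pos 41 .mp ⟨⟨22127432, 0, 0, 0, 0, 57581460, 0, 0, 0, ⟨0, 0⟩, 0⟩, 0, 0⟩ 0 0)) (.pos 42 .mp ⟨⟨49642592, 0, 0, 0, 0, 0, 0, 0, 0, ⟨0, 0⟩, 0⟩, 0, 0⟩ 0 0))) (.cut .d (-16384) (.cut .s 12943360 (.pos 35 .mp ⟨⟨22325303, 0, 0, 0, 0, 66470699, 0, 0, 0, ⟨0, 0⟩, 0⟩, 0, 0⟩ 0 0) (.pos 35 .mp ⟨⟨22934394, 0, 0, 0, 0, 67918380,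 0, 0, 0, ⟨0, 0⟩, 0⟩, 0, 0⟩ 0 0)) (.cut .v 16842752 (.cut .l 153791 (.cut .s 12943360 (.cut .s 12926976 (.pos 41 .mp ⟨⟨23463380, 0, 0, 0, 0, 60855420, 0, 0, 0, ⟨0, 0⟩, 0⟩, 0, 0⟩ 0 0) (.pos 41 .mp ⟨⟨23780016, 0, 0, 0, 0, 61465848, 0, 0, 0, ⟨0, 0⟩, 0⟩, 0, 0⟩ 0 0)) (.cut .s 12959744 (.pos 41 .mp ⟨⟨24101167, 0, 0, 0, 0, 62086531, 0, 0, 0, ⟨0, 0⟩, 0⟩, 0, 0⟩ 0 0) (.pos 41 .mp ⟨⟨24403190, 0, 0, 0, 0, 62772731, 0, 0, 0, ⟨0, 0⟩, 0⟩, 0, 0⟩ 0 0))) (.pos 41 .mp ⟨⟨23305730, 0, 0, 0, 0, 59895729, 0, 0, 0, ⟨0, 0⟩, 0⟩, 0, 0⟩ 0 0)) (.pos 42 .mp ⟨⟨51921923, 0, 0, 0, 0, 0, 0, 0, 0, ⟨0, 0⟩, 0⟩, 0, 0⟩ 0 0)))) (.pos 36 .mp ⟨⟨61768823, 0, 0, 0,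 0, 0, 0, 0, 0, ⟨0, 0⟩, 0⟩, 0, 0⟩ 0 0)) (.cut .s 12910592 (.pos 33 .mp ⟨⟨23642194, 0, 0, 0, 0, 55437971, 0, 0, 0, ⟨0, 0⟩, 0⟩, 0, 0⟩ 0 0) (.pos 33 .mp ⟨⟨24927016, 0, 0, 0, 0, 57588435, 0, 0, 0, ⟨0, 0⟩, 0⟩, 0, 0⟩ 0 0))))) (.pos 34 .mp ⟨⟨59417569, 0, 0, 0, 0, 0, 0, 0, 0, ⟨0, 0⟩, 0⟩, 0, 0⟩ 0 0)))))) (.pos 32 .mp ⟨⟨80988399, 0, 0, 0, 0, 0, 0, 0, 0, ⟨0, 0⟩, 0⟩, 0, 0⟩ 0 0))) (.void 30 ⟨⟨100000, 0, 0, 0, 0, 0, 0, 0, 0, ⟨0, 0⟩, 0⟩, 0, 0⟩ 0 0))) (.void 28 ⟨⟨100000, 0, 0, 0, 0, 0, 0, 0, 0, ⟨0, 0⟩, 0⟩, 0, 0⟩ 0 0)))) (.void 26 ⟨⟨100000, 0, 0, 0, 0, 0, 0, 0, 0, ⟨0, 0⟩, 0⟩, 0, 0⟩ 0 0)) (.void 24 ⟨⟨100000, 0, 0, 0, 0, 0, 0, 0, 0, ⟨0, 0⟩,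 0⟩, 0, 0⟩ 0 0)) (.void 89 ⟨⟨100000, 0, 0, 0, 0, 0, 0, 0, 0, ⟨0, 0⟩, 0⟩, 0, 0⟩ 0 0))) (.cut .v 16777216 (.cut .v 8388608 (.cut .v 4194304 (.void 4 ⟨⟨0, 0, 66667, 0, 0, 0, 0, 0, 0, ⟨0, 0⟩, 0⟩, 0, 33333⟩ 0 0) (.cut .d 2680896 (.pos 5 .pm ⟨⟨0, 0, 6355357, 0, 0, 0, 0, 0, 0, ⟨0, 0⟩, 0⟩, 0, 608744⟩ 0 0) (.pos 5 .pm ⟨⟨0, 0, 0, 0, 0, 0, 0, 0, 0, ⟨0, 0⟩, 0⟩, 0, 29419960⟩ 0 0))) (.cut .d 2680896 (.pos 3 .pm ⟨⟨0, 0, 0, 0, 0, 0, 0, 0, 0, ⟨0, 0⟩, 0⟩, 0, 0⟩ 0 0) (.pos 3 .pm ⟨⟨0, 0, 0, 0, 0, 0, 0, 0, 0, ⟨0, 0⟩, 0⟩, 0, 8326463⟩ 0 0))) (.cut .v 33554432 (.cut .d 2680896 (.cut .v 25165824 (.cut .v 20971520 (.cut .v 18874368 (.pos 27 .pp ⟨⟨34316802,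 0, 0, 0, 0, 0, 0, 0, 0, ⟨0, 0⟩, 0⟩, 622316, 0⟩ 0 0) (.pos 28 .pp ⟨⟨52309049, 0, 0, 0, 0, 0, 0, 0, 0, ⟨0, 0⟩, 0⟩, 0, 0⟩ 0 0)) (.pos 26 .pp ⟨⟨73786894, 0, 0, 0, 0, 0, 0, 0, 0, ⟨0, 0⟩, 0⟩, 0, 0⟩ 0 0)) (.pos 24 .pp ⟨⟨0, 0, 0, 0, 0, 0, 0, 0, 0, ⟨0, 0⟩, 0⟩, 29362809, 0⟩ 0 0)) (.pos 22 .pp ⟨⟨0, 0, 0, 0, 0, 0, 0, 0, 0, ⟨0, 0⟩, 0⟩, 0, 913116⟩ 0 0)) (.pos 89 .pp ⟨⟨0, 107734900, 0, 0, 0, 0, 0, 0, 0, ⟨0, 0⟩, 0⟩, 64567153, 0⟩ 0 0)))),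
    by decide +kernel⟩

def covers22 : cell.Covers Vale.Agent.P237.Petty.Cor.Grid.N6.table row22.1 :=
  ⟨(.cut .d 0 (.cut .v 16777216 (.cut .v 8388608 (.void 2 ⟨⟨0, 0, 100000, 0, 0, 0, 0, 0, 0, ⟨0, 0⟩, 0⟩, 0, 0⟩ 0 0) (.cut .d (-8388608) (.void 3 ⟨⟨0, 0, 0, 0, 0, 100000, 0, 0, 0, ⟨0, 0⟩, 0⟩, 0, 0⟩ 0 0) (.cut .d (-4194304) (.void 3 ⟨⟨0, 0, 0, 0, 0, 100000, 0, 0, 0, ⟨0, 0⟩, 0⟩, 0, 0⟩ 0 0) (.cut .d (-2097152) (.void 3 ⟨⟨0, 0, 0, 0, 0, 100000, 0, 0, 0, ⟨0, 0⟩, 0⟩, 0, 0⟩ 0 0) (.cut .d (-1048576) (.void 3 ⟨⟨0, 0, 0, 0, 0, 100000, 0, 0, 0, ⟨0, 0⟩, 0⟩, 0, 0⟩ 0 0) (.cut .d (-524288) (.void 3 ⟨⟨0, 0, 0, 0, 0, 100000, 0, 0, 0, ⟨0, 0⟩,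 0⟩, 0, 0⟩ 0 0) (.cut .s 13107200 (.pos 3 .mm ⟨⟨0, 0, 0, 0, 0, 116874882, 0, 0, 0, ⟨0, 0⟩, 0⟩, 0, 0⟩ 0 0) (.pos 3 .mm ⟨⟨0, 0, 0, 0, 0, 128816206, 0, 0, 0, ⟨0, 0⟩, 0⟩, 0, 0⟩ 0 0)))))))) (.cut .v 67108864 (.cut .v 33554432 (.cut .v 25165824 (.cut .v 20971520 (.cut .d (-8388608) (.void 25 ⟨⟨100000, 0, 0, 0, 0, 0, 0, 0, 0, ⟨0, 0⟩, 0⟩, 0, 0⟩ 0 0) (.cut .d (-4194304) (.void 25 ⟨⟨100000, 0, 0, 0, 0, 0, 0, 0, 0, ⟨0, 0⟩, 0⟩, 0, 0⟩ 0 0) (.cut .v 18874368 (.cut .d (-2097152) (.void 27 ⟨⟨100000, 0, 0, 0, 0, 0, 0, 0, 0, ⟨0, 0⟩, 0⟩, 0, 0⟩ 0 0) (.cut .v 17825792 (.cut .d (-1048576) (.void 29 ⟨⟨100000, 0, 0, 0, 0, 0, 0, 0, 0, ⟨0, 0⟩, 0⟩,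 0, 0⟩ 0 0) (.cut .v 17301504 (.cut .d (-524288) (.void 31 ⟨⟨100000, 0, 0, 0, 0, 0, 0, 0, 0, ⟨0, 0⟩, 0⟩, 0, 0⟩ 0 0) (.cut .d (-262144) (.void 31 ⟨⟨100000, 0, 0, 0, 0, 0, 0, 0, 0, ⟨0, 0⟩, 0⟩, 0, 0⟩ 0 0) (.cut .d (-131072) (.void 31 ⟨⟨0, 0, 0, 0, 0, 100000, 0, 0, 0, ⟨0, 0⟩, 0⟩, 0, 0⟩ 0 0) (.cut .d (-65536) (.void 31 ⟨⟨0, 0, 0, 0, 0, 100000, 0, 0, 0, ⟨0, 0⟩, 0⟩, 0, 0⟩ 0 0) (.cut .v 17039360 (.cut .s 13107200 (.cut .d (-32768) (.cut .l 307582 (.void 33 ⟨⟨0, 0, 0, 0, 0, 100000, 0, 0, 0, ⟨0, 0⟩, 0⟩, 0, 0⟩ 0 0) (.cut .v 16908288 (.cut .s 13041664 (.pos 35 .mp ⟨⟨20118497, 0, 0, 0, 0, 76669420, 0, 0, 0, ⟨0, 0⟩, 0⟩, 0, 0⟩ 0 0) (.pos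 35 .mp ⟨⟨20653459, 0, 0, 0, 0, 80887031, 0, 0, 0, ⟨0, 0⟩, 0⟩, 0, 0⟩ 0 0)) (.cut .s 13041664 (.cut .l 461373 (.pos 36 .mp ⟨⟨28917093, 0, 0, 0, 0, 61900322, 0, 0, 0, ⟨0, 0⟩, 0⟩, 0, 0⟩ 0 0) (.cut .d (-49152) (.cut .s 13008896 (.pos 36 .mp ⟨⟨25742966, 0, 0, 0, 0, 67607527, 0, 0, 0, ⟨0, 0⟩, 0⟩, 0, 0⟩ 0 0) (.pos 36 .mp ⟨⟨26423885, 0, 0, 0, 0, 68984068, 0, 0, 0, ⟨0, 0⟩, 0⟩, 0, 0⟩ 0 0)) (.pos 36 .mp ⟨⟨27760380, 0, 0, 0, 0, 60414080, 0, 0, 0, ⟨0, 0⟩, 0⟩, 0, 0⟩ 0 0))) (.cut .d (-49152) (.cut .v 16973824 (.pos 49 .mp ⟨⟨26847183, 0, 0, 0, 0, 71540323, 0, 0, 0, ⟨0, 0⟩, 0⟩, 0, 0⟩ 0 0) (.pos 50 .mp ⟨⟨30238416, 0, 0, 0, 0, 65840261, 0,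 0, 0, ⟨0, 0⟩, 0⟩, 0, 0⟩ 0 0)) (.cut .s 13074432 (.pos 36 .mp ⟨⟨29043932, 0, 0, 0, 0, 62617440, 0, 0, 0, ⟨0, 0⟩, 0⟩, 0, 0⟩ 0 0) (.cut .s 13090816 (.pos 36 .mp ⟨⟨28879929, 0, 0, 0, 0, 65318247, 0, 0, 0, ⟨0, 0⟩, 0⟩, 0, 0⟩ 0 0) (.pos 36 .mp ⟨⟨29253391, 0, 0, 0, 0, 65988423, 0, 0, 0, ⟨0, 0⟩, 0⟩, 0, 0⟩ 0 0))))))) (.cut .l 307582 (.cut .v 16908288 (.cut .s 13041664 (.cut .d (-16384) (.cut .s 13008896 (.pos 35 .mp ⟨⟨23560951, 0, 0, 0, 0, 69438921, 0, 0, 0, ⟨0, 0⟩, 0⟩, 0, 0⟩ 0 0) (.pos 35 .mp ⟨⟨24208607, 0, 0, 0, 0, 70657529, 0, 0, 0, ⟨0, 0⟩, 0⟩, 0, 0⟩ 0 0)) (.cut .v 16842752 (.cut .l 153791 (.cut .s 13008896 (.cut .s 12992512 (.pos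 41 .mp ⟨⟨24698431, 0, 0, 0, 0, 63497564, 0, 0, 0, ⟨0, 0⟩, 0⟩, 0, 0⟩ 0 0) (.pos 41 .mp ⟨⟨25092946, 0, 0, 0, 0, 63926920, 0, 0, 0, ⟨0, 0⟩, 0⟩, 0, 0⟩ 0 0)) (.cut .s 13025280 (.pos 41 .mp ⟨⟨25433743, 0, 0, 0, 0, 64506980, 0, 0, 0, ⟨0, 0⟩, 0⟩, 0, 0⟩ 0 0) (.pos 41 .mp ⟨⟨25779617, 0, 0, 0, 0, 65100682, 0, 0, 0, ⟨0, 0⟩, 0⟩, 0, 0⟩ 0 0))) (.pos 41 .mp ⟨⟨25179136, 0, 0, 0, 0, 61478255, 0, 0, 0, ⟨0, 0⟩, 0⟩, 0, 0⟩ 0 0)) (.pos 42 .mp ⟨⟨54390023, 0, 0, 0, 0, 0, 0, 0, 0, ⟨0, 0⟩, 0⟩, 0, 0⟩ 0 0))) (.cut .d (-16384) (.cut .s 13074432 (.pos 35 .mp ⟨⟨24875924, 0, 0, 0, 0, 71952731, 0, 0, 0, ⟨0, 0⟩, 0⟩, 0, 0⟩ 0 0) (.pos 35 .mp ⟨⟨25563396, 0,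 0, 0, 0, 73326665, 0, 0, 0, ⟨0, 0⟩, 0⟩, 0, 0⟩ 0 0)) (.cut .v 16842752 (.cut .l 153791 (.cut .s 13074432 (.cut .s 13058048 (.pos 41 .mp ⟨⟨26130761, 0, 0, 0, 0, 65707698, 0, 0, 0, ⟨0, 0⟩, 0⟩, 0, 0⟩ 0 0) (.pos 41 .mp ⟨⟨26487238, 0, 0, 0, 0, 66327991, 0, 0, 0, ⟨0, 0⟩, 0⟩, 0, 0⟩ 0 0)) (.cut .s 13090816 (.pos 41 .mp ⟨⟨26849118, 0, 0, 0, 0, 66961522, 0, 0, 0, ⟨0, 0⟩, 0⟩, 0, 0⟩ 0 0) (.pos 41 .mp ⟨⟨27216469, 0, 0, 0, 0, 67608250, 0, 0, 0, ⟨0, 0⟩, 0⟩, 0, 0⟩ 0 0))) (.pos 41 .mp ⟨⟨26588367, 0, 0, 0, 0, 63835999, 0, 0, 0, ⟨0, 0⟩, 0⟩, 0, 0⟩ 0 0)) (.pos 42 .mp ⟨⟨56735499, 0, 0, 0, 0, 0, 0, 0, 0, ⟨0, 0⟩, 0⟩, 0, 0⟩ 0 0)))) (.pos 36 .mp ⟨⟨67766297,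 0, 0, 0, 0, 0, 0, 0, 0, ⟨0, 0⟩, 0⟩, 0, 0⟩ 0 0)) (.cut .d (-16384) (.cut .d (-24576) (.cut .v 16908288 (.cut .s 13041664 (.pos 35 .mp ⟨⟨22957445, 0, 0, 0, 0, 69538944, 0, 0, 0, ⟨0, 0⟩, 0⟩, 0, 0⟩ 0 0) (.pos 35 .mp ⟨⟨24254183, 0, 0, 0, 0, 72039358, 0, 0, 0, ⟨0, 0⟩, 0⟩, 0, 0⟩ 0 0)) (.pos 36 .mp ⟨⟨54873872, 0, 0, 0, 0, 0, 0, 0, 0, ⟨0, 0⟩, 0⟩, 0, 0⟩ 0 0)) (.pos 33 .mp ⟨⟨27500237, 0, 0, 0, 0, 0, 0, 0, 0, ⟨0, 0⟩, 0⟩, 0, 0⟩ 0 0)) (.pos 33 .mp ⟨⟨25551627, 0, 0, 0, 0, 0, 0, 0, 0, ⟨0, 0⟩, 0⟩, 0, 0⟩ 0 0)))) (.cut .d (-32768) (.cut .l 307582 (.void 33 ⟨⟨0, 0, 0, 0, 0, 100000, 0, 0, 0, ⟨0, 0⟩, 0⟩, 0, 0⟩ 0 0) (.cut .s 13172736 (.cut .v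 16908288 (.pos 35 .mp ⟨⟨21474780, 0, 0, 0, 0, 84948868, 0, 0, 0, ⟨0, 0⟩, 0⟩, 0, 0⟩ 0 0) (.cut .d (-49152) (.cut .s 13139968 (.cut .s 13123584 (.pos 36 .mp ⟨⟨28688104, 0, 0, 0, 0, 71804772, 0, 0, 0, ⟨0, 0⟩, 0⟩, 0, 0⟩ 0 0) (.pos 36 .mp ⟨⟨29086427, 0, 0, 0, 0, 72503185, 0, 0, 0, ⟨0, 0⟩, 0⟩, 0, 0⟩ 0 0)) (.pos 36 .mp ⟨⟨29490658, 0, 0, 0, 0, 74453253, 0, 0, 0, ⟨0, 0⟩, 0⟩, 0, 0⟩ 0 0)) (.cut .l 461373 (.pos 36 .mp ⟨⟨31655017, 0, 0, 0, 0, 66230664, 0, 0, 0, ⟨0, 0⟩, 0⟩, 0, 0⟩ 0 0) (.cut .s 13139968 (.pos 36 .mp ⟨⟨29894088, 0, 0, 0, 0, 66259404, 0, 0, 0, ⟨0, 0⟩, 0⟩, 0, 0⟩ 0 0) (.pos 36 .mp ⟨⟨30705473, 0, 0, 0, 0, 67584400, 0, 0, 0,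 ⟨0, 0⟩, 0⟩, 0, 0⟩ 0 0))))) (.cut .v 16908288 (.pos 35 .mp ⟨⟨22627931, 0, 0, 0, 0, 88772220, 0, 0, 0, ⟨0, 0⟩, 0⟩, 0, 0⟩ 0 0) (.cut .d (-49152) (.cut .s 13205504 (.pos 36 .mp ⟨⟨30317150, 0, 0, 0, 0, 75893389, 0, 0, 0, ⟨0, 0⟩, 0⟩, 0, 0⟩ 0 0) (.pos 36 .mp ⟨⟨31168209, 0, 0, 0, 0, 77360955, 0, 0, 0, ⟨0, 0⟩, 0⟩, 0, 0⟩ 0 0)) (.cut .s 13205504 (.cut .s 13189120 (.pos 36 .mp ⟨⟨31310631, 0, 0, 0, 0, 69300456, 0, 0, 0, ⟨0, 0⟩, 0⟩, 0, 0⟩ 0 0) (.pos 36 .mp ⟨⟨31762598, 0, 0, 0, 0, 69950112, 0, 0, 0, ⟨0, 0⟩, 0⟩, 0, 0⟩ 0 0)) (.pos 36 .mp ⟨⟨33248461, 0, 0, 0, 0, 68992780, 0, 0, 0, ⟨0, 0⟩, 0⟩, 0, 0⟩ 0 0)))))) (.cut .l 307582 (.cut .v 16908288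 (.cut .s 13172736 (.cut .d (-16384) (.cut .s 13139968 (.pos 35 .mp ⟨⟨26271534, 0, 0, 0, 0, 74781548, 0, 0, 0, ⟨0, 0⟩, 0⟩, 0, 0⟩ 0 0) (.pos 35 .mp ⟨⟨27000871, 0, 0, 0, 0, 76319673, 0, 0, 0, ⟨0, 0⟩, 0⟩, 0, 0⟩ 0 0)) (.cut .v 16842752 (.cut .l 153791 (.cut .s 13139968 (.cut .d (-8192) (.pos 41 .mp ⟨⟨25988966, 0, 0, 0, 0, 74803710, 0, 0, 0, ⟨0, 0⟩, 0⟩, 0, 0⟩ 0 0) (.cut .s 13123584 (.pos 41 .mp ⟨⟨26868931, 0, 0, 0, 0, 69746065, 0, 0, 0, ⟨0, 0⟩, 0⟩, 0, 0⟩ 0 0) (.pos 41 .mp ⟨⟨27242959, 0, 0, 0, 0, 70421055, 0, 0, 0, ⟨0, 0⟩, 0⟩, 0, 0⟩ 0 0))) (.cut .d (-8192) (.pos 41 .mp ⟨⟨26707574, 0, 0, 0, 0, 76351675, 0, 0, 0, ⟨0, 0⟩, 0⟩, 0, 0⟩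 0 0) (.cut .s 13156352 (.pos 41 .mp ⟨⟨27618979, 0, 0, 0, 0, 71120730, 0, 0, 0, ⟨0, 0⟩, 0⟩, 0, 0⟩ 0 0) (.pos 41 .mp ⟨⟨27996863, 0, 0, 0, 0, 71845648, 0, 0, 0, ⟨0, 0⟩, 0⟩, 0, 0⟩ 0 0)))) (.pos 41 .mp ⟨⟨28083949, 0, 0, 0, 0, 66325208, 0, 0, 0, ⟨0, 0⟩, 0⟩, 0, 0⟩ 0 0)) (.pos 42 .mp ⟨⟨59292150, 0, 0, 0, 0, 0, 0, 0, 0, ⟨0, 0⟩, 0⟩, 0, 0⟩ 0 0))) (.cut .d (-16384) (.cut .s 13205504 (.pos 35 .mp ⟨⟨27751955, 0, 0, 0, 0, 77943418, 0, 0, 0, ⟨0, 0⟩, 0⟩, 0, 0⟩ 0 0) (.pos 35 .mp ⟨⟨28525357, 0, 0, 0, 0, 79655245, 0, 0, 0, ⟨0, 0⟩, 0⟩, 0, 0⟩ 0 0)) (.cut .v 16842752 (.cut .l 153791 (.cut .s 13205504 (.cut .s 13189120 (.cut .s 13180928 (.pos 41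 .mp ⟨⟨28809135, 0, 0, 0, 0, 71348716, 0, 0, 0, ⟨0, 0⟩, 0⟩, 0, 0⟩ 0 0) (.pos 41 .mp ⟨⟨29000887, 0, 0, 0, 0, 71725594, 0, 0, 0, ⟨0, 0⟩, 0⟩, 0, 0⟩ 0 0)) (.pos 41 .mp ⟨⟨29539467, 0, 0, 0, 0, 71763175, 0, 0, 0, ⟨0, 0⟩, 0⟩, 0, 0⟩ 0 0)) (.cut .s 13221888 (.pos 41 .mp ⟨⟨29947144, 0, 0, 0, 0, 72500946, 0, 0, 0, ⟨0, 0⟩, 0⟩, 0, 0⟩ 0 0) (.pos 41 .mp ⟨⟨30360888, 0, 0, 0, 0, 73251503, 0, 0, 0, ⟨0, 0⟩, 0⟩, 0, 0⟩ 0 0))) (.pos 41 .mp ⟨⟨29670443, 0, 0, 0, 0, 68932422, 0, 0, 0, ⟨0, 0⟩, 0⟩, 0, 0⟩ 0 0)) (.pos 42 .mp ⟨⟨62070632, 0, 0, 0, 0, 0, 0, 0, 0, ⟨0, 0⟩, 0⟩, 0, 0⟩ 0 0)))) (.pos 36 .mp ⟨⟨73530531, 0, 0, 0, 0, 0, 0, 0, 0, ⟨0, 0⟩, 0⟩, 0, 0⟩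 0 0)) (.cut .d (-16384) (.cut .d (-24576) (.cut .v 16908288 (.cut .s 13172736 (.pos 35 .mp ⟨⟨25629544, 0, 0, 0, 0, 74813100, 0, 0, 0, ⟨0, 0⟩, 0⟩, 0, 0⟩ 0 0) (.pos 35 .mp ⟨⟨27087599, 0, 0, 0, 0, 77868336, 0, 0, 0, ⟨0, 0⟩, 0⟩, 0, 0⟩ 0 0)) (.pos 36 .mp ⟨⟨59692890, 0, 0, 0, 0, 0, 0, 0, 0, ⟨0, 0⟩, 0⟩, 0, 0⟩ 0 0)) (.pos 33 .mp ⟨⟨30667637, 0, 0, 0, 0, 0, 0, 0, 0, ⟨0, 0⟩, 0⟩, 0, 0⟩ 0 0)) (.pos 33 .mp ⟨⟨28266997, 0, 0, 0, 0, 0, 0, 0, 0, ⟨0, 0⟩, 0⟩, 0, 0⟩ 0 0))))) (.pos 34 .mp ⟨⟨71138859, 0, 0, 0, 0, 0, 0, 0, 0, ⟨0, 0⟩, 0⟩, 0, 0⟩ 0 0)))))) (.pos 32 .mp ⟨⟨96904126, 0, 0, 0, 0, 0, 0, 0, 0, ⟨0, 0⟩, 0⟩, 0, 0⟩ 0 0))) (.void 30 ⟨⟨100000,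 0, 0, 0, 0, 0, 0, 0, 0, ⟨0, 0⟩, 0⟩, 0, 0⟩ 0 0))) (.void 28 ⟨⟨100000, 0, 0, 0, 0, 0, 0, 0, 0, ⟨0, 0⟩, 0⟩, 0, 0⟩ 0 0)))) (.void 26 ⟨⟨100000, 0, 0, 0, 0, 0, 0, 0, 0, ⟨0, 0⟩, 0⟩, 0, 0⟩ 0 0)) (.void 24 ⟨⟨100000, 0, 0, 0, 0, 0, 0, 0, 0, ⟨0, 0⟩, 0⟩, 0, 0⟩ 0 0)) (.void 89 ⟨⟨100000, 0, 0, 0, 0, 0, 0, 0, 0, ⟨0, 0⟩, 0⟩, 0, 0⟩ 0 0)) (.void 96 ⟨⟨100000, 0, 0, 0, 0, 0, 0, 0, 0, ⟨0, 0⟩, 0⟩, 0, 0⟩ 0 0))) (.cut .v 16777216 (.cut .v 8388608 (.cut .v 4194304 (.cut .v 2097152 (.void 97 ⟨⟨0, 0, 50000, 0, 50000, 0, 0, 0, 0, ⟨0, 0⟩, 0⟩, 0, 0⟩ 0 0) (.void 98 ⟨⟨0, 0, 45679, 0, 0, 0, 0, 0, 54321, ⟨0, 0⟩, 7053950⟩, 0, 0⟩ 0 0)) (.cut .d 2457270 (.pos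 5 .pm ⟨⟨0, 0, 6541250, 0, 0, 0, 0, 0, 0, ⟨0, 0⟩, 0⟩, 0, 422109⟩ 0 0) (.pos 5 .pm ⟨⟨0, 0, 0, 0, 0, 0, 0, 0, 0, ⟨0, 0⟩, 0⟩, 0, 7310984⟩ 0 0))) (.cut .d 2457270 (.pos 3 .pm ⟨⟨0, 0, 0, 0, 0, 0, 0, 0, 0, ⟨0, 0⟩, 0⟩, 0, 0⟩ 0 0) (.pos 3 .pm ⟨⟨0, 0, 0, 0, 0, 0, 0, 0, 0, ⟨0, 0⟩, 0⟩, 0, 9832396⟩ 0 0))) (.cut .v 67108864 (.cut .v 33554432 (.cut .d 2457270 (.cut .v 25165824 (.cut .d 1228635 (.cut .v 20971520 (.cut .v 18874368 (.pos 27 .pp ⟨⟨25129781, 0, 0, 0, 0, 0, 0, 0, 0, ⟨0, 0⟩, 0⟩, 6732349, 0⟩ 0 0) (.pos 28 .pp ⟨⟨73083823, 0, 0, 0, 0, 0, 0, 0, 0, ⟨0, 0⟩, 0⟩, 0, 0⟩ 0 0)) (.pos 26 .pp ⟨⟨103072142, 0, 0, 0, 0, 0, 0, 0, 0, ⟨0, 0⟩, 0⟩,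 0, 0⟩ 0 0)) (.pos 23 .pp ⟨⟨0, 0, 0, 0, 0, 0, 0, 0, 0, ⟨0, 0⟩, 0⟩, 0, 884101⟩ 0 0)) (.pos 24 .pp ⟨⟨0, 0, 0, 0, 0, 0, 0, 0, 0, ⟨0, 0⟩, 0⟩, 34200353, 0⟩ 0 0)) (.pos 22 .pp ⟨⟨0, 0, 0, 0, 0, 0, 0, 0, 0, ⟨0, 0⟩, 0⟩, 0, 884101⟩ 0 0)) (.pos 89 .pp ⟨⟨0, 132342657, 0, 0, 0, 0, 0, 0, 0, ⟨0, 0⟩, 0⟩, 74727510, 0⟩ 0 0)) (.void 96 ⟨⟨0, 0, 0, 49241, 0, 0, 0, 0, 0, ⟨0, 0⟩, 0⟩, 50759, 0⟩ 0 0)))),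
    by decide +kernel⟩

end Vale.Agent.P237.Petty.Cor.Grid.Tiny.N6
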